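import Vale.Agent.P155.Defs2

/-!
# P155 block I: distances on `ℤ²`
-/

namespace Vale.Agent.P155.H904

open Vale.Agent.P155

theorem dn_le_iff {u v : Pt} {n : ℕ} : dn u v ≤ n ↔ |u.1 - v.1| ≤ n ∧ |u.2 - v.2| ≤ n := by
  unfold dn dinf
  rw [Int.toNat_le, max_le_iff]

theorem dn_cast (u v : Pt) : ((dn u v : ℕ) : ℤ) = max |u.1 - v.1| |u.2 - v.2| := by
  unfold dn dinf
  exact Int.toNat_of_nonneg (le_trans (abs_nonneg _) (le_max_left _ _))

theorem dn_self (u : Pt) : dn u u = 0 := by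
  have := dn_cast u u
  simp at this
  exact this

theorem dn_comm (u v : Pt) : dn u v = dn v u := by
  have h1 := dn_cast u v
  have h2 := dn_cast v u
  rw [abs_sub_comm v.1, abs_sub_comm v.2] at h2
  omega

theorem dn_tri (u v w : Pt) : dn u w ≤ dn u v + dn v w := by
  rw [dn_le_iff]
  have h1 := (dn_le_iff (u := u) (v := v) (n := dn u v)).1 le_rfl
  have h2 := (dn_le_iff (u := v) (v := w) (n := dn v w)).1 le_rfl
  obtain ⟨h1, h1'⟩ := h1
  obtain ⟨h2, h2'⟩ := h2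
  push_cast
  simp only [abs_le] at *
  constructor <;> omega

/-- exact characterisation of `dn` by a linear arithmetic statement -/
theorem dn_spec (u v : Pt) : (u.1 - v.1 ≤ dn u v ∧ v.1 - u.1 ≤ dn u v ∧ u.2 - v.2 ≤ dn u v ∧
    v.2 - u.2 ≤ dn u v) ∧ ((dn u v : ℤ) = u.1 - v.1 ∨ (dn u v : ℤ) = v.1 - u.1 ∨
    (dn u v : ℤ) = u.2 - v.2 ∨ (dn u v : ℤ) = v.2 - u.2) := by
  have h := dn_cast u v
  rcases max_cases |u.1 - v.1| |u.2 - v.2| with ⟨h1, h2⟩ | ⟨h1, h2⟩ <;>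
    rcases abs_cases (u.1 - v.1) with ⟨h3, h4⟩ | ⟨h3, h4⟩ <;>
    rcases abs_cases (u.2 - v.2) with ⟨h5, h6⟩ | ⟨h5, h6⟩ <;> omega

theorem dF_le {O : Set Pt} {x y : Pt} (hy : y ∉ O) : dF O x ≤ dn x y :=
  Nat.sInf_le ⟨y, hy, le_rfl⟩

theorem exists_dF {O : Set Pt} (hO : ∃ y, y ∉ O) (x : Pt) : ∃ y, y ∉ O ∧ dn x y = dF O x := by
  obtain ⟨z, hz⟩ := hO
  have hne : {r | ∃ y, y ∉ O ∧ dn x y ≤ r}.Nonempty := ⟨dn x z, z, hz, le_rfl⟩
  obtain ⟨y, hy, h⟩ := Nat.sInf_mem hne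
  exact ⟨y, hy, le_antisymm h (dF_le hy)⟩

theorem dF_lip {O : Set Pt} (hO : ∃ y, y ∉ O) (x y : Pt) : dF O x ≤ dF O y + dn x y := by
  obtain ⟨z, hz, h⟩ := exists_dF hO y
  have := dF_le (x := x) hz
  have := dn_tri x y z
  omega

theorem dF_eq_zero {O : Set Pt} {x : Pt} (hx : x ∉ O) : dF O x = 0 := by
  have := dF_le (x := x) hx
  rw [dn_self] at this
  omega

theorem dF_pos {O : Set Pt} (hO : ∃ y, y ∉ O) {x : Pt} (hx : x ∈ O) : 0 < dF O x := by
  obtain ⟨y, hy, h⟩ := exists_dF hO x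
  rw [← h]
  by_contra h0
  have h0 : dn x y = 0 := by omega
  obtain ⟨⟨h1, h2, h3, h4⟩, -⟩ := dn_spec x y
  apply hy
  have : y = x := by
    ext <;> omega
  rwa [this]

/-- a king step towards the complement -/
theorem king_step {O : Set Pt} (hO : ∃ y, y ∉ O) {x : Pt} {n : ℕ} (hx : dF O x = n + 1) :
    ∃ x' : Pt, dF O x' = n ∧ dn x x' ≤ 1 := by
  obtain ⟨y, hy, h⟩ := exists_dF hO x
  rw [hx] at h
  obtain ⟨⟨h1, h2, h3, h4⟩, h5⟩ := dn_spec x y
  rw [h] at h1 h2 h3 h4 h5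
  push_cast at *
  -- move both coordinates towards `y` by one if they differ
  refine ⟨(if x.1 < y.1 then x.1 + 1 else if y.1 < x.1 then x.1 - 1 else x.1,
    if x.2 < y.2 then x.2 + 1 else if y.2 < x.2 then x.2 - 1 else x.2), ?_, ?_⟩
  · have hle : dn (if x.1 < y.1 then x.1 + 1 else if y.1 < x.1 then x.1 - 1 else x.1,
        if x.2 < y.2 then x.2 + 1 else if y.2 < x.2 then x.2 - 1 else x.2) y ≤ n := by
      rw [dn_le_iff]
      simp only [abs_le]
      constructor <;> split_ifs <;> omega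
    have hge := dF_lip hO x (if x.1 < y.1 then x.1 + 1 else if y.1 < x.1 then x.1 - 1 else x.1,
        if x.2 < y.2 then x.2 + 1 else if y.2 < x.2 then x.2 - 1 else x.2)
    have h6 : dn x (if x.1 < y.1 then x.1 + 1 else if y.1 < x.1 then x.1 - 1 else x.1,
        if x.2 < y.2 then x.2 + 1 else if y.2 < x.2 then x.2 - 1 else x.2) ≤ 1 := by
      rw [dn_le_iff]
      simp only [abs_le]
      constructor <;> split_ifs <;> omega
    have h7 := dF_le (x := (if x.1 < y.1 then x.1 + 1 else if y.1 < x.1 then x.1 - 1 else x.1,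
        if x.2 < y.2 then x.2 + 1 else if y.2 < x.2 then x.2 - 1 else x.2)) hy
    omega
  · rw [dn_le_iff]
    simp only [abs_le]
    constructor <;> split_ifs <;> omega

theorem exists_not_mem_of_finite {O : Set Pt} (hO : O.Finite) : ∃ y, y ∉ O :=
  hO.exists_notMem

end Vale.Agent.P155.H904
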