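import Vale.Agent.P155.H904.Col
import Vale.Agent.P155.T211B.Cell

/-!
# P155, BD block R1: the product of the two cross entries of the inverse Kasteleyn matrix decays
exponentially in the quasi-hyperbolic distance of the cells
-/

namespace Vale.Agent.P155.H904

open Vale.Agent.P155 Finset Vale.Agent.P155.G45

variable {T : Temp}

theorem adj_nbrs_iff {w b : Pt} : Adj w b ↔ b ∈ nbrs w := mem_nbrs.symm

/-- the Kasteleyn relation at a white vertex -/
theorem side_eq {F : Pt → ℝ} {w : Pt} (h : Kop F w = 0) :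
    |F (w.1 + 1, w.2) - F (w.1 - 1, w.2)| = |F (w.1, w.2 + 1) - F (w.1, w.2 - 1)| := by
  unfold Kop at h
  have h1 : F (w.1 + 1, w.2) - F (w.1 - 1, w.2) = - (sg w.2 * (F (w.1, w.2 + 1) - F (w.1, w.2 - 1))) := by
    linarith
  rw [h1, abs_neg, abs_mul, Dom.sg_abs, one_mul]

/-- a white vertex on the side of two cells -/
theorem cellAt_two {z z' w : Pt} (h : CellAt T z w) (h' : CellAt T z' w) : z = z' ∨ Adj z' z := by
  have h1 := h.2
  have h2 := h'.2
  unfold Adj
  obtain ⟨x1, x2⟩ := z
  obtain ⟨y1, y2⟩ := z'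
  simp only [wx, wy] at h1 h2
  simp only [Prod.mk.injEq]
  rcases h2 with rfl | rfl | rfl | rfl <;> simp only [Prod.mk.injEq] at h1 <;>
    rcases h1 with h1 | h1 | h1 | h1 <;> simp only [abs_eq_max_neg] <;> omega

/-- two corners of a cell differ by at most two gradients -/
theorem corners {F : Pt → ℝ} {z : Pt} {g : ℝ}
    (hK : ∀ w ∈ nbrs (ctr z), Kop F w = 0) (hg : ∀ q, Adj z q → |F (ctr z) - F (ctr q)| ≤ g)
    {v v' : Pt} (hv : Corner z v) (hv' : Corner z v') : |F (dbl v) - F (dbl v')| ≤ 2 * g := by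
  have hR : |F (dbl (z.1 + 1, z.2 + 1)) - F (dbl (z.1 + 1, z.2))| ≤ g := by
    have h1 := side_eq (hK (wx z) (nbrs_ctr.2 (Or.inl rfl)))
    have h2 := hg (z.1 + 1, z.2) (adj_right z)
    simp only [wx, ctr, dbl] at *
    have e1 : 2 * z.1 + 2 + 1 = 2 * (z.1 + 1) + 1 := by ring
    have e2 : 2 * z.1 + 2 - 1 = 2 * z.1 + 1 := by ring
    have e3 : 2 * z.2 + 1 + 1 = 2 * (z.2 + 1) := by ring
    have e4 : 2 * z.2 + 1 - 1 = 2 * z.2 := by ring
    have e5 : 2 * z.1 + 2 = 2 * (z.1 + 1) := by ring
    rw [e1, e2, e3, e4, e5] at h1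
    rw [← h1, abs_sub_comm]; exact h2
  have hL : |F (dbl (z.1, z.2 + 1)) - F (dbl (z.1, z.2))| ≤ g := by
    have h1 := side_eq (hK (wx (z.1 - 1, z.2)) (nbrs_ctr.2 (Or.inr (Or.inl rfl))))
    have h2 := hg (z.1 - 1, z.2) (adj_left z)
    simp only [wx, ctr, dbl] at *
    have e1 : 2 * (z.1 - 1) + 2 + 1 = 2 * z.1 + 1 := by ring
    have e2 : 2 * (z.1 - 1) + 2 - 1 = 2 * (z.1 - 1) + 1 := by ring
    have e3 : 2 * z.2 + 1 + 1 = 2 * (z.2 + 1) := by ring
    have e4 : 2 * z.2 + 1 - 1 = 2 * z.2 := by ring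
    have e5 : 2 * (z.1 - 1) + 2 = 2 * z.1 := by ring
    rw [e1, e2, e3, e4, e5] at h1
    rw [← h1]; exact h2
  have hT : |F (dbl (z.1 + 1, z.2 + 1)) - F (dbl (z.1, z.2 + 1))| ≤ g := by
    have h1 := side_eq (hK (wy z) (nbrs_ctr.2 (Or.inr (Or.inr (Or.inl rfl)))))
    have h2 := hg (z.1, z.2 + 1) (adj_up z)
    simp only [wy, ctr, dbl] at *
    have e1 : 2 * z.1 + 1 + 1 = 2 * (z.1 + 1) := by ring
    have e2 : 2 * z.1 + 1 - 1 = 2 * z.1 := by ring
    have e3 : 2 * z.2 + 2 + 1 = 2 * (z.2 + 1) + 1 := by ring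
    have e4 : 2 * z.2 + 2 - 1 = 2 * z.2 + 1 := by ring
    have e5 : 2 * z.2 + 2 = 2 * (z.2 + 1) := by ring
    rw [e1, e2, e3, e4, e5] at h1
    rw [h1, abs_sub_comm]; exact h2
  have hB : |F (dbl (z.1 + 1, z.2)) - F (dbl (z.1, z.2))| ≤ g := by
    have h1 := side_eq (hK (wy (z.1, z.2 - 1)) (nbrs_ctr.2 (Or.inr (Or.inr (Or.inr rfl)))))
    have h2 := hg (z.1, z.2 - 1) (adj_down z)
    simp only [wy, ctr, dbl] at *
    have e1 : 2 * z.1 + 1 + 1 = 2 * (z.1 + 1) := by ring
    have e2 : 2 * z.1 + 1 - 1 = 2 * z.1 := by ring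
    have e3 : 2 * (z.2 - 1) + 2 + 1 = 2 * z.2 + 1 := by ring
    have e4 : 2 * (z.2 - 1) + 2 - 1 = 2 * (z.2 - 1) + 1 := by ring
    have e5 : 2 * (z.2 - 1) + 2 = 2 * z.2 := by ring
    rw [e1, e2, e3, e4, e5] at h1
    rw [h1]; exact h2
  have hg0 : 0 ≤ g := (abs_nonneg _).trans hR
  obtain ⟨v1, v2⟩ := v
  obtain ⟨u1, u2⟩ := v'
  obtain ⟨a1, a2⟩ := hv
  obtain ⟨b1, b2⟩ := hv'
  simp only at a1 a2 b1 b2
  rw [abs_le] at *
  rcases a1 with rfl | rfl <;> rcases a2 with rfl | rfl <;> rcases b1 with rfl | rfl <;>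
    rcases b2 with rfl | rfl <;> constructor <;> linarith

/-- black neighbours of the side midpoints of a cell -/
theorem black_nbr {z w b : Pt} (h : CellAt T z w) (hb : Adj w b) :
    (∃ q, (q = z ∨ Adj z q) ∧ b = ctr q) ∨ ∃ v, Corner z v ∧ b = dbl v := by
  rw [adj_nbrs_iff] at hb
  simp only [nbrs, mem_insert, mem_singleton] at hb
  rcases h.2 with rfl | rfl | rfl | rfl <;> simp only [wx, wy] at hb
  · rcases hb with rfl | rfl | rfl | rfl
    · exact Or.inl ⟨(z.1 + 1, z.2), Or.inr (adj_right z), by simp only [ctr]; ext <;> simp only <;> ring⟩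
    · exact Or.inl ⟨z, Or.inl rfl, by simp only [ctr]; ext <;> simp only <;> ring⟩
    · exact Or.inr ⟨(z.1 + 1, z.2 + 1), ⟨Or.inr rfl, Or.inr rfl⟩, by
        simp only [dbl]; ext <;> simp only <;> ring⟩
    · exact Or.inr ⟨(z.1 + 1, z.2), ⟨Or.inr rfl, Or.inl rfl⟩, by
        simp only [dbl]; ext <;> simp only <;> ring⟩
  · rcases hb with rfl | rfl | rfl | rfl
    · exact Or.inl ⟨z, Or.inl rfl, by simp only [ctr]; ext <;> simp only <;> ring⟩
    · exact Or.inl ⟨(z.1 - 1, z.2), Or.inr (adj_left z), by simp only [ctr]; ext <;> simp only <;> ring⟩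
    · exact Or.inr ⟨(z.1, z.2 + 1), ⟨Or.inl rfl, Or.inr rfl⟩, by
        simp only [dbl]; ext <;> simp only <;> ring⟩
    · exact Or.inr ⟨(z.1, z.2), ⟨Or.inl rfl, Or.inl rfl⟩, by
        simp only [dbl]; ext <;> simp only <;> ring⟩
  · rcases hb with rfl | rfl | rfl | rfl
    · exact Or.inr ⟨(z.1 + 1, z.2 + 1), ⟨Or.inr rfl, Or.inr rfl⟩, by
        simp only [dbl]; ext <;> simp only <;> ring⟩
    · exact Or.inr ⟨(z.1, z.2 + 1), ⟨Or.inl rfl, Or.inr rfl⟩, by
        simp only [dbl]; ext <;> simp only <;> ring⟩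
    · exact Or.inl ⟨(z.1, z.2 + 1), Or.inr (adj_up z), by simp only [ctr]; ext <;> simp only <;> ring⟩
    · exact Or.inl ⟨z, Or.inl rfl, by simp only [ctr]; ext <;> simp only <;> ring⟩
  · rcases hb with rfl | rfl | rfl | rfl
    · exact Or.inr ⟨(z.1 + 1, z.2), ⟨Or.inr rfl, Or.inl rfl⟩, by
        simp only [dbl]; ext <;> simp only <;> ring⟩
    · exact Or.inr ⟨(z.1, z.2), ⟨Or.inl rfl, Or.inl rfl⟩, by
        simp only [dbl]; ext <;> simp only <;> ring⟩
    · exact Or.inl ⟨z, Or.inl rfl, by simp only [ctr]; ext <;> simp only <;> ring⟩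
    · exact Or.inl ⟨(z.1, z.2 - 1), Or.inr (adj_down z), by simp only [ctr]; ext <;> simp only <;> ring⟩

theorem dn_ctr_corner {z v : Pt} (h : Corner z v) : dn (ctr z) (dbl v) ≤ 1 := by
  rw [G45.dn_eq]
  obtain ⟨h1, h2⟩ := h
  simp only [ctr, dbl]
  rcases h1 with h1 | h1 <;> rcases h2 with h2 | h2 <;> rw [h1, h2] <;> omega

theorem dbl_black (v : Pt) : Black (dbl v) := by
  unfold Black dbl
  exact ⟨v.1 + v.2, by ring⟩

open T211B in
theorem qlip_kc {z' : Pt} (hz' : z' ∈ T.cells) : QLip T.cells 3 (kc T z') :=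
  fun _ hx _ hy h => kc_lip hz' hx hy h

open T211B in
theorem kc_box {z' y : Pt} (hz' : z' ∈ T.cells) (h : 2 * dn z' y ≤ dF T.cells z') :
    kc T z' y ≤ 6 := by
  have := (qlip_kc hz').box T.cells_finite (by norm_num) hz' h
  rw [kc_self, zero_sub, abs_neg] at this
  have := le_abs_self (kc T z' y)
  linarith

open T211B in
theorem kc_adj_le {x y : Pt} (hx : x ∈ T.cells) (hy : y ∈ T.cells) (h : Adj x y) :
    kc T x y ≤ 3 := by
  have h1 := kc_adj hx hy h
  have h2 := wt_le_one T x
  have h3 := wt_le_one T y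
  linarith

open T211B in
/-- **one factor**: the entry is controlled by the distance to a walk from the root -/
theorem factor : ∃ a : ℝ, 0 < a ∧ ∃ C : ℝ, 0 < C ∧ ∀ (T : Temp) (z₀ : Pt), z₀ ∈ T.cells →
    Corner z₀ (T.γ.c T.i0) → ∀ (m : Pt → ℕ) (p : Pt → ℕ → Pt),
    (∀ z ∈ T.cells, p z 0 = z₀ ∧ p z (m z) = z ∧ (∀ i, p z i ∈ T.cells) ∧
        ∀ i < m z, Adj (p z i) (p z (i + 1))) →
    (∀ z ∈ T.cells, ∀ w ∈ T.cells, ∀ a > 0, ∀ A, (∀ i ≤ m z, A ≤ kc T w (p z i)) →
        ∑ i ∈ range (m z + 1), wt T (p z i) * Real.exp (-a * kc T w (p z i))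
          ≤ (4 / a * (1 + Real.exp (a / 4 * 2)) + 1) * Real.exp (-(a / 2) * A)) →
    ∀ z w z' w' b, CellAt T z w → CellAt T z' w' → Adj w b → 20 < kc T z' z →
    ∃ i ≤ m z, |Kinv T.V b w'| ≤
      C * Real.exp (-(a * kc T z' (p z i))) / (1 + (dF T.cells z' : ℝ)) := by
  obtain ⟨D, hD, hcol⟩ := col_decay
  obtain ⟨A, hAp⟩ := B1b.B_plane
  obtain ⟨CK, hCKraw⟩ := Dom.b_dom A hAp
  set C1 := |CK| with hC1
  have hC1' : 0 ≤ C1 := abs_nonneg _
  set c : ℝ := 1 / (3 * D) with hc
  have hD0 : 0 < D := by linarith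
  have hc0 : 0 < c := by positivity
  have hcD : D * (c * 3) ≤ 1 := by rw [hc]; field_simp; norm_num
  have hc1 : c ≤ 1 := by
    rw [hc, div_le_one (by positivity)]; linarith
  set Q := 4 / c * (1 + Real.exp (c / 4 * 2)) + 1 with hQ
  have hQ0 : 0 < Q := by positivity
  set C := 3 * D * Real.exp 3 + 2 * D * Q + (2 * C1 + 3) * Real.exp 15 with hC
  have hCpos : 0 < C := by positivity
  refine ⟨c / 2, by positivity, C, hCpos, ?_⟩
  intro T z₀ hz₀ hcorn m p hp hsum z w z' w' b hzw hz'w' hadj hfar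
  have hfin := T.cells_finite
  have hne := exists_notMem hfin
  have hdet := Temp.det_KM_ne_zero T
  have hw' := hz'w'.mem_V hfin
  have hwh' := hz'w'.white
  have hz := hzw.1
  have hz' := hz'w'.1
  set d := dF T.cells z' with hd
  have hd1 : 1 ≤ d := dF_pos hne hz'
  have hdp : (0 : ℝ) < 1 + (d : ℝ) := by positivity
  obtain ⟨hp0, hpm, hpc, hpadj⟩ := hp z hz
  have hdec := hcol T z' w' hz'w' (kc T z') c 3 hc0.le (by norm_num) hcD (qlip_kc hz')
  have hself : kc T z' z' = 0 := kc_self z'
  rw [hself] at hdec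
  simp only [sub_zero] at hdec
  have hbl : Black b := (adj_nbrs_iff.1 hadj) |> fun h => by
    have h1 := hzw.white
    simp only [nbrs, mem_insert, mem_singleton] at h
    unfold White at h1
    unfold Black
    rw [Int.odd_iff] at h1
    rw [Int.even_iff]
    rcases h with h | h | h | h <;> rw [h] <;> simp only <;> omega
  rcases black_nbr hzw hadj with ⟨q, hq, rfl⟩ | ⟨v, hv, rfl⟩
  · -- (odd,odd)
    refine ⟨m z, le_rfl, ?_⟩
    rw [hpm]
    by_cases hqc : q ∈ T.cells
    swap
    · rw [Kinv_not_mem_left (fun h => hqc (ctr_mem_V.1 h)), abs_zero]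
      positivity
    have hkq : kc T z' z - 3 ≤ kc T z' q := by
      rcases hq with rfl | hq
      · linarith
      · have h1 := kc_triangle hz' hqc hz
        have h2 := kc_adj_le hqc hz (adj_symm' hq)
        linarith
    have h1 := (hdec q hqc (by linarith)).1
    refine h1.trans ?_
    apply div_le_div_of_nonneg_right _ hdp.le
    have h2 : Real.exp (-(c * kc T z' q)) ≤ Real.exp 3 * Real.exp (-(c / 2 * kc T z' z)) := by
      rw [← Real.exp_add]
      apply Real.exp_le_exp.2
      have := kc_nonneg (T := T) z' z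
      nlinarith
    have h3 : 0 ≤ Real.exp (-(c / 2 * kc T z' z)) := (Real.exp_pos _).le
    calc D * Real.exp (-(c * kc T z' q)) ≤ D * (Real.exp 3 * Real.exp (-(c / 2 * kc T z' z))) := by
          gcongr
      _ = (D * Real.exp 3) * Real.exp (-(c / 2 * kc T z' z)) := by ring
      _ ≤ C * Real.exp (-(c / 2 * kc T z' z)) := by
          apply mul_le_mul_of_nonneg_right _ h3
          rw [hC]
          have : 0 ≤ D * Real.exp 3 := by positivity
          have : 0 ≤ 2 * D * Q := by positivity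
          have : 0 ≤ (2 * C1 + 3) * Real.exp 15 := by positivity
          linarith
  · -- (even,even)
    obtain ⟨i0, hi0, hmin⟩ := (range (m z + 1)).exists_min_image (fun i => kc T z' (p z i))
      ⟨0, mem_range.2 (by omega)⟩
    have hi0' : i0 ≤ m z := by rw [mem_range] at hi0; omega
    set A0 := kc T z' (p z i0) with hA0
    have hA0n : 0 ≤ A0 := kc_nonneg _ _
    have hmin' : ∀ i ≤ m z, A0 ≤ kc T z' (p z i) := fun i hi => hmin i (mem_range.2 (by omega))
    refine ⟨i0, hi0', ?_⟩
    rw [← hA0]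
    by_cases hA15 : 15 < A0
    · -- far from the whole walk
      set F : Pt → ℝ := fun b => Kinv T.V b w' with hF
      set g : ℕ → ℝ := fun i => D * Real.exp (-(c * kc T z' (p z i))) /
        ((1 + (d : ℝ)) * (1 + (dF T.cells (p z i) : ℝ))) with hg
      have hg0 : ∀ i, 0 ≤ g i := fun i => by rw [hg]; positivity
      have hstep : ∀ i ≤ m z, ∀ v v', Corner (p z i) v → Corner (p z i) v' →
          |F (dbl v) - F (dbl v')| ≤ 2 * g i := by
        intro i hi v v' hv hv'
        have hk := hmin' i hi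
        apply corners _ _ hv hv'
        · intro w1 hw1
          have hc1 : CellAt T (p z i) w1 := cellAt_iff.2 ⟨hpc i, hw1⟩
          have h1 := Kop_Kinv hdet hw' (hc1.mem_V hfin) hc1.white
          rw [if_neg] at h1
          · exact h1
          · rintro rfl
            rcases cellAt_two hc1 hz'w' with h2 | h2
            · rw [h2, hself] at hk; linarith
            · have := kc_adj_le hz' (hpc i) h2
              linarith
        · intro q hq
          exact (hdec (p z i) (hpc i) (by linarith)).2 q hq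
      have hind : ∀ n ≤ m z, ∀ v, Corner (p z n) v →
          |F (dbl v)| ≤ ∑ i ∈ range (n + 1), 2 * g i := by
        intro n
        induction n with
        | zero =>
          intro _ v hv
          rw [sum_range_one]
          have hv0 : F (dbl (T.γ.c T.i0)) = 0 := by
            apply Kinv_not_mem_left
            intro h
            rw [mem_V_iff hfin] at h
            exact h.2 rfl
          have := hstep 0 (Nat.zero_le _) v (T.γ.c T.i0) hv (by rw [hp0]; exact hcorn)
          rw [hv0, sub_zero] at this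
          exact this
        | succ n ih =>
          intro hn v hv
          obtain ⟨v', h1, h2⟩ := exists_common_corner (hpadj n (by omega))
          rw [sum_range_succ]
          have h3 := ih (by omega) v' h1
          have h4 := hstep (n + 1) hn v v' hv h2
          have h5 := abs_sub_abs_le_abs_sub (F (dbl v)) (F (dbl v'))
          linarith
      have h1 := hind (m z) le_rfl v (by rw [hpm]; exact hv)
      refine h1.trans ?_
      have h2 := hsum z hz z' hz' c hc0 A0 hmin'
      have h3 : ∑ i ∈ range (m z + 1), 2 * g i = 2 * D / (1 + (d : ℝ)) *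
          ∑ i ∈ range (m z + 1), wt T (p z i) * Real.exp (-c * kc T z' (p z i)) := by
        rw [mul_sum]
        refine sum_congr rfl fun i _ => ?_
        simp only [hg, wt]
        rw [neg_mul]
        have : (0 : ℝ) < 1 + (dF T.cells (p z i) : ℝ) := by positivity
        field_simp
      rw [h3]
      calc 2 * D / (1 + (d : ℝ)) * ∑ i ∈ range (m z + 1), wt T (p z i) *
            Real.exp (-c * kc T z' (p z i)) ≤
            2 * D / (1 + (d : ℝ)) * (Q * Real.exp (-(c / 2) * A0)) := by
            apply mul_le_mul_of_nonneg_left h2 (by positivity)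
        _ = (2 * D * Q) * Real.exp (-(c / 2 * A0)) / (1 + (d : ℝ)) := by
            rw [neg_mul]; ring
        _ ≤ C * Real.exp (-(c / 2 * A0)) / (1 + (d : ℝ)) := by
            apply div_le_div_of_nonneg_right _ hdp.le
            apply mul_le_mul_of_nonneg_right _ (Real.exp_pos _).le
            rw [hC]
            have : 0 ≤ 3 * D * Real.exp 3 := by positivity
            have : 0 ≤ (2 * C1 + 3) * Real.exp 15 := by positivity
            linarith
    · push Not at hA15
      have hb : |Kinv T.V (dbl v) w'| ≤ (2 * C1 + 3) / (1 + (d : ℝ)) := by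
        by_cases hd3 : d < 3
        · have h1 := Dom.abs_Kinv_le_one hdet hw' hwh' (dbl_black v)
          refine h1.trans ?_
          rw [one_le_div hdp]
          have : (d : ℝ) ≤ 2 := by
            have : d ≤ 2 := by omega
            exact_mod_cast this
          linarith
        · by_cases hvV : dbl v ∈ T.V
          · have h2 := dF_fine_le hfin hz'w'
            have h3 := dF_coarse_le hfin hz'w'
            have hdist : dF T.faceSet w' ≤ 8 * dn (dbl v) w' := by
              by_contra hcon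
              push Not at hcon
              have a1 := dn_ctr_side (x := z) hz'w'
              have a2 := dn_tri (ctr z) (dbl v) w'
              have a3 := dn_ctr_corner hv
              have a4 : 2 * dn z' z ≤ d := by
                rw [dn_comm z' z]; omega
              have := kc_box hz' a4
              linarith
            have h4 := (hCKraw T w' (dbl v) hwh' (dbl_black v) hw' hvV).2.2 hdist
            refine h4.trans ?_
            have h5 : (d : ℝ) ≤ 1 + (dF T.faceSet w' : ℝ) := by exact_mod_cast h3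
            have hdr : (3 : ℝ) ≤ d := by
              have : 3 ≤ d := by omega
              exact_mod_cast this
            calc CK / (1 + (dF T.faceSet w' : ℝ)) ≤ C1 / (1 + (dF T.faceSet w' : ℝ)) := by
                  apply div_le_div_of_nonneg_right (le_abs_self _) (by positivity)
              _ ≤ C1 / d := by
                  apply div_le_div_of_nonneg_left hC1' (by linarith) h5
              _ ≤ (2 * C1 + 3) / (1 + (d : ℝ)) := by
                  rw [div_le_div_iff₀ (by linarith) hdp]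
                  nlinarith
          · rw [Kinv_not_mem_left hvV, abs_zero]
            positivity
      refine hb.trans ?_
      apply div_le_div_of_nonneg_right _ hdp.le
      have h1 : 1 ≤ Real.exp 15 * Real.exp (-(c / 2 * A0)) := by
        rw [← Real.exp_add]
        apply Real.one_le_exp
        nlinarith
      have h2 : 0 ≤ Real.exp (-(c / 2 * A0)) := (Real.exp_pos _).le
      calc (2 * C1 + 3) = (2 * C1 + 3) * 1 := (mul_one _).symm
        _ ≤ (2 * C1 + 3) * (Real.exp 15 * Real.exp (-(c / 2 * A0))) := by gcongr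
        _ = ((2 * C1 + 3) * Real.exp 15) * Real.exp (-(c / 2 * A0)) := by ring
        _ ≤ C * Real.exp (-(c / 2 * A0)) := by
            apply mul_le_mul_of_nonneg_right _ h2
            rw [hC]
            have : 0 ≤ 3 * D * Real.exp 3 := by positivity
            have : 0 ≤ 2 * D * Q := by positivity
            linarith

open T211B in
/-- **KPROD** -/
def KPROD : Prop := ∃ c > (0 : ℝ), ∃ C > (0 : ℝ), ∃ C1 > (0 : ℝ), ∀ (T : Temp) (z z' w w' b b' : Pt),
  CellAt T z w → CellAt T z' w' → Black b → Black b' → Adj w b → Adj w' b' → C1 ≤ kc T z z' →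
  |Kinv T.V b w'| * |Kinv T.V b' w| ≤
    C * Real.exp (-c * kc T z z') / ((1 + (dF T.cells z : ℝ)) * (1 + (dF T.cells z' : ℝ)))

open T211B in
/-- **the product of the two cross entries decays exponentially in the quasi-hyperbolic distance** -/
theorem kprod : KPROD := by
  obtain ⟨a, ha, C, hC, hf⟩ := factor
  refine ⟨a, ha, C ^ 2, by positivity, 21, by norm_num, ?_⟩
  intro T z z' w w' b b' hzw hz'w' _ _ hadj hadj' hfar
  obtain ⟨z₀, hz₀, hcorn⟩ := (tgeo (Temp.det_KM_ne_zero T)).v0
  obtain ⟨m, p, hp, hsum, htri⟩ := walks T hz₀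
  have hz := hzw.1
  have hz' := hz'w'.1
  obtain ⟨i, hi, h1⟩ := hf T z₀ hz₀ hcorn m p hp hsum z w z' w' b hzw hz'w' hadj
    (by rw [kc_comm]; linarith)
  obtain ⟨j, hj, h2⟩ := hf T z₀ hz₀ hcorn m p hp hsum z' w' z w b' hz'w' hzw hadj' (by linarith)
  have h3 := htri z hz z' hz' i hi j hj
  calc |Kinv T.V b w'| * |Kinv T.V b' w| ≤
        (C * Real.exp (-(a * kc T z' (p z i))) / (1 + (dF T.cells z' : ℝ))) *
        (C * Real.exp (-(a * kc T z (p z' j))) / (1 + (dF T.cells z : ℝ))) :=
        mul_le_mul h1 h2 (abs_nonneg _) (by positivity)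
    _ = C ^ 2 * (Real.exp (-(a * kc T z' (p z i))) * Real.exp (-(a * kc T z (p z' j)))) /
        ((1 + (dF T.cells z : ℝ)) * (1 + (dF T.cells z' : ℝ))) := by
        field_simp
    _ ≤ C ^ 2 * Real.exp (-a * kc T z z') /
        ((1 + (dF T.cells z : ℝ)) * (1 + (dF T.cells z' : ℝ))) := by
        rw [← Real.exp_add]
        gcongr
        nlinarith

end Vale.Agent.P155.H904
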