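import Vale.Agent.P155.H904.IMin

/-!
# P155 block I: `I_min`
-/

namespace Vale.Agent.P155.H904

open Vale.Agent.P155 Finset Skel

/-- the form consumed by block H -/
def I_min : Prop := ∀ η > (0 : ℝ), ∃ c > (0 : ℝ), ∀ C0 : ℝ, ∃ C : ℝ, ∀ (R : ℕ) (T : Temp)
  (Φ uD : Pt → ℝ) (lam : ℝ), 1 ≤ R → Fits T R → (∀ y, 0 ≤ Φ y ∧ Φ y ≤ C0 / (R : ℝ) ^ 2) →
  (∀ y, Φ y ≠ 0 → (R : ℝ) ≤ C0 * dF T.faceSet y) → IsGreen T.faceSet Φ uD → 0 ≤ lam →
  lam ≤ C0 * (R : ℝ) ^ (-η) →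
  Ex T.V (fun ω => (hf ω (fun x => lap (fun y => min (uD y) lam) x)) ^ 2) ≤ C * (R : ℝ) ^ (-c)

theorem rpow_le_self_of {x γ : ℝ} (hx : 1 ≤ x) (hγ1 : γ ≤ 1) : x ^ γ ≤ x := by
  calc x ^ γ ≤ x ^ (1 : ℝ) := Real.rpow_le_rpow_of_exponent_le hx hγ1
    _ = x := Real.rpow_one x

theorem abs_min_sub_le (a b l : ℝ) : |min a l - min b l| ≤ |a - b| := by
  have := abs_min_sub_min_le_max a l b l
  rwa [sub_self, abs_zero, max_eq_left (abs_nonneg _)] at this

open Classical in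
theorem i_min (h1 : A_one) (h2 : A_two) (hp : B_plane) (hd : B_dom) (hcp : L_cp)
    (hdet : ∀ T : Temp, (KM T.V).det ≠ 0) (hsub : ∀ T : Temp, Sub T T.V) {β Cd : ℝ} (hβ : 0 < β)
    (hCd : 0 ≤ Cd) (hdec : G45.SupDecay Cd β) (hout : G45.OutDecay Cd β) : I_min := by
  obtain ⟨γ, hγ, hγ1, K, hK, hsum⟩ := sum_nbU hβ hCd hdec hout
  obtain ⟨Kg, hKg, hgrad⟩ := grad_green hβ hCd hdec
  intro η hη
  set θ : ℝ := min (η / 12) (1 / 8) with hθ
  have hθ0 : 0 < θ := lt_min (by positivity) (by norm_num)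
  have hθ1 : θ ≤ 1 / 8 := min_le_right _ _
  have hθη : 12 * θ ≤ η := by
    have : θ ≤ η / 12 := min_le_left _ _
    linarith
  set c1 : ℝ := 2 * θ * γ with hc1
  have hc10 : 0 < c1 := by positivity
  have hc12 : c1 ≤ 2 * θ := by nlinarith
  have hcpos : 0 < min c1 (θ * β) / 2 := by
    have : 0 < min c1 (θ * β) := lt_min hc10 (by positivity)
    linarith
  refine ⟨min c1 (θ * β) / 2, hcpos, ?_⟩
  intro C0'
  set C0 : ℝ := max C0' 1 with hC0def
  have hC01 : 1 ≤ C0 := le_max_right _ _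
  have hC0 : 0 ≤ C0 := by linarith
  have hC0' : C0' ≤ C0 := le_max_left _ _
  set K1 : ℝ := 18 * C0 ^ 2 + 25 * C0 + 14 * Kg * K * C0 + 1000 * Kg * K * C0 with hK1
  have hK10 : 0 ≤ K1 := by positivity
  obtain ⟨C1, hC1, hfinal⟩ := layer_final h1 h2 hp hd hdec hβ hCd hθ0 hθ1 hc10 K1 hK10
  obtain ⟨R0, hR0⟩ := params_large hθ0 hθ1 hC01
  refine ⟨C1 + ((2 * (R0 : ℝ) + 3) ^ 2 * (8 * C0 * (2 * R0 + 5))) ^ 2 *
    (R0 : ℝ) ^ (min c1 (θ * β) / 2), ?_⟩
  intro R T Φ U lam hR hFits hΦ' hΦ2' hU hlam hlam2'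
  have hR1 : (1 : ℝ) ≤ R := by exact_mod_cast hR
  have hRpos : (0 : ℝ) < R := by linarith
  have hΦ : ∀ y, 0 ≤ Φ y ∧ Φ y ≤ C0 / (R : ℝ) ^ 2 := fun y =>
    ⟨(hΦ' y).1, (hΦ' y).2.trans (div_le_div_of_nonneg_right hC0' (by positivity))⟩
  have hΦ2 : ∀ y, Φ y ≠ 0 → (R : ℝ) ≤ C0 * dF T.faceSet y := fun y hy =>
    (hΦ2' y hy).trans (mul_le_mul_of_nonneg_right hC0' (by positivity))
  have hlam2 : lam ≤ C0 * (R : ℝ) ^ (-(12 * θ)) := by
    refine hlam2'.trans ?_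
    have : (R : ℝ) ^ (-η) ≤ (R : ℝ) ^ (-(12 * θ)) :=
      Real.rpow_le_rpow_of_exponent_le hR1 (by linarith)
    exact mul_le_mul hC0' this (by positivity) hC0
  set ψ : Pt → ℝ := fun y => min (U y) lam with hψ
  have hT := fgeo hFits hcp (hsub T)
  have hne := G45.exists_notMem hT.fin
  have hU0 : ∀ x, 0 ≤ U x := G45.green_nonneg hT.fin hU (fun x _ => (hΦ x).1)
  have hψ0 : ∀ y, y ∉ T.faceSet → ψ y = 0 := by
    intro y hy
    simp only [hψ, hU.off y hy]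
    exact min_eq_left hlam
  have hlamC : lam ≤ C0 := by
    refine hlam2.trans ?_
    have : (R : ℝ) ^ (-(12 * θ)) ≤ 1 := Real.rpow_le_one_of_one_le_of_nonpos hR1 (by linarith)
    nlinarith
  have hψB : ∀ f, |ψ f| ≤ C0 := by
    intro f
    rw [abs_of_nonneg (le_min (hU0 f) hlam)]
    exact (min_le_right _ _).trans hlamC
  have hgoal : (fun ω => (hf ω (fun x => lap (fun y => min (U y) lam) x)) ^ 2) =
      fun ω => (hf ω (lap ψ)) ^ 2 := rfl
  rw [hgoal]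
  rw [add_mul]
  by_cases hsmall : R0 ≤ R
  swap
  · have h3 := small_R (c := min c1 (θ * β) / 2) hR (le_of_not_ge hsmall) hC0 hcpos.le
      (trivial_bound hFits hψ0 hψB)
    have h4 : 0 ≤ C1 * (R : ℝ) ^ (-(min c1 (θ * β) / 2)) := by positivity
    linarith
  obtain ⟨hL, hbig⟩ := hR0 R hR hsmall
  obtain ⟨p1, p2, p3, p4, p5⟩ := params hθ0 hθ1 hR
  have hρr : pr θ R ≤ pρ θ R := by unfold pρ pd; omega
  have hx1 : 1 ≤ (R : ℝ) ^ (1 - 3 * θ) := Real.one_le_rpow hR1 (by linarith)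
  have hr1 : 1 ≤ pr θ R := by
    have : (1 : ℝ) ≤ pr θ R := hx1.trans p2
    exact_mod_cast this
  -- gradient bound in the zone
  have hgazone : ∀ f, 2 * C0 * (dF T.faceSet f : ℝ) < R →
      ga ψ f / dD T f ≤ 2 * Kg * (nb U f / dD T f ^ 2) := by
    intro f hf
    have hz := zone hne hC0 hΦ2 hf
    obtain ⟨a1, a2⟩ := hgrad T.faceSet Φ Φ U U f hT.fin
      (fun y => by rw [abs_of_nonneg (hΦ y).1]) hU hU hz
    have b1 : |pX ψ f| ≤ |pX U f| := by
      unfold pX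
      exact abs_min_sub_le _ _ _
    have b2 : |pY ψ f| ≤ |pY U f| := by
      unfold pY
      exact abs_min_sub_le _ _ _
    have hDp := dD_pos T f
    rw [div_le_iff₀ hDp]
    have : 2 * Kg * (nb U f / dD T f ^ 2) * dD T f = 2 * (Kg * nb U f / dD T f) := by
      field_simp
    rw [this]
    unfold ga dD
    linarith
  have hdeep0 : ∑ f ∈ (box (0, 0) (R + 1)).filter (fun f => pr θ R < dF T.faceSet f),
      ga ψ f / dD T f ≤ 25 * C0 * (R : ℝ) ^ (-c1) := by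
    have hQ : ∑ f ∈ box (0, 0) (R + 1), ga ψ f ^ 2 ≤ (5 * C0 * (R : ℝ) ^ (-(6 * θ))) ^ 2 := by
      refine (energy_min hT hR hC0 hΦ hU hlam).trans ?_
      have e1 : (5 * C0 * (R : ℝ) ^ (-(6 * θ))) ^ 2 = 25 * C0 * (C0 * (R : ℝ) ^ (-(12 * θ))) := by
        rw [mul_pow, mul_pow, ← Real.rpow_natCast ((R : ℝ) ^ (-(6 * θ))) 2,
          ← Real.rpow_mul hRpos.le]
        have : -(6 * θ) * ((2 : ℕ) : ℝ) = -(12 * θ) := by push_cast; ring
        rw [this]; ring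
      rw [e1]
      have := mul_le_mul_of_nonneg_left hlam2 (by positivity : 0 ≤ 18 * C0)
      have h5 : 0 ≤ C0 * (C0 * (R : ℝ) ^ (-(12 * θ))) := by positivity
      linarith
    refine (deep_le hr1 (by positivity) hQ).trans ?_
    rw [div_le_iff₀ (by exact_mod_cast hr1)]
    have e2 : (R : ℝ) = (R : ℝ) ^ (3 * θ) * (R : ℝ) ^ (1 - 3 * θ) := by
      rw [← Real.rpow_add hRpos]; simp
    have e3 : (R : ℝ) ^ (-(6 * θ)) * (R : ℝ) ^ (3 * θ) ≤ (R : ℝ) ^ (-c1) := by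
      rw [← Real.rpow_add hRpos]
      exact Real.rpow_le_rpow_of_exponent_le hR1 (by linarith)
    calc (2 * (R : ℝ) + 3) * (5 * C0 * (R : ℝ) ^ (-(6 * θ)))
        ≤ (5 * (R : ℝ)) * (5 * C0 * (R : ℝ) ^ (-(6 * θ))) := by
          apply mul_le_mul_of_nonneg_right _ (by positivity)
          linarith
      _ = 25 * C0 * ((R : ℝ) ^ (-(6 * θ)) * (R : ℝ)) := by ring
      _ = 25 * C0 * (((R : ℝ) ^ (-(6 * θ)) * (R : ℝ) ^ (3 * θ)) * (R : ℝ) ^ (1 - 3 * θ)) := by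
          rw [mul_assoc ((R : ℝ) ^ (-(6 * θ))), ← e2]
      _ ≤ 25 * C0 * ((R : ℝ) ^ (-c1) * (pr θ R : ℝ)) := by
          apply mul_le_mul_of_nonneg_left _ (by positivity)
          exact mul_le_mul e3 p2 (by positivity) (by positivity)
      _ = _ := by ring
  -- the local sums
  have hzoneS : ∀ (p : Pt) (ρ : ℕ) (S : Finset Pt), (∀ x ∈ S, dn p x ≤ ρ ∧ dF T.faceSet x ≤ ρ) →
      (∀ x ∈ S, dn (0, 0) x ≤ R + 1) → (∀ x ∈ S, 2 * C0 * (dF T.faceSet x : ℝ) < R) →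
      ∑ f ∈ S, ga ψ f / dD T f ≤ 2 * Kg * (K * C0 * Lg R * (((ρ : ℝ) + 2) / R) ^ γ) := by
    intro p ρ S hS1 hS2 hS3
    calc ∑ f ∈ S, ga ψ f / dD T f ≤ ∑ f ∈ S, 2 * Kg * (nb U f / dD T f ^ 2) :=
          sum_le_sum (fun f hf => hgazone f (hS3 f hf))
      _ = 2 * Kg * ∑ f ∈ S, nb U f / dD T f ^ 2 := by rw [mul_sum]
      _ ≤ _ := mul_le_mul_of_nonneg_left
          (hsum T R C0 Φ U hR hT hC0 hΦ hU p ρ S hS1 hS2) (by positivity)
  have hLg0 : 0 ≤ Lg R := by linarith [two_le_Lg R]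
  have hLg1 : 1 ≤ Lg R := by linarith [two_le_Lg R]
  have hXle : (R : ℝ) ^ (-c1) ≤ 1 := Real.rpow_le_one_of_one_le_of_nonpos hR1 (by linarith)
  have hX0 : 0 ≤ (R : ℝ) ^ (-c1) := by positivity
  have hbasic : ∀ f, dn (0, 0) f ≤ R + 1 → dF T.faceSet f ≤ 2 * R + 3 := fun f hf =>
    dF_le_box hT (by omega)
  have hfin := hfinal T R ψ hR (hdet T) (hsub T) hFits hψ0 hL ?_ ?_ ?_ ?_
  · have h4 : 0 ≤ ((2 * (R0 : ℝ) + 3) ^ 2 * (8 * C0 * (2 * R0 + 5))) ^ 2 *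
        (R0 : ℝ) ^ (min c1 (θ * β) / 2) * (R : ℝ) ^ (-(min c1 (θ * β) / 2)) := by positivity
    linarith
  · refine (energy_min hT hR hC0 hΦ hU hlam).trans ?_
    have e1 : lam ≤ C0 * (R : ℝ) ^ (-c1) := by
      refine hlam2.trans ?_
      apply mul_le_mul_of_nonneg_left _ hC0
      exact Real.rpow_le_rpow_of_exponent_le hR1 (by linarith)
    calc 18 * C0 * lam ≤ 18 * C0 * (C0 * (R : ℝ) ^ (-c1)) :=
          mul_le_mul_of_nonneg_left e1 (by positivity)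
      _ = (18 * C0 ^ 2) * (R : ℝ) ^ (-c1) := by ring
      _ ≤ K1 * (R : ℝ) ^ (-c1) := by
          apply mul_le_mul_of_nonneg_right _ hX0
          have : 0 ≤ 25 * C0 + 14 * Kg * K * C0 + 1000 * Kg * K * C0 := by positivity
          linarith
  · -- total
    rw [← sum_filter_add_sum_filter_not (box (0, 0) (R + 1))
      (fun f => pr θ R < dF T.faceSet f)]
    have e1 : ∑ f ∈ (box (0, 0) (R + 1)).filter (fun f => ¬ pr θ R < dF T.faceSet f),
        ga ψ f / dD T f ≤ 2 * Kg * (K * C0 * Lg R * ((((2 * R + 3 : ℕ) : ℝ) + 2) / R) ^ γ) := by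
      apply hzoneS (0, 0) (2 * R + 3)
      · intro x hx
        have hx1 := G45.mem_box.1 (mem_filter.1 hx).1
        exact ⟨by omega, hbasic x hx1⟩
      · intro x hx
        exact G45.mem_box.1 (mem_filter.1 hx).1
      · intro x hx
        have hx2 := (mem_filter.1 hx).2
        have h3 : (dF T.faceSet x : ℝ) ≤ pρ θ R := by exact_mod_cast (by omega)
        have h4 := mul_le_mul_of_nonneg_left h3 (by positivity : 0 ≤ 2 * C0)
        have h5 : 0 ≤ C0 * (pρ θ R : ℝ) := by positivity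
        linarith
    have e2 : ((((2 * R + 3 : ℕ) : ℝ) + 2) / R) ^ γ ≤ 7 := by
      have h3 : (((2 * R + 3 : ℕ) : ℝ) + 2) / R ≤ 7 := by
        rw [div_le_iff₀ hRpos]
        push_cast
        linarith
      have h4 : 1 ≤ (((2 * R + 3 : ℕ) : ℝ) + 2) / R := by
        rw [le_div_iff₀ hRpos]
        push_cast
        linarith
      exact (rpow_le_self_of h4 hγ1).trans h3
    have e3 : 2 * Kg * (K * C0 * Lg R * ((((2 * R + 3 : ℕ) : ℝ) + 2) / R) ^ γ) ≤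
        14 * Kg * K * C0 * Lg R := by
      have h3 := mul_le_mul_of_nonneg_left e2 (by positivity : 0 ≤ 2 * Kg * (K * C0 * Lg R))
      calc _ = 2 * Kg * (K * C0 * Lg R) * ((((2 * R + 3 : ℕ) : ℝ) + 2) / R) ^ γ := by ring
        _ ≤ _ := h3
        _ = _ := by ring
    have e4 : 25 * C0 * (R : ℝ) ^ (-c1) ≤ 25 * C0 * Lg R := by
      apply mul_le_mul_of_nonneg_left _ (by positivity)
      linarith
    have e5 : 25 * C0 * Lg R + 14 * Kg * K * C0 * Lg R ≤ K1 * Lg R := by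
      rw [← add_mul]
      apply mul_le_mul_of_nonneg_right _ hLg0
      have : 0 ≤ 18 * C0 ^ 2 + 1000 * Kg * K * C0 := by positivity
      linarith
    linarith
  · -- local
    intro p hp
    have e1 : ∑ f ∈ (box (0, 0) (R + 1)).filter (fun f => dn p f ≤ 3 * pρ θ R),
        ga ψ f / dD T f ≤ 2 * Kg * (K * C0 * Lg R * ((((3 * pρ θ R : ℕ) : ℝ) + 2) / R) ^ γ) := by
      apply hzoneS p (3 * pρ θ R)
      · intro x hx
        have hx2 := (mem_filter.1 hx).2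
        refine ⟨hx2, ?_⟩
        have := dF_le (x := x) hp
        rw [dn_comm] at this
        omega
      · intro x hx
        exact G45.mem_box.1 (mem_filter.1 hx).1
      · intro x hx
        have hx2 := (mem_filter.1 hx).2
        have h2 : dF T.faceSet x ≤ 3 * pρ θ R := by
          have := dF_le (x := x) hp
          rw [dn_comm] at this
          omega
        have h3 : (dF T.faceSet x : ℝ) ≤ 3 * pρ θ R := by exact_mod_cast h2
        have h4 := mul_le_mul_of_nonneg_left h3 (by positivity : 0 ≤ 2 * C0)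
        have h5 : 0 ≤ C0 * (pρ θ R : ℝ) := by positivity
        linarith
    refine e1.trans ?_
    have e2 : ((((3 * pρ θ R : ℕ) : ℝ) + 2) / R) ^ γ ≤ 500 * (R : ℝ) ^ (-c1) := by
      have h3 : (((3 * pρ θ R : ℕ) : ℝ) + 2) / R ≤ 500 * (R : ℝ) ^ (-(2 * θ)) := by
        rw [div_le_iff₀ hRpos]
        have h4 : (R : ℝ) ^ (-(2 * θ)) * (R : ℝ) = (R : ℝ) ^ (1 - 2 * θ) := by
          have : (R : ℝ) ^ (-(2 * θ)) * (R : ℝ) = (R : ℝ) ^ (-(2 * θ)) * (R : ℝ) ^ (1 : ℝ) := by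
            rw [Real.rpow_one]
          rw [this, ← Real.rpow_add hRpos]
          ring_nf
        rw [mul_assoc, h4]
        have h5 : 1 ≤ (R : ℝ) ^ (1 - 2 * θ) := Real.one_le_rpow hR1 (by linarith)
        push_cast
        linarith
      have h4 := Real.rpow_le_rpow (by positivity) h3 hγ.le
      refine h4.trans ?_
      rw [Real.mul_rpow (by norm_num) (by positivity), ← Real.rpow_mul hRpos.le]
      have h5 : (500 : ℝ) ^ γ ≤ 500 := rpow_le_self_of (by norm_num) hγ1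
      have h6 : -(2 * θ) * γ = -c1 := by rw [hc1]; ring
      rw [h6]
      exact mul_le_mul_of_nonneg_right h5 hX0
    calc 2 * Kg * (K * C0 * Lg R * ((((3 * pρ θ R : ℕ) : ℝ) + 2) / R) ^ γ)
        = 2 * Kg * (K * C0 * Lg R) * ((((3 * pρ θ R : ℕ) : ℝ) + 2) / R) ^ γ := by ring
      _ ≤ 2 * Kg * (K * C0 * Lg R) * (500 * (R : ℝ) ^ (-c1)) :=
          mul_le_mul_of_nonneg_left e2 (by positivity)
      _ = (1000 * Kg * K * C0) * (Lg R * (R : ℝ) ^ (-c1)) := by ring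
      _ ≤ K1 * (Lg R * (R : ℝ) ^ (-c1)) := by
          apply mul_le_mul_of_nonneg_right _ (by positivity)
          have : 0 ≤ 18 * C0 ^ 2 + 25 * C0 + 14 * Kg * K * C0 := by positivity
          linarith
      _ = _ := by ring
  · refine hdeep0.trans ?_
    apply mul_le_mul_of_nonneg_right _ hX0
    have : 0 ≤ 18 * C0 ^ 2 + 14 * Kg * K * C0 + 1000 * Kg * K * C0 := by positivity
    linarith

end Vale.Agent.P155.H904
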