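import Vale.Agent.P155.H904.IMin2
import Vale.Agent.P155.J.Iface

/-!
# P155 block I: the layer lemma for `k = 0`
-/

namespace Vale.Agent.P155.H904

open Vale.Agent.P155 Finset Skel

theorem large_pow {θ : ℝ} (h0 : 0 < θ) (B : ℝ) : ∃ R1 : ℕ, ∀ R : ℕ, R1 ≤ R → B ≤ (R : ℝ) ^ θ := by
  refine ⟨⌈(max B 0) ^ (1 / θ)⌉₊, ?_⟩
  intro R hR
  have h2 : (max B 0) ^ (1 / θ) ≤ (R : ℝ) := (Nat.le_ceil _).trans (by exact_mod_cast hR)
  have h3 := Real.rpow_le_rpow (by positivity) h2 h0.le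
  rw [← Real.rpow_mul (by positivity), one_div_mul_cancel h0.ne', Real.rpow_one] at h3
  exact (le_max_left _ _).trans h3

/-- Green potentials of bounded densities, scaled -/
theorem green_decay' {C β : ℝ} (hβ : 0 < β) (hC : 0 ≤ C) (hSD : G45.SupDecay C β) :
    ∃ D : ℝ, 0 < D ∧ ∀ (T : Temp) (R : ℕ) (C0 : ℝ) (Φ U : Pt → ℝ), 1 ≤ R → FGeo T R → 0 < C0 →
      (∀ y, 0 ≤ Φ y ∧ Φ y ≤ C0 / (R : ℝ) ^ 2) → IsGreen T.faceSet Φ U →
      ∀ x, U x ≤ D * C0 * ((dF T.faceSet x : ℝ) / R) ^ (min 1 (β / 2)) := by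
  obtain ⟨D, hD, h⟩ := G45.green_decay hβ hC hSD
  refine ⟨D, hD, ?_⟩
  intro T R C0 Φ U hR hT hC0 hΦ hU x
  have hR' : (0 : ℝ) < R := by exact_mod_cast hR
  have hU' : IsGreen T.faceSet (fun y => C0⁻¹ * Φ y) (fun y => C0⁻¹ * U y) :=
    { off := fun x hx => by rw [hU.off x hx, mul_zero]
      eq := fun x hx => by
        rw [G45.lap_smul, ← hU.eq x hx]; ring }
  have := h R T.faceSet (0, 0) _ _ hR (fun x hx => hT.box x hx) hT.cp hU' (by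
    intro y
    rw [abs_of_nonneg (mul_nonneg (by positivity) (hΦ y).1)]
    have h1 := mul_le_mul_of_nonneg_left (hΦ y).2 (by positivity : 0 ≤ C0⁻¹)
    refine h1.trans (le_of_eq ?_)
    field_simp) x
  rw [abs_mul, abs_of_pos (by positivity : 0 < C0⁻¹)] at this
  have h2 : |U x| ≤ D * C0 * ((dF T.faceSet x : ℝ) / R) ^ (min 1 (β / 2)) := by
    have h3 := mul_le_mul_of_nonneg_left this hC0.le
    rw [← mul_assoc, mul_inv_cancel₀ hC0.ne', one_mul] at h3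
    refine h3.trans (le_of_eq (by ring))
  exact (le_abs_self _).trans h2

/-- gradient of `(1 - χ) u` in the layer -/
theorem grad_cut {O : Set Pt} (hne : ∃ y, y ∉ O) {s : ℕ} (hs : 1 ≤ s) {C0 : ℝ} (hC0 : 0 ≤ C0)
    {χ u U : Pt → ℝ} (hχ : J.IsCut O s C0 χ) (hu : ∀ y, |u y| ≤ U y) {Kg : ℝ} (hKg : 0 ≤ Kg)
    {f : Pt}
    (h1 : |pX u f| ≤ Kg * nb U f / (1 + (dF O f : ℝ)))
    (h2 : |pY u f| ≤ Kg * nb U f / (1 + (dF O f : ℝ))) :
    ga (fun y => (1 - χ y) * u y) f ≤ 2 * (Kg + 3 * C0) * nb U f / (1 + (dF O f : ℝ)) ∧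
    (2 * s < dF O f → ga (fun y => (1 - χ y) * u y) f = 0) := by
  have hU : ∀ y, 0 ≤ U y := fun y => (abs_nonneg _).trans (hu y)
  have hnb : U f ≤ nb U f ∧ U (f.1 - 1, f.2) ≤ nb U f ∧ U (f.1, f.2 - 1) ≤ nb U f := by
    unfold nb
    have := hU f
    have := hU (f.1 - 1, f.2)
    have := hU (f.1, f.2 - 1)
    refine ⟨by linarith, by linarith, by linarith⟩
  have hnb0 : 0 ≤ nb U f := (hU f).trans hnb.1
  have hzero : 2 * s < dF O f → ga (fun y => (1 - χ y) * u y) f = 0 := by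
    intro hd
    have hone : ∀ g, dn f g ≤ 1 → χ g = 1 := by
      intro g hg
      apply hχ.one
      have := dF_lip hne f g
      omega
    have k0 := hone f (by rw [dn_self]; omega)
    have k1 := hone (f.1 - 1, f.2) (by rw [dn_le_iff]; simp)
    have k2 := hone (f.1, f.2 - 1) (by rw [dn_le_iff]; simp)
    simp [ga, pX, pY, k0, k1, k2]
  refine ⟨?_, hzero⟩
  by_cases hd : 2 * s < dF O f
  · rw [hzero hd]; positivity
  push Not at hd
  have hs' : (1 : ℝ) ≤ s := by exact_mod_cast hs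
  have hd' : (dF O f : ℝ) ≤ 2 * s := by exact_mod_cast hd
  have hDpos : (0 : ℝ) < 1 + (dF O f : ℝ) := by positivity
  have hdx : ∀ g : Pt, (g = (f.1 - 1, f.2) ∨ g = (f.1, f.2 - 1)) → |χ f - χ g| ≤ C0 * (s : ℝ)⁻¹ := by
    intro g hg
    rcases hg with rfl | rfl
    · have := hχ.diff 1 0 (by norm_num) (f.1 - 1, f.2)
      simpa [Dx] using this
    · have := hχ.diff 0 1 (by norm_num) (f.1, f.2 - 1)
      simpa [Dy] using this
  have hsinv : (s : ℝ)⁻¹ ≤ 3 / (1 + (dF O f : ℝ)) := by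
    rw [inv_eq_one_div, div_le_div_iff₀ (by linarith) hDpos]
    linarith
  have key : ∀ g : Pt, (g = (f.1 - 1, f.2) ∨ g = (f.1, f.2 - 1)) →
      |u f - u g| ≤ Kg * nb U f / (1 + (dF O f : ℝ)) → U g ≤ nb U f →
      |(1 - χ f) * u f - (1 - χ g) * u g| ≤ (Kg + 3 * C0) * nb U f / (1 + (dF O f : ℝ)) := by
    intro g hg hgrad hUg
    have e1 : (1 - χ f) * u f - (1 - χ g) * u g = (1 - χ f) * (u f - u g) + (χ g - χ f) * u g := by
      ring
    have e2 : |(1 - χ f) * (u f - u g)| ≤ Kg * nb U f / (1 + (dF O f : ℝ)) := by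
      rw [abs_mul]
      have a1 : |1 - χ f| ≤ 1 := by
        rw [abs_le]
        have := hχ.nonneg f
        have := hχ.le_one f
        constructor <;> linarith
      calc |1 - χ f| * |u f - u g| ≤ 1 * |u f - u g| := by gcongr
        _ ≤ _ := by rw [one_mul]; exact hgrad
    have e3 : |(χ g - χ f) * u g| ≤ 3 * C0 * nb U f / (1 + (dF O f : ℝ)) := by
      rw [abs_mul, abs_sub_comm]
      have a1 := hdx g hg
      calc |χ f - χ g| * |u g| ≤ (C0 * (s : ℝ)⁻¹) * nb U f :=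
            mul_le_mul a1 ((hu g).trans hUg) (abs_nonneg _) (by positivity)
        _ ≤ (C0 * (3 / (1 + (dF O f : ℝ)))) * nb U f := by gcongr
        _ = _ := by ring
    rw [e1]
    calc _ ≤ |(1 - χ f) * (u f - u g)| + |(χ g - χ f) * u g| := abs_add_le _ _
      _ ≤ Kg * nb U f / (1 + (dF O f : ℝ)) + 3 * C0 * nb U f / (1 + (dF O f : ℝ)) :=
        add_le_add e2 e3
      _ = _ := by ring
  have k1 := key (f.1 - 1, f.2) (Or.inl rfl) h1 hnb.2.1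
  have k2 := key (f.1, f.2 - 1) (Or.inr rfl) h2 hnb.2.2
  unfold ga
  calc _ ≤ (Kg + 3 * C0) * nb U f / (1 + (dF O f : ℝ)) +
        (Kg + 3 * C0) * nb U f / (1 + (dF O f : ℝ)) := add_le_add k1 k2
    _ = _ := by ring

theorem dec_layer {T : Temp} (hne : ∃ y, y ∉ T.faceSet) {R s : ℕ} {a β' D C0 : ℝ} {U : Pt → ℝ}
    (hR1 : (1 : ℝ) ≤ R) (ha0 : 0 < a) (ha1 : a ≤ 1 / 2) (hβ'0 : 0 < β') (hβ'1 : β' ≤ 1)
    (hD : 0 ≤ D) (hC0 : 0 ≤ C0) (hsa : (s : ℝ) ≤ 2 * (R : ℝ) ^ a)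
    (hU : ∀ x, U x ≤ D * C0 * ((dF T.faceSet x : ℝ) / R) ^ β') {f : Pt}
    (hf : dF T.faceSet f ≤ 2 * s) : nb U f ≤ 15 * D * C0 * (R : ℝ) ^ (-(β' / 2)) := by
  have hRpos : (0 : ℝ) < R := by linarith
  have hRa : (1 : ℝ) ≤ (R : ℝ) ^ a := Real.one_le_rpow hR1 ha0.le
  have e4 : (R : ℝ) ^ a ≤ (R : ℝ) ^ (-((1 : ℝ) / 2)) * R := by
    have : (R : ℝ) ^ (-((1 : ℝ) / 2)) * R = (R : ℝ) ^ (-((1 : ℝ) / 2)) * (R : ℝ) ^ (1 : ℝ) := by
      rw [Real.rpow_one]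
    rw [this, ← Real.rpow_add hRpos]
    exact Real.rpow_le_rpow_of_exponent_le hR1 (by linarith)
  have hdec2 : ∀ g, dn f g ≤ 1 → U g ≤ 5 * D * C0 * (R : ℝ) ^ (-(β' / 2)) := by
    intro g hg
    refine (hU g).trans ?_
    have e1 := dF_lip hne g f
    rw [dn_comm] at e1
    have e2 : (dF T.faceSet g : ℝ) ≤ 5 * (R : ℝ) ^ a := by
      have : (dF T.faceSet g : ℝ) ≤ 2 * s + 1 := by exact_mod_cast (by omega)
      linarith
    have e3 : (dF T.faceSet g : ℝ) / R ≤ 5 * (R : ℝ) ^ (-((1 : ℝ) / 2)) := by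
      rw [div_le_iff₀ hRpos]
      linarith
    have e5 : ((dF T.faceSet g : ℝ) / R) ^ β' ≤ 5 * (R : ℝ) ^ (-(β' / 2)) := by
      refine (Real.rpow_le_rpow (by positivity) e3 hβ'0.le).trans ?_
      rw [Real.mul_rpow (by norm_num) (by positivity), ← Real.rpow_mul hRpos.le]
      have e6 : -((1 : ℝ) / 2) * β' = -(β' / 2) := by ring
      rw [e6]
      exact mul_le_mul_of_nonneg_right (rpow_le_self_of (by norm_num) hβ'1) (by positivity)
    calc D * C0 * ((dF T.faceSet g : ℝ) / R) ^ β' ≤ D * C0 * (5 * (R : ℝ) ^ (-(β' / 2))) :=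
          mul_le_mul_of_nonneg_left e5 (by positivity)
      _ = _ := by ring
  have k0 := hdec2 f (by rw [dn_self]; omega)
  have k1 := hdec2 (f.1 - 1, f.2) (by rw [dn_le_iff]; simp)
  have k2 := hdec2 (f.1, f.2 - 1) (by rw [dn_le_iff]; simp)
  unfold nb
  linarith

theorem energy_zero {T : Temp} {R : ℕ} {ψ U : Pt → ℝ} {K2 B S E Lr KL X Y : ℝ} {s : ℕ}
    (_hK2 : 0 ≤ K2) (hB : 0 ≤ B) (hU0 : ∀ x, 0 ≤ U x)
    (hga : ∀ f, (2 * s < dF T.faceSet f → ga ψ f = 0) ∧ (dF T.faceSet f ≤ 2 * s →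
        ga ψ f ≤ K2 * (nb U f / dD T f)))
    (hnb : ∀ f, dF T.faceSet f ≤ 2 * s → nb U f ≤ B * X) (hX : 0 ≤ X)
    (hall : ∑ f ∈ box (0, 0) (R + 1), nb U f / dD T f ^ 2 ≤ S * Lr) (hS : 0 ≤ S)
    (hLr : Lr ≤ KL * Y) (_hKL : 0 ≤ KL) (_hY : 0 ≤ Y) (hE : X * Y ≤ E) :
    ∑ f ∈ box (0, 0) (R + 1), ga ψ f ^ 2 ≤ (K2 ^ 2 * B * S * KL) * E := by
  have hpt : ∀ f, ga ψ f ^ 2 ≤ (K2 ^ 2 * (B * X)) * (nb U f / dD T f ^ 2) := by
    intro f
    have hDp := dD_pos T f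
    have hnb0 : 0 ≤ nb U f := by
      unfold nb; linarith [hU0 f, hU0 (f.1 - 1, f.2), hU0 (f.1, f.2 - 1)]
    by_cases hf : 2 * s < dF T.faceSet f
    · rw [(hga f).1 hf]
      have : (0 : ℝ) ^ 2 = 0 := by norm_num
      rw [this]
      positivity
    · push Not at hf
      have h3 := (hga f).2 hf
      calc ga ψ f ^ 2 ≤ (K2 * (nb U f / dD T f)) ^ 2 :=
            pow_le_pow_left₀ (ga_nonneg ψ f) h3 2
        _ = K2 ^ 2 * (nb U f * (nb U f / dD T f ^ 2)) := by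
            field_simp
        _ ≤ K2 ^ 2 * ((B * X) * (nb U f / dD T f ^ 2)) :=
            mul_le_mul_of_nonneg_left
              (mul_le_mul_of_nonneg_right (hnb f hf) (by positivity)) (sq_nonneg _)
        _ = _ := by ring
  calc ∑ f ∈ box (0, 0) (R + 1), ga ψ f ^ 2
      ≤ ∑ f ∈ box (0, 0) (R + 1), (K2 ^ 2 * (B * X)) * (nb U f / dD T f ^ 2) :=
        sum_le_sum (fun f _ => hpt f)
    _ = (K2 ^ 2 * (B * X)) * ∑ f ∈ box (0, 0) (R + 1), nb U f / dD T f ^ 2 := by rw [mul_sum]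
    _ ≤ (K2 ^ 2 * (B * X)) * (S * Lr) := mul_le_mul_of_nonneg_left hall (by positivity)
    _ ≤ (K2 ^ 2 * (B * X)) * (S * (KL * Y)) :=
        mul_le_mul_of_nonneg_left (mul_le_mul_of_nonneg_left hLr hS) (by positivity)
    _ = (K2 ^ 2 * B * S * KL) * (X * Y) := by ring
    _ ≤ _ := mul_le_mul_of_nonneg_left hE (by positivity)

theorem loc_pow {θ γ c1 : ℝ} (hθ0 : 0 < θ) (hθ1 : θ ≤ 1 / 8) (hγ : 0 < γ) (hγ1 : γ ≤ 1) {R : ℕ}
    (hR : 1 ≤ R) (hc : c1 ≤ 2 * θ * γ) :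
    ((((3 * pρ θ R : ℕ) : ℝ) + 2) / R) ^ γ ≤ 500 * (R : ℝ) ^ (-c1) := by
  have hR1 : (1 : ℝ) ≤ R := by exact_mod_cast hR
  have hRpos : (0 : ℝ) < R := by linarith
  obtain ⟨p1, p2, p3, p4, p5⟩ := params hθ0 hθ1 hR
  have h3 : (((3 * pρ θ R : ℕ) : ℝ) + 2) / R ≤ 500 * (R : ℝ) ^ (-(2 * θ)) := by
    rw [div_le_iff₀ hRpos]
    have h4 : (R : ℝ) ^ (-(2 * θ)) * (R : ℝ) = (R : ℝ) ^ (1 - 2 * θ) := by
      have : (R : ℝ) ^ (-(2 * θ)) * (R : ℝ) = (R : ℝ) ^ (-(2 * θ)) * (R : ℝ) ^ (1 : ℝ) := by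
        rw [Real.rpow_one]
      rw [this, ← Real.rpow_add hRpos]
      ring_nf
    rw [mul_assoc, h4]
    have h5 : 1 ≤ (R : ℝ) ^ (1 - 2 * θ) := Real.one_le_rpow hR1 (by linarith)
    push_cast
    linarith
  have h4 := Real.rpow_le_rpow (by positivity) h3 hγ.le
  refine h4.trans ?_
  rw [Real.mul_rpow (by norm_num) (by positivity), ← Real.rpow_mul hRpos.le]
  have h5 : (500 : ℝ) ^ γ ≤ 500 := rpow_le_self_of (by norm_num) hγ1
  have h6 : (R : ℝ) ^ (-(2 * θ) * γ) ≤ (R : ℝ) ^ (-c1) :=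
    Real.rpow_le_rpow_of_exponent_le hR1 (by linarith)
  exact mul_le_mul h5 h6 (by positivity) (by norm_num)

theorem tot_alg {K2 K C0 L P K1 : ℝ} (h : 7 * K2 * K * C0 ≤ K1) (hP : P ≤ 7) (hK2 : 0 ≤ K2)
    (hK : 0 ≤ K) (hC0 : 0 ≤ C0) (hL : 0 ≤ L) : K2 * (K * C0 * L * P) ≤ K1 * L := by
  have h4 := mul_le_mul_of_nonneg_left hP (by positivity : 0 ≤ K2 * (K * C0 * L))
  calc K2 * (K * C0 * L * P) = K2 * (K * C0 * L) * P := by ring
    _ ≤ K2 * (K * C0 * L) * 7 := h4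
    _ = (7 * K2 * K * C0) * L := by ring
    _ ≤ K1 * L := mul_le_mul_of_nonneg_right h hL

theorem loc_alg {K2 K C0 L P X K1 : ℝ} (h : 500 * K2 * K * C0 ≤ K1) (hP : P ≤ 500 * X)
    (hK2 : 0 ≤ K2) (hK : 0 ≤ K) (hC0 : 0 ≤ C0) (hL : 0 ≤ L) (hX : 0 ≤ X) :
    K2 * (K * C0 * L * P) ≤ K1 * L * X := by
  have h4 := mul_le_mul_of_nonneg_left hP (by positivity : 0 ≤ K2 * (K * C0 * L))
  calc K2 * (K * C0 * L * P) = K2 * (K * C0 * L) * P := by ring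
    _ ≤ K2 * (K * C0 * L) * (500 * X) := h4
    _ = (500 * K2 * K * C0) * (L * X) := by ring
    _ ≤ K1 * (L * X) := mul_le_mul_of_nonneg_right h (by positivity)
    _ = _ := by ring

theorem zero_gz {T : Temp} (hne : ∃ y, y ∉ T.faceSet) {R s : ℕ} (hs1 : 1 ≤ s) {C0 Kg : ℝ}
    (hC0 : 0 ≤ C0) (hKg : 0 ≤ Kg) {χ u U Φ : Pt → ℝ} (hχ : J.IsCut T.faceSet s C0 χ)
    (huU : ∀ x, |u x| ≤ U x)
    (hΦ2 : ∀ y, Φ y ≠ 0 → (R : ℝ) ≤ C0 * dF T.faceSet y) (hsR : 4 * C0 * (s : ℝ) < R)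
    (hgrad : ∀ f, (∀ y, dn f y < dF T.faceSet f → Φ y = 0) →
      |pX u f| ≤ Kg * nb U f / (1 + (dF T.faceSet f : ℝ)) ∧
      |pY u f| ≤ Kg * nb U f / (1 + (dF T.faceSet f : ℝ))) (f : Pt) :
    ga (fun y => (1 - χ y) * u y) f / dD T f ≤ 2 * (Kg + 3 * C0) * (nb U f / dD T f ^ 2) ∧
      (2 * s < dF T.faceSet f → ga (fun y => (1 - χ y) * u y) f = 0) ∧
      (dF T.faceSet f ≤ 2 * s →
        ga (fun y => (1 - χ y) * u y) f ≤ 2 * (Kg + 3 * C0) * (nb U f / dD T f)) := by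
  have hU0 : ∀ x, 0 ≤ U x := fun x => (abs_nonneg _).trans (huU x)
  have hDp := dD_pos T f
  have hnb0 : 0 ≤ nb U f := by unfold nb; linarith [hU0 f, hU0 (f.1 - 1, f.2), hU0 (f.1, f.2 - 1)]
  by_cases hf : 2 * s < dF T.faceSet f
  · have hz : ga (fun y => (1 - χ y) * u y) f = 0 := by
      have hone : ∀ g, dn f g ≤ 1 → χ g = 1 := by
        intro g hg
        apply hχ.one
        have := dF_lip hne f g
        omega
      have k0 := hone f (by rw [dn_self]; omega)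
      have k1 := hone (f.1 - 1, f.2) (by rw [dn_le_iff]; simp)
      have k2 := hone (f.1, f.2 - 1) (by rw [dn_le_iff]; simp)
      simp [ga, pX, pY, k0, k1, k2]
    refine ⟨?_, fun _ => hz, fun h => absurd h (by omega)⟩
    rw [hz, zero_div]
    positivity
  · push Not at hf
    have hzone : 2 * C0 * (dF T.faceSet f : ℝ) < R := by
      have h3 : (dF T.faceSet f : ℝ) ≤ 2 * s := by exact_mod_cast hf
      have h4 := mul_le_mul_of_nonneg_left h3 (by positivity : 0 ≤ 2 * C0)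
      linarith
    obtain ⟨a1, a2⟩ := hgrad f (zone hne hC0 hΦ2 hzone)
    have h3 := (grad_cut hne hs1 hC0 hχ huU hKg a1 a2).1
    have h4 : ga (fun y => (1 - χ y) * u y) f ≤ 2 * (Kg + 3 * C0) * (nb U f / dD T f) := by
      refine h3.trans (le_of_eq ?_)
      unfold dD
      ring
    refine ⟨?_, fun h => absurd h (by omega), fun _ => h4⟩
    rw [div_le_iff₀ hDp]
    refine h4.trans (le_of_eq ?_)
    field_simp

theorem zero_bdd {T : Temp} {R : ℕ} (hR : 1 ≤ R) (hT : FGeo T R) {Dd C0 β' : ℝ} (hDd : 0 ≤ Dd)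
    (hC0 : 0 ≤ C0) (hβ'0 : 0 < β') (hβ'1 : β' ≤ 1) {χ u U : Pt → ℝ} (hχ0 : ∀ x, 0 ≤ χ x)
    (hχ1 : ∀ x, χ x ≤ 1) (huU : ∀ x, |u x| ≤ U x) (hu0 : ∀ x, x ∉ T.faceSet → u x = 0)
    (hUdec : ∀ x, U x ≤ Dd * C0 * ((dF T.faceSet x : ℝ) / R) ^ β') (f : Pt) :
    |(1 - χ f) * u f| ≤ Dd * C0 * 3 := by
  have hRpos : (0 : ℝ) < R := by exact_mod_cast hR
  have hR1 : (1 : ℝ) ≤ R := by exact_mod_cast hR
  have hψU : |(1 - χ f) * u f| ≤ U f := by
    rw [abs_mul]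
    have a1 : |1 - χ f| ≤ 1 := by
      rw [abs_le]
      have := hχ0 f
      have := hχ1 f
      constructor <;> linarith
    calc |1 - χ f| * |u f| ≤ 1 * U f := mul_le_mul a1 (huU f) (abs_nonneg _) (by norm_num)
      _ = U f := one_mul _
  by_cases hf : f ∈ T.faceSet
  · refine hψU.trans ((hUdec f).trans ?_)
    apply mul_le_mul_of_nonneg_left _ (by positivity)
    have h3 : dF T.faceSet f ≤ 2 * R + 1 := by
      have hne' : ((R : ℤ) + 1, 0) ∉ T.faceSet := by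
        intro hc
        have := (dn_spec (0, 0) ((R : ℤ) + 1, 0)).1.2.1
        have := hT.box _ hc
        simp only at *
        omega
      have e1 := dF_le (x := f) hne'
      have e2 : dn f ((R : ℤ) + 1, 0) ≤ 2 * R + 1 := by
        have := hT.box f hf
        rw [dn_le_iff] at this ⊢
        simp only [abs_le] at *
        push_cast at *
        omega
      omega
    have h4 : (dF T.faceSet f : ℝ) / R ≤ 3 := by
      rw [div_le_iff₀ hRpos]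
      have : (dF T.faceSet f : ℝ) ≤ 2 * R + 1 := by exact_mod_cast h3
      linarith
    calc ((dF T.faceSet f : ℝ) / R) ^ β' ≤ 3 ^ β' :=
          Real.rpow_le_rpow (by positivity) h4 hβ'0.le
      _ ≤ 3 := rpow_le_self_of (by norm_num) hβ'1
  · rw [hu0 f hf, mul_zero, abs_zero]; positivity

/-- `k = 0` -/
def I_zero' : Prop := ∀ a : ℝ, 0 < a → a ≤ 1 / 2 → ∃ c > (0 : ℝ), ∀ C0 : ℝ, ∃ C : ℝ,
  ∀ (R : ℕ) (T : Temp) (φ u χ : Pt → ℝ), 1 ≤ R → Fits T R → (∀ y, |φ y| ≤ C0 / (R : ℝ) ^ 2) →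
  (∀ y, φ y ≠ 0 → (R : ℝ) ≤ C0 * dF T.faceSet y) → IsGreen T.faceSet φ u →
  J.IsCut T.faceSet ⌈(R : ℝ) ^ a⌉₊ C0 χ →
  Ex T.V (fun ω => (hf ω (lap (fun y => (1 - χ y) * u y))) ^ 2) ≤ C * (R : ℝ) ^ (-c)

open Classical in
theorem i_zero' (h1 : A_one) (h2 : A_two) (hp : B_plane) (hd : B_dom) (hcp : L_cp)
    (hdet : ∀ T : Temp, (KM T.V).det ≠ 0) (hsub : ∀ T : Temp, Sub T T.V) {β Cd : ℝ} (hβ : 0 < β)
    (hCd : 0 ≤ Cd) (hdec : G45.SupDecay Cd β) (hout : G45.OutDecay Cd β) : I_zero' := by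
  obtain ⟨γ, hγ, hγ1, K, hK, hsum⟩ := sum_nbU hβ hCd hdec hout
  obtain ⟨Kg, hKg, hgrad⟩ := grad_green hβ hCd hdec
  obtain ⟨Dd, hDd, hgd⟩ := green_decay' hβ hCd hdec
  intro a ha0 ha1
  set θ : ℝ := 1 / 16 with hθ
  have hθ0 : 0 < θ := by norm_num [hθ]
  have hθ1 : θ ≤ 1 / 8 := by norm_num [hθ]
  set β' : ℝ := min 1 (β / 2) with hβ'
  have hβ'0 : 0 < β' := lt_min one_pos (by positivity)
  have hβ'1 : β' ≤ 1 := min_le_left _ _
  set c1 : ℝ := min (2 * θ * γ) (β' / 4) with hc1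
  have hc10 : 0 < c1 := lt_min (by positivity) (by positivity)
  have hc11 : c1 ≤ 2 * θ * γ := min_le_left _ _
  have hc12 : c1 ≤ β' / 4 := min_le_right _ _
  have hcpos : 0 < min c1 (θ * β) / 2 := by
    have : 0 < min c1 (θ * β) := lt_min hc10 (by positivity)
    linarith
  refine ⟨min c1 (θ * β) / 2, hcpos, ?_⟩
  intro C0'
  set C0 : ℝ := max C0' 1 with hC0def
  have hC01 : 1 ≤ C0 := le_max_right _ _
  have hC0 : 0 ≤ C0 := by linarith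
  have hC0' : C0' ≤ C0 := le_max_left _ _
  obtain ⟨KL, hKL, hLgle⟩ := Lg_le (ε := β' / 4) (by positivity)
  set K2 : ℝ := 2 * (Kg + 3 * C0) with hK2
  have hK20 : 0 ≤ K2 := by positivity
  set K1 : ℝ := K2 ^ 2 * (15 * Dd * C0) * (7 * K * C0) * KL + 7 * K2 * K * C0 + 500 * K2 * K * C0
    with hK1
  have hK10 : 0 ≤ K1 := by positivity
  have hk1 : K2 ^ 2 * (15 * Dd * C0) * (7 * K * C0) * KL ≤ K1 := by
    have : 0 ≤ 7 * K2 * K * C0 + 500 * K2 * K * C0 := by positivity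
    linarith
  have hk2 : 7 * K2 * K * C0 ≤ K1 := by
    have : 0 ≤ K2 ^ 2 * (15 * Dd * C0) * (7 * K * C0) * KL + 500 * K2 * K * C0 := by positivity
    linarith
  have hk3 : 500 * K2 * K * C0 ≤ K1 := by
    have : 0 ≤ K2 ^ 2 * (15 * Dd * C0) * (7 * K * C0) * KL + 7 * K2 * K * C0 := by positivity
    linarith
  clear_value K1
  obtain ⟨C1, hC1, hfinal⟩ := layer_final h1 h2 hp hd hdec hβ hCd hθ0 hθ1 hc10 K1 hK10
  obtain ⟨R0, hR0⟩ := params_large hθ0 hθ1 hC01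
  obtain ⟨R1, hR1'⟩ := large_pow (θ := 5 / 16) (by norm_num) 6
  refine ⟨C1 + ((2 * ((max R0 R1 : ℕ) : ℝ) + 3) ^ 2 *
    (8 * (Dd * C0 * 3) * (2 * ((max R0 R1 : ℕ) : ℝ) + 5))) ^ 2 *
    ((max R0 R1 : ℕ) : ℝ) ^ (min c1 (θ * β) / 2), ?_⟩
  intro R T φ u χ hR hFits hφ' hφ2' hu hχ'
  have hR1 : (1 : ℝ) ≤ R := by exact_mod_cast hR
  have hRpos : (0 : ℝ) < R := by linarith
  set s := ⌈(R : ℝ) ^ a⌉₊ with hs
  have hs1 : 1 ≤ s := Nat.one_le_ceil_iff.2 (by positivity)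
  have hχ : J.IsCut T.faceSet s C0 χ :=
    { nonneg := hχ'.nonneg, le_one := hχ'.le_one, zero := hχ'.zero, one := hχ'.one
      diff := fun a b hab y => (hχ'.diff a b hab y).trans
        (mul_le_mul_of_nonneg_right hC0' (by positivity)) }
  have hT := fgeo hFits hcp (hsub T)
  have hne := G45.exists_notMem hT.fin
  -- the majorant
  set Φ : Pt → ℝ := fun y => |φ y| with hΦdef
  obtain ⟨U, hU⟩ := G45.exists_green hT.fin Φ
  have hΦ : ∀ y, 0 ≤ Φ y ∧ Φ y ≤ C0 / (R : ℝ) ^ 2 := fun y =>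
    ⟨abs_nonneg _, (hφ' y).trans (div_le_div_of_nonneg_right hC0' (by positivity))⟩
  have hΦ2 : ∀ y, Φ y ≠ 0 → (R : ℝ) ≤ C0 * dF T.faceSet y := fun y hy =>
    (hφ2' y (fun h => hy (by simp [hΦdef, h]))).trans
      (mul_le_mul_of_nonneg_right hC0' (by positivity))
  have hU0 : ∀ x, 0 ≤ U x := G45.green_nonneg hT.fin hU (fun x _ => (hΦ x).1)
  have huU : ∀ x, |u x| ≤ U x := G45.abs_green_le hT.fin hu hU (fun y _ => le_rfl)
  have hUdec := hgd T R C0 Φ U hR hT (by linarith) hΦ hU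
  set ψ : Pt → ℝ := fun y => (1 - χ y) * u y with hψ
  have hψ0 : ∀ y, y ∉ T.faceSet → ψ y = 0 := by
    intro y hy
    simp only [hψ, hu.off y hy, mul_zero]
  have hψB : ∀ f, |ψ f| ≤ Dd * C0 * 3 := fun f =>
    zero_bdd hR hT hDd.le hC0 hβ'0 hβ'1 hχ.nonneg hχ.le_one huU hu.off hUdec f
  rw [add_mul]
  by_cases hsmall : max R0 R1 ≤ R
  swap
  · have h3 := small_R (c := min c1 (θ * β) / 2) hR (le_of_not_ge hsmall) (by positivity)
      hcpos.le (trivial_bound hFits hψ0 hψB)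
    have h4 : 0 ≤ C1 * (R : ℝ) ^ (-(min c1 (θ * β) / 2)) := by positivity
    linarith
  obtain ⟨hL, hbig⟩ := hR0 R hR ((le_max_left _ _).trans hsmall)
  have h6 := hR1' R ((le_max_right _ _).trans hsmall)
  obtain ⟨p1, p2, p3, p4, p5⟩ := params hθ0 hθ1 hR
  have hρr : pr θ R ≤ pρ θ R := by unfold pρ pd; omega
  have hRa : (1 : ℝ) ≤ (R : ℝ) ^ a := Real.one_le_rpow hR1 ha0.le
  have hsa : (s : ℝ) ≤ 2 * (R : ℝ) ^ a := by
    have : (s : ℝ) ≤ (R : ℝ) ^ a + 1 := (Nat.ceil_lt_add_one (by positivity)).le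
    linarith
  have hsr : 2 * s ≤ pr θ R := by
    have e1 : (R : ℝ) ^ a ≤ (R : ℝ) ^ ((1 : ℝ) / 2) := Real.rpow_le_rpow_of_exponent_le hR1 ha1
    have e2 : (R : ℝ) ^ (1 - 3 * θ) = (R : ℝ) ^ ((5 : ℝ) / 16) * (R : ℝ) ^ ((1 : ℝ) / 2) := by
      rw [← Real.rpow_add hRpos, hθ]; norm_num
    have e3 : (2 * s : ℝ) ≤ pr θ R := by
      refine le_trans ?_ p2
      rw [e2]
      have : 0 < (R : ℝ) ^ ((1 : ℝ) / 2) := by positivity
      nlinarith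
    exact_mod_cast e3
  have hsR : 4 * C0 * (s : ℝ) < R := by
    have h3 : (2 * s : ℝ) ≤ pρ θ R := by exact_mod_cast hsr.trans hρr
    have h4 := mul_le_mul_of_nonneg_left h3 (by positivity : 0 ≤ 2 * C0)
    have h5 : 0 ≤ C0 * (pρ θ R : ℝ) := by positivity
    linarith
  -- gradient bound
  have hgz := zero_gz hne hs1 hC0 (by linarith : (0 : ℝ) ≤ Kg) hχ huU hΦ2 hsR
    (fun f hz => hgrad T.faceSet φ Φ u U f hT.fin (fun y => le_rfl) hu hU hz)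
  have hzoneS : ∀ (p : Pt) (ρ : ℕ) (S : Finset Pt), (∀ x ∈ S, dn p x ≤ ρ ∧ dF T.faceSet x ≤ ρ) →
      (∀ x ∈ S, dn (0, 0) x ≤ R + 1) →
      ∑ f ∈ S, ga ψ f / dD T f ≤ K2 * (K * C0 * Lg R * (((ρ : ℝ) + 2) / R) ^ γ) := by
    intro p ρ S hS1 hS2
    calc ∑ f ∈ S, ga ψ f / dD T f ≤ ∑ f ∈ S, K2 * (nb U f / dD T f ^ 2) :=
          sum_le_sum (fun f _ => (hgz f).1)
      _ = K2 * ∑ f ∈ S, nb U f / dD T f ^ 2 := by rw [mul_sum]
      _ ≤ _ := mul_le_mul_of_nonneg_left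
          (hsum T R C0 Φ U hR hT hC0 hΦ hU p ρ S hS1 hS2) hK20
  have hLg0 : 0 ≤ Lg R := by linarith [two_le_Lg R]
  have hX0 : 0 ≤ (R : ℝ) ^ (-c1) := by positivity
  have hbasic : ∀ f, dn (0, 0) f ≤ R + 1 → dF T.faceSet f ≤ 2 * R + 3 := fun f hf =>
    dF_le_box hT (by omega)
  have e7 : ((((2 * R + 3 : ℕ) : ℝ) + 2) / R) ^ γ ≤ 7 := by
    have h3 : (((2 * R + 3 : ℕ) : ℝ) + 2) / R ≤ 7 := by
      rw [div_le_iff₀ hRpos]
      push_cast
      linarith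
    have h4 : 1 ≤ (((2 * R + 3 : ℕ) : ℝ) + 2) / R := by
      rw [le_div_iff₀ hRpos]
      push_cast
      linarith
    exact (rpow_le_self_of h4 hγ1).trans h3
  have hall : ∑ f ∈ box (0, 0) (R + 1), nb U f / dD T f ^ 2 ≤ 7 * K * C0 * Lg R := by
    have h3 := hsum T R C0 Φ U hR hT hC0 hΦ hU (0, 0) (2 * R + 3) (box (0, 0) (R + 1))
      (fun x hx => by
        have hx1 := G45.mem_box.1 hx
        exact ⟨by omega, hbasic x hx1⟩) (fun x hx => G45.mem_box.1 hx)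
    refine h3.trans ?_
    have h4 := mul_le_mul_of_nonneg_left e7 (by positivity : 0 ≤ K * C0 * Lg R)
    linarith
  have hfin := hfinal T R ψ hR (hdet T) (hsub T) hFits hψ0 hL ?_ ?_ ?_ ?_
  · have h4 : 0 ≤ ((2 * ((max R0 R1 : ℕ) : ℝ) + 3) ^ 2 *
      (8 * (Dd * C0 * 3) * (2 * ((max R0 R1 : ℕ) : ℝ) + 5))) ^ 2 *
      ((max R0 R1 : ℕ) : ℝ) ^ (min c1 (θ * β) / 2) * (R : ℝ) ^ (-(min c1 (θ * β) / 2)) := by
      positivity
    linarith
  · -- energy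
    refine (energy_zero (s := s) (X := (R : ℝ) ^ (-(β' / 2))) (Y := (R : ℝ) ^ (β' / 4))
      (B := 15 * Dd * C0) (S := 7 * K * C0) (Lr := Lg R) (KL := KL) (E := (R : ℝ) ^ (-c1))
      hK20 (by positivity) hU0 (fun f => (hgz f).2)
      (fun f hf => dec_layer hne hR1 ha0 ha1 hβ'0 hβ'1 hDd.le hC0 hsa hUdec hf) (by positivity)
      hall (by positivity) (hLgle R hR) (by linarith) (by positivity) ?_).trans ?_
    · rw [← Real.rpow_add hRpos]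
      exact Real.rpow_le_rpow_of_exponent_le hR1 (by linarith)
    · exact mul_le_mul_of_nonneg_right hk1 hX0
  · refine (hzoneS (0, 0) (2 * R + 3) (box (0, 0) (R + 1)) (fun x hx => by
        have hx1 := G45.mem_box.1 hx
        exact ⟨by omega, hbasic x hx1⟩) (fun x hx => G45.mem_box.1 hx)).trans ?_
    exact tot_alg hk2 e7 hK20 hK hC0 hLg0
  · intro p hp
    have e1 := hzoneS p (3 * pρ θ R) ((box (0, 0) (R + 1)).filter
      (fun f => dn p f ≤ 3 * pρ θ R)) (fun x hx => by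
        have hx2 := (mem_filter.1 hx).2
        refine ⟨hx2, ?_⟩
        have := dF_le (x := x) hp
        rw [dn_comm] at this
        omega) (fun x hx => G45.mem_box.1 (mem_filter.1 hx).1)
    refine e1.trans ?_
    exact loc_alg hk3 (loc_pow hθ0 hθ1 hγ hγ1 hR hc11) hK20 hK hC0 hLg0 hX0
  · have : ∑ f ∈ (box (0, 0) (R + 1)).filter (fun f => pr θ R < dF T.faceSet f),
        ga ψ f / dD T f = 0 := by
      apply sum_eq_zero
      intro f hf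
      have := (mem_filter.1 hf).2
      rw [(hgz f).2.1 (by omega), zero_div]
    rw [this]
    positivity

end Vale.Agent.P155.H904
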