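import Vale.Agent.P155.H904.Main
import Vale.Agent.P155.G45.Harnack

/-!
# P155 block I: gradients of Green potentials near the boundary, dyadic sums
-/

namespace Vale.Agent.P155.H904

open Vale.Agent.P155 Finset

/-- **Gradient bound by the value.** -/
theorem grad_le_value {C β : ℝ} (hβ : 0 < β) (hC : 0 ≤ C) (hSD : G45.SupDecay C β) :
    ∃ K : ℝ, 1 ≤ K ∧ ∀ (f : Pt) (n : ℕ) (u U : Pt → ℝ), 1 ≤ n → (∀ y, |u y| ≤ U y) →
      (∀ y, dn f y < n → lap u y = 0 ∧ lap U y = 0) → ∀ g, Adj f g →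
      |u f - u g| ≤ K * U f / n := by
  obtain ⟨A, hA, hH⟩ := G45.harnack hβ hC hSD
  refine ⟨10 * A + 15, by linarith, ?_⟩
  intro f n u U hn huU hl g hg
  have hU : ∀ y, 0 ≤ U y := fun y => (abs_nonneg _).trans (huU y)
  have hn' : (0 : ℝ) < n := by exact_mod_cast hn
  have hUf := hU f
  by_cases hn3 : n ≤ 3
  · have h1 := (hl f (by rw [dn_self]; omega)).2
    have h2 := G45.harnack_adj h1 (fun y _ => hU y) hg
    have h3 : |u f - u g| ≤ 5 * U f := by
      have := abs_sub (u f) (u g)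
      have a1 := huU f
      have a2 := huU g
      linarith
    refine h3.trans ?_
    rw [le_div_iff₀ hn']
    have h4 : (n : ℝ) ≤ 3 := by exact_mod_cast hn3
    nlinarith
  · push Not at hn3
    -- box of radius `m = n/2 - 1`
    set m := n / 2 - 1 with hm
    have hm1 : 1 ≤ m := by omega
    have hbig : ∀ y, dn f y ≤ m + 1 → |u y| ≤ A * U f := by
      intro y hy
      refine (huU y).trans ?_
      exact hH f (m + 1) U (fun z _ => hU z) (fun z hz => (hl z (by omega)).2) y f hy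
        (by rw [dn_self]; omega)
    have hfin : 2 * (A * U f) / m ≤ (10 * A + 15) * U f / n := by
      rw [div_le_div_iff₀ (by exact_mod_cast hm1) hn']
      have h5 : (n : ℝ) ≤ 5 * m := by
        have : n ≤ 5 * m := by omega
        exact_mod_cast this
      have h6 : 0 ≤ A * U f := by positivity
      have h7 : (0 : ℝ) ≤ m := by positivity
      nlinarith [mul_nonneg hUf h7]
    have key : ∀ y, dn f y ≤ 1 → (∀ z, dn y z ≤ m → |u z| ≤ A * U f) ∧
        (∀ z, dn y z < m → lap u z = 0) := by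
      intro y hy
      constructor
      · intro z hz
        have := dn_tri f y z
        exact hbig z (by omega)
      · intro z hz
        have := dn_tri f y z
        exact (hl z (by omega)).1
    rcases adj_cases hg with hh | hh | hh | hh
    · have := key f (by rw [dn_self]; omega)
      have e := (grad_est m f u _ hm1 this.1 this.2).1
      rw [hh, abs_sub_comm]
      exact e.trans hfin
    · have := key g (dn_adj hg)
      have e := (grad_est m g u _ hm1 this.1 this.2).1
      rw [hh] at e ⊢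
      simp only [sub_add_cancel] at e
      exact e.trans hfin
    · have := key f (by rw [dn_self]; omega)
      have e := (grad_est m f u _ hm1 this.1 this.2).2
      rw [hh, abs_sub_comm]
      exact e.trans hfin
    · have := key g (dn_adj hg)
      have e := (grad_est m g u _ hm1 this.1 this.2).2
      rw [hh] at e ⊢
      simp only [sub_add_cancel] at e
      exact e.trans hfin

/-- the sum over the three faces -/
def nb (U : Pt → ℝ) (f : Pt) : ℝ := U f + U (f.1 - 1, f.2) + U (f.1, f.2 - 1)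

open Classical in
/-- dyadic summation -/
theorem dyadic_sum {S : Finset Pt} {U D : Pt → ℝ} {dd : Pt → ℕ} (hdd : ∀ x, D x = 1 + (dd x : ℝ))
    (_hU : ∀ x, 0 ≤ U x) {B : ℝ} {J : ℕ} (hJ : ∀ x ∈ S, 1 + dd x < 2 ^ J)
    (hB : ∀ j < J, ∑ x ∈ S.filter (fun x => dd x ≤ 2 * 2 ^ j), U x ≤ B * ((2 : ℝ) ^ j) ^ 2) :
    ∑ x ∈ S, U x / D x ^ 2 ≤ B * J := by
  have hmap : ∀ x ∈ S, Nat.log 2 (1 + dd x) ∈ range J := by
    intro x hx
    rw [mem_range]
    exact Nat.log_lt_of_lt_pow (by omega) (hJ x hx)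
  rw [← sum_fiberwise_of_maps_to hmap]
  have h1 : ∀ j ∈ range J, ∑ x ∈ S.filter (fun x => Nat.log 2 (1 + dd x) = j), U x / D x ^ 2 ≤
      B := by
    intro j hj
    have hpow : (0 : ℝ) < ((2 : ℝ) ^ j) ^ 2 := by positivity
    have h2 : ∑ x ∈ S.filter (fun x => Nat.log 2 (1 + dd x) = j), U x / D x ^ 2 ≤
        ∑ x ∈ S.filter (fun x => Nat.log 2 (1 + dd x) = j), U x / ((2 : ℝ) ^ j) ^ 2 := by
      apply sum_le_sum
      intro x hx
      have hx2 := (mem_filter.1 hx).2
      have h3 : 2 ^ j ≤ 1 + dd x := by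
        rw [← hx2]
        exact Nat.pow_log_le_self 2 (by omega)
      have h4 : (2 : ℝ) ^ j ≤ D x := by
        rw [hdd]
        exact_mod_cast h3
      exact div_le_div_of_nonneg_left (_hU x) hpow (pow_le_pow_left₀ (by positivity) h4 2)
    refine h2.trans ?_
    rw [← sum_div, div_le_iff₀ hpow]
    refine le_trans ?_ (hB j (mem_range.1 hj))
    apply sum_le_sum_of_subset_of_nonneg
    · intro x hx
      rw [mem_filter] at hx ⊢
      refine ⟨hx.1, ?_⟩
      have : 1 + dd x < 2 ^ (j + 1) := by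
        rw [← hx.2]
        exact Nat.lt_pow_succ_log_self (by norm_num) _
      rw [pow_succ] at this
      omega
    · intro x _ _
      exact _hU x
  refine (sum_le_sum h1).trans ?_
  rw [sum_const, card_range, nsmul_eq_mul, mul_comm]

open Classical in
/-- passing from `nb U` to `U` -/
theorem sum_nb {S : Finset Pt} {U D : Pt → ℝ} (hU : ∀ x, 0 ≤ U x) (hD : ∀ x, 1 ≤ D x)
    (hD1 : ∀ f : Pt, D (f.1 - 1, f.2) ≤ 2 * D f) (hD2 : ∀ f : Pt, D (f.1, f.2 - 1) ≤ 2 * D f)
    {S' : Finset Pt} (h0 : S ⊆ S') (h1 : ∀ f ∈ S, (f.1 - 1, f.2) ∈ S')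
    (h2 : ∀ f ∈ S, (f.1, f.2 - 1) ∈ S') :
    ∑ f ∈ S, nb U f / D f ^ 2 ≤ 9 * ∑ g ∈ S', U g / D g ^ 2 := by
  have pos : ∀ x, 0 < D x := fun x => by linarith [hD x]
  have hn : ∀ x, 0 ≤ U x / D x ^ 2 := fun x => div_nonneg (hU x) (sq_nonneg _)
  have e0 : ∑ f ∈ S, U f / D f ^ 2 ≤ ∑ g ∈ S', U g / D g ^ 2 :=
    sum_le_sum_of_subset_of_nonneg h0 (fun x _ _ => hn x)
  have shift : ∀ t : Pt → Pt, Function.Injective t → (∀ f ∈ S, t f ∈ S') →
      (∀ f, D (t f) ≤ 2 * D f) → ∑ f ∈ S, U (t f) / D f ^ 2 ≤ 4 * ∑ g ∈ S', U g / D g ^ 2 := by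
    intro t ht hS' hDt
    have e1 : ∑ f ∈ S, U (t f) / D f ^ 2 ≤ ∑ f ∈ S, 4 * (U (t f) / D (t f) ^ 2) := by
      apply sum_le_sum
      intro f _
      rw [← mul_div_assoc, div_le_div_iff₀ (by have := pos f; positivity)
        (by have := pos (t f); positivity)]
      have h3 : D (t f) ^ 2 ≤ 4 * D f ^ 2 := by
        have := pow_le_pow_left₀ (pos (t f)).le (hDt f) 2
        nlinarith
      nlinarith [hU (t f)]
    refine e1.trans ?_
    rw [← mul_sum]
    apply mul_le_mul_of_nonneg_left _ (by norm_num)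
    rw [← sum_image (f := fun g => U g / D g ^ 2) (s := S) (g := t)
      (fun x _ y _ h => ht h)]
    apply sum_le_sum_of_subset_of_nonneg
    · intro g hg
      obtain ⟨f, hf, rfl⟩ := mem_image.1 hg
      exact hS' f hf
    · intro x _ _
      exact hn x
  have e1 := shift (fun f => (f.1 - 1, f.2)) (by
    intro a b h
    simp only [Prod.mk.injEq] at h
    ext <;> omega) h1 hD1
  have e2 := shift (fun f => (f.1, f.2 - 1)) (by
    intro a b h
    simp only [Prod.mk.injEq] at h
    ext <;> omega) h2 hD2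
  have : ∑ f ∈ S, nb U f / D f ^ 2 = ∑ f ∈ S, U f / D f ^ 2 +
      ∑ f ∈ S, U (f.1 - 1, f.2) / D f ^ 2 + ∑ f ∈ S, U (f.1, f.2 - 1) / D f ^ 2 := by
    rw [← sum_add_distrib, ← sum_add_distrib]
    apply sum_congr rfl
    intro f _
    unfold nb
    ring
  rw [this]
  linarith

theorem dD_shift (T : Temp) (hne : ∃ y, y ∉ T.faceSet) {f g : Pt} (h : dn f g ≤ 1) :
    dD T g ≤ 2 * dD T f := by
  have h1 := dF_lip hne g f
  rw [dn_comm] at h1
  unfold dD
  have : (dF T.faceSet g : ℝ) ≤ dF T.faceSet f + 1 := by exact_mod_cast (by omega)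
  have h2 : (0 : ℝ) ≤ dF T.faceSet f := by positivity
  linarith

end Vale.Agent.P155.H904
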