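import Vale.Agent.P155.H904.Hardy
import Vale.Agent.P155.G.Mean
import Vale.Agent.P155.H904.GradU

/-!
# P155, BD block R0: Agmon's method on simply connected lattice domains
-/

namespace Vale.Agent.P155.H904

open Vale.Agent.P155 Finset Vale.Agent.P155.G45

/-- the energy of a product -/
theorem agmon_form {S : Finset Pt} {u ψ : Pt → ℝ} (hu : ∀ x, x ∉ S → u x = 0) :
    ∑ x ∈ S, (ψ x * u x) * (- lap (fun y => ψ y * u y) x) =
      ∑ x ∈ S, (ψ x ^ 2 * u x) * (- lap u x) +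
        1 / 2 * pS S (fun x y => u x * u y * (ψ x - ψ y) ^ 2) := by
  have hu' : ∀ x, x ∉ S → ψ x * u x = 0 := fun x hx => by rw [hu x hx, mul_zero]
  rw [form_eq (u := fun y => ψ y * u y) hu', form_eq hu]
  have e1 : pS S (fun x y => u x * u y * (ψ x - ψ y) ^ 2) =
      pS S (fun x y => ψ x ^ 2 * u x * u y) + pS S (fun x y => ψ y ^ 2 * u y * u x) -
        2 * pS S (fun x y => ψ x * u x * (ψ y * u y)) := by
    rw [← pS_smul, ← pS_add]
    have : ∀ F G : Pt → Pt → ℝ, pS S (fun x y => F x y) - pS S (fun x y => G x y) =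
        pS S (fun x y => F x y - G x y) := by
      intro F G
      have := pS_add S (fun x y => F x y) (fun x y => (-1) * G x y)
      rw [pS_smul] at this
      have e : (fun x y => F x y - G x y) = (fun x y => F x y + -1 * G x y) := by
        funext x y; ring
      rw [e, this]; ring
    rw [this]
    congr 1
    funext x y
    ring
  have e2 : pS S (fun x y => ψ y ^ 2 * u y * u x) = pS S (fun x y => ψ x ^ 2 * u x * u y) :=
    pS_comm S (fun x y => ψ y ^ 2 * u y * u x)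
  have e3 : ∑ x ∈ S, 4 * (ψ x * u x * (ψ x * u x)) = ∑ x ∈ S, 4 * (ψ x ^ 2 * u x * u x) :=
    sum_congr rfl fun x _ => by ring
  rw [e1, e2, e3]
  ring

/-- elementary bound for the difference of the weights -/
theorem weight_diff {a b c r r' ε ε' : ℝ} (hc : 0 ≤ c)
    (h1 : |r - r'| ≤ ε) (h2 : |r - r'| ≤ ε') (hε1 : c * ε ≤ 1) :
    (a * Real.exp (c * r) - b * Real.exp (c * r')) ^ 2 ≤
      25 * ((a - b) ^ 2 * Real.exp (2 * c * r)) +
      24 * (c ^ 2 * (|a| * Real.exp (c * r) * ε) * (|b| * Real.exp (c * r') * ε')) := by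
  set e := Real.exp (c * r) with he
  set e' := Real.exp (c * r') with he'
  have hepos : 0 < e := Real.exp_pos _
  have hepos' : 0 < e' := Real.exp_pos _
  have hε0 : 0 ≤ ε := (abs_nonneg _).trans h1
  have hε0' : 0 ≤ ε' := (abs_nonneg _).trans h2
  set t := c * (r - r') with ht
  have ht1 : |t| ≤ c * ε := by
    rw [ht, abs_mul, abs_of_nonneg hc]; exact mul_le_mul_of_nonneg_left h1 hc
  have ht2 : |t| ≤ c * ε' := by
    rw [ht, abs_mul, abs_of_nonneg hc]; exact mul_le_mul_of_nonneg_left h2 hc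
  have htt : |t| ≤ 1 := ht1.trans hε1
  have het : e = e' * Real.exp t := by
    rw [he, he', ← Real.exp_add]; congr 1; rw [ht]; ring
  have hexp := Real.abs_exp_sub_one_le htt
  have hE1 : Real.exp t ≤ 3 := by
    have := Real.exp_le_exp.2 ((le_abs_self t).trans htt)
    have := Real.exp_one_lt_d9
    linarith
  have hE2 : Real.exp (-t) ≤ 3 := by
    have := Real.exp_le_exp.2 ((neg_le_abs t).trans htt)
    have := Real.exp_one_lt_d9
    linarith
  have h31 : e ≤ 3 * e' := by rw [het]; nlinarith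
  have h32 : e' ≤ 3 * e := by
    have : e' = e * Real.exp (-t) := by
      rw [het, mul_assoc, ← Real.exp_add, add_neg_cancel, Real.exp_zero, mul_one]
    rw [this]; nlinarith
  have hee : Real.exp (2 * c * r) = e ^ 2 := by
    rw [he, ← Real.exp_nat_mul]; congr 1; push_cast; ring
  -- `(e - e')² ≤ 12 t² e e'`
  have hd : (e - e') ^ 2 ≤ 12 * (t ^ 2 * (e * e')) := by
    have h3 : e - e' = e' * (Real.exp t - 1) := by rw [het]; ring
    have h4 : (Real.exp t - 1) ^ 2 ≤ (2 * |t|) ^ 2 := by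
      rw [← sq_abs (Real.exp t - 1)]
      gcongr
    have h5 : (2 * |t|) ^ 2 = 4 * t ^ 2 := by rw [mul_pow, sq_abs]; ring
    rw [h5] at h4
    calc (e - e') ^ 2 = e' ^ 2 * (Real.exp t - 1) ^ 2 := by rw [h3]; ring
      _ ≤ e' ^ 2 * (4 * t ^ 2) := by gcongr
      _ = 4 * t ^ 2 * (e' * e') := by ring
      _ ≤ 4 * t ^ 2 * (3 * e * e') := by gcongr
      _ = 12 * (t ^ 2 * (e * e')) := by ring
  have hd2 : (e - e') ^ 2 ≤ 4 * e ^ 2 := by
    have : |e - e'| ≤ 2 * e := by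
      rw [abs_le]; constructor
      · linarith
      · linarith
    rw [← sq_abs]
    calc |e - e'| ^ 2 ≤ (2 * e) ^ 2 := by gcongr
      _ = 4 * e ^ 2 := by ring
  have hs2 : (e + e') ^ 2 ≤ 16 * e ^ 2 := by
    have : e + e' ≤ 4 * e := by linarith
    calc (e + e') ^ 2 ≤ (4 * e) ^ 2 := by gcongr
      _ = 16 * e ^ 2 := by ring
  have htsq : t ^ 2 ≤ c ^ 2 * (ε * ε') := by
    calc t ^ 2 = |t| * |t| := by rw [← sq_abs]; ring
      _ ≤ (c * ε) * (c * ε') := mul_le_mul ht1 ht2 (abs_nonneg _) (by positivity)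
      _ = c ^ 2 * (ε * ε') := by ring
  have hab : a * b ≤ |a| * |b| := by rw [← abs_mul]; exact le_abs_self _
  have hid : (a * e - b * e') ^ 2 ≤ (a - b) ^ 2 * (e + e') ^ 2 / 2 + (a + b) ^ 2 * (e - e') ^ 2 / 2 := by
    nlinarith [sq_nonneg ((a - b) * (e + e') - (a + b) * (e - e'))]
  have h6 : (a + b) ^ 2 * (e - e') ^ 2 / 2 ≤ 2 * (|a| * |b|) * (e - e') ^ 2 +
      (a - b) ^ 2 * (e - e') ^ 2 / 2 := by
    have : (a + b) ^ 2 = 4 * (a * b) + (a - b) ^ 2 := by ring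
    rw [this]
    nlinarith [sq_nonneg (e - e')]
  have hab0 : 0 ≤ |a| * |b| := by positivity
  calc (a * e - b * e') ^ 2 ≤ (a - b) ^ 2 * (e + e') ^ 2 / 2 + (2 * (|a| * |b|) * (e - e') ^ 2 +
      (a - b) ^ 2 * (e - e') ^ 2 / 2) := hid.trans (by linarith)
    _ ≤ (a - b) ^ 2 * (16 * e ^ 2) / 2 + (2 * (|a| * |b|) * (12 * (t ^ 2 * (e * e'))) +
      (a - b) ^ 2 * (4 * e ^ 2) / 2) := by gcongr
    _ ≤ (a - b) ^ 2 * (16 * e ^ 2) / 2 + (2 * (|a| * |b|) * (12 * (c ^ 2 * (ε * ε') * (e * e'))) +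
      (a - b) ^ 2 * (4 * e ^ 2) / 2) := by gcongr
    _ ≤ 25 * ((a - b) ^ 2 * e ^ 2) + 24 * (c ^ 2 * (|a| * e * ε) * (|b| * e' * ε')) := by
        nlinarith [mul_nonneg (sq_nonneg (a - b)) (sq_nonneg e)]
    _ = _ := by rw [hee]

/-- **Agmon's estimate**, weighted `L²` form. -/
theorem agmon : ∃ D : ℝ, 0 < D ∧ ∀ (O : Set Pt) (hO : O.Finite), CPr O →
    ∀ (φ u χ r : Pt → ℝ) (c C0 : ℝ), IsGreen O φ u → 0 ≤ c → 0 ≤ C0 → D * (c * C0) ≤ 1 →
    (∀ x ∈ O, ∀ y ∈ O, Adj x y → |r x - r y| ≤ C0 / (1 + (dF O x : ℝ))) →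
    ∑ x ∈ hO.toFinset, (χ x * Real.exp (c * r x) * u x) ^ 2 / (1 + (dF O x : ℝ)) ^ 2 ≤
      D * (∑ x ∈ hO.toFinset, χ x ^ 2 * Real.exp (2 * c * r x) * |u x * φ x| +
        pS hO.toFinset (fun x y => (χ x - χ y) ^ 2 * Real.exp (2 * c * r x) * |u x * u y|)) := by
  obtain ⟨D, hD, hH⟩ := hardy
  refine ⟨25 * D + 100 * D + 1, by linarith, ?_⟩
  intro O hO hCP φ u χ r c C0 hu hc hC0 hcD hr
  set S := hO.toFinset with hS
  have hmem : ∀ x, x ∈ S ↔ x ∈ O := by intro x; simp [hS]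
  have huS : ∀ x, x ∉ S → u x = 0 := fun x hx => hu.off x (fun h => hx ((hmem x).2 h))
  set ψ : Pt → ℝ := fun x => χ x * Real.exp (c * r x) with hψ
  have h1 := hH O hO hCP (fun x => ψ x * u x) (fun x hx => by rw [hu.off x hx, mul_zero])
  rw [← hS, agmon_form huS] at h1
  set H := ∑ x ∈ S, (ψ x * u x) ^ 2 / (1 + (dF O x : ℝ)) ^ 2 with hHdef
  set A1 := ∑ x ∈ S, χ x ^ 2 * Real.exp (2 * c * r x) * |u x * φ x| with hA1
  set A2 := pS S (fun x y => (χ x - χ y) ^ 2 * Real.exp (2 * c * r x) * |u x * u y|) with hA2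
  have hcC : 0 ≤ c * C0 := mul_nonneg hc hC0
  have hA1n : 0 ≤ A1 := sum_nonneg fun x _ => by positivity
  have hA2n : 0 ≤ A2 := pS_nonneg fun x _ y _ _ => by positivity
  have hHn : 0 ≤ H := sum_nonneg fun x _ => by positivity
  have ee : ∀ x, Real.exp (2 * c * r x) = Real.exp (c * r x) ^ 2 := by
    intro x; rw [← Real.exp_nat_mul]; congr 1; push_cast; ring
  have b1 : ∑ x ∈ S, (ψ x ^ 2 * u x) * (- lap u x) ≤ A1 := by
    refine sum_le_sum fun x hx => ?_
    rw [hu.eq x ((hmem x).1 hx)]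
    calc ψ x ^ 2 * u x * φ x = ψ x ^ 2 * (u x * φ x) := by ring
      _ ≤ ψ x ^ 2 * |u x * φ x| := mul_le_mul_of_nonneg_left (le_abs_self _) (sq_nonneg _)
      _ = χ x ^ 2 * Real.exp (2 * c * r x) * |u x * φ x| := by rw [ee, hψ]; ring
  have b2 : pS S (fun x y => u x * u y * (ψ x - ψ y) ^ 2) ≤
      25 * A2 + 96 * ((c * C0) ^ 2 * H) := by
    have key : ∀ x ∈ S, ∀ y ∈ S, Adj x y → u x * u y * (ψ x - ψ y) ^ 2 ≤
        25 * ((χ x - χ y) ^ 2 * Real.exp (2 * c * r x) * |u x * u y|) +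
        (12 * ((c * C0) ^ 2 * ((ψ x * u x) ^ 2 / (1 + (dF O x : ℝ)) ^ 2)) +
         12 * ((c * C0) ^ 2 * ((ψ y * u y) ^ 2 / (1 + (dF O y : ℝ)) ^ 2))) := by
      intro x hx y hy hxy
      have hx' := (hmem x).1 hx
      have hy' := (hmem y).1 hy
      have r1 := hr x hx' y hy' hxy
      have r2 := hr y hy' x hx' (adj_symm' hxy)
      rw [abs_sub_comm] at r2
      have hxp : (1 : ℝ) ≤ 1 + (dF O x : ℝ) := by
        have : (0 : ℝ) ≤ dF O x := by positivity
        linarith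
      have hyp : (1 : ℝ) ≤ 1 + (dF O y : ℝ) := by
        have : (0 : ℝ) ≤ dF O y := by positivity
        linarith
      have hcε : c * (C0 / (1 + (dF O x : ℝ))) ≤ 1 := by
        have h3 : c * (C0 / (1 + (dF O x : ℝ))) ≤ c * C0 := by
          apply mul_le_mul_of_nonneg_left _ hc
          exact div_le_self hC0 hxp
        have h4 : c * C0 ≤ 1 := by nlinarith
        linarith
      have hw := weight_diff (a := χ x) (b := χ y) hc r1 r2 hcε
      have hU : 0 ≤ |u x * u y| := abs_nonneg _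
      set X := |ψ x * u x| / (1 + (dF O x : ℝ)) with hX
      set Y := |ψ y * u y| / (1 + (dF O y : ℝ)) with hY
      have hXY : |u x * u y| * (c ^ 2 * (|χ x| * Real.exp (c * r x) * (C0 / (1 + (dF O x : ℝ)))) *
          (|χ y| * Real.exp (c * r y) * (C0 / (1 + (dF O y : ℝ))))) = (c * C0) ^ 2 * (X * Y) := by
        rw [hX, hY, hψ]
        simp only [abs_mul, abs_of_pos (Real.exp_pos _)]
        field_simp
      have hX2 : X ^ 2 = (ψ x * u x) ^ 2 / (1 + (dF O x : ℝ)) ^ 2 := by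
        rw [hX, div_pow, sq_abs]
      have hY2 : Y ^ 2 = (ψ y * u y) ^ 2 / (1 + (dF O y : ℝ)) ^ 2 := by
        rw [hY, div_pow, sq_abs]
      calc u x * u y * (ψ x - ψ y) ^ 2 ≤ |u x * u y| * (ψ x - ψ y) ^ 2 :=
            mul_le_mul_of_nonneg_right (le_abs_self _) (sq_nonneg _)
        _ ≤ |u x * u y| * (25 * ((χ x - χ y) ^ 2 * Real.exp (2 * c * r x)) +
            24 * (c ^ 2 * (|χ x| * Real.exp (c * r x) * (C0 / (1 + (dF O x : ℝ)))) *
            (|χ y| * Real.exp (c * r y) * (C0 / (1 + (dF O y : ℝ)))))) :=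
            mul_le_mul_of_nonneg_left hw hU
        _ = 25 * ((χ x - χ y) ^ 2 * Real.exp (2 * c * r x) * |u x * u y|) +
            24 * ((c * C0) ^ 2 * (X * Y)) := by rw [← hXY]; ring
        _ ≤ 25 * ((χ x - χ y) ^ 2 * Real.exp (2 * c * r x) * |u x * u y|) +
            (12 * ((c * C0) ^ 2 * X ^ 2) + 12 * ((c * C0) ^ 2 * Y ^ 2)) := by
            nlinarith [mul_nonneg (sq_nonneg (c * C0)) (sq_nonneg (X - Y))]
        _ = _ := by rw [hX2, hY2]
    have hG : ∀ x ∈ S, 0 ≤ (ψ x * u x) ^ 2 / (1 + (dF O x : ℝ)) ^ 2 := fun x _ => by positivity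
    have hp1 : pS S (fun x _ => (ψ x * u x) ^ 2 / (1 + (dF O x : ℝ)) ^ 2) ≤ 4 * H := pS_fst_le hG
    have hp2 : pS S (fun _ y => (ψ y * u y) ^ 2 / (1 + (dF O y : ℝ)) ^ 2) ≤ 4 * H := by
      rw [pS_comm]; exact hp1
    calc pS S (fun x y => u x * u y * (ψ x - ψ y) ^ 2) ≤ _ := pS_mono key
      _ = 25 * A2 + (12 * ((c * C0) ^ 2 * pS S (fun x _ => (ψ x * u x) ^ 2 / (1 + (dF O x : ℝ)) ^ 2)) +
          12 * ((c * C0) ^ 2 * pS S (fun _ y => (ψ y * u y) ^ 2 / (1 + (dF O y : ℝ)) ^ 2))) := by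
          rw [pS_add, pS_add, pS_smul, pS_smul, pS_smul, pS_smul, pS_smul]
      _ ≤ 25 * A2 + 96 * ((c * C0) ^ 2 * H) := by
          have := mul_le_mul_of_nonneg_left hp1 (sq_nonneg (c * C0))
          have := mul_le_mul_of_nonneg_left hp2 (sq_nonneg (c * C0))
          linarith
  have h2 : H ≤ D * (A1 + 1 / 2 * (25 * A2 + 96 * ((c * C0) ^ 2 * H))) := by
    refine h1.trans ?_
    apply mul_le_mul_of_nonneg_left _ hD.le
    linarith
  have h3 : 48 * D * (c * C0) ^ 2 ≤ 1 / 2 := by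
    have h4 : (100 * D + 1) * (c * C0) ≤ 1 := by nlinarith
    have h5 : c * C0 ≤ 1 := by nlinarith
    nlinarith
  have h4 : H ≤ D * A1 + 25 / 2 * D * A2 + 1 / 2 * H := by
    have : D * (1 / 2 * (96 * ((c * C0) ^ 2 * H))) ≤ 1 / 2 * H := by
      have := mul_le_mul_of_nonneg_right h3 hHn
      linarith
    nlinarith
  calc H ≤ 2 * D * A1 + 25 * D * A2 := by linarith
    _ ≤ (25 * D + 100 * D + 1) * (A1 + A2) := by nlinarith

end Vale.Agent.P155.H904
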