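import Vale.Agent.P155.H904.Agmon

/-!
# P155, BD block R0: pointwise form of Agmon's estimate
-/

namespace Vale.Agent.P155.H904

open Vale.Agent.P155 Finset Vale.Agent.P155.G45

/-- Lipschitz functions for the quasi-hyperbolic metric -/
def QLip (O : Set Pt) (C0 : ℝ) (r : Pt → ℝ) : Prop :=
  ∀ x ∈ O, ∀ y ∈ O, Adj x y → |r x - r y| ≤ C0 / (1 + (dF O x : ℝ))

/-- a `QLip` function is nearly constant on Whitney boxes -/
theorem QLip.box {O : Set Pt} (hO : O.Finite) {C0 : ℝ} (hC0 : 0 ≤ C0) {r : Pt → ℝ}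
    (hr : QLip O C0 r) {z y : Pt} (hz : z ∈ O) (h : 2 * dn z y ≤ dF O z) :
    |r z - r y| ≤ 2 * C0 := by
  have hne := exists_notMem hO
  have hzp : 0 < dF O z := dF_pos hne hz
  have claim : ∀ (n : ℕ) (y : Pt), (z.1 - y.1).natAbs + (z.2 - y.2).natAbs = n →
      2 * dn z y ≤ dF O z → |r z - r y| ≤ n * (2 * C0 / (2 + (dF O z : ℝ))) := by
    intro n
    induction n with
    | zero =>
      intro y hy _
      have h1 : y = z := by
        have h2 : z.1 = y.1 := by omega
        have h3 : z.2 = y.2 := by omega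
        exact (Prod.ext h2 h3).symm
      subst h1
      simp
    | succ n ih =>
      intro y hy hd
      -- a neighbour of `y` closer to `z`
      obtain ⟨y', hadj, hl1, hdn⟩ : ∃ y', Adj y' y ∧
          (z.1 - y'.1).natAbs + (z.2 - y'.2).natAbs = n ∧ dn z y' ≤ dn z y := by
        rw [dn_eq] at *
        by_cases hx : z.1 = y.1
        · rcases lt_or_gt_of_ne (show z.2 ≠ y.2 by intro h; omega) with hlt | hlt
          · refine ⟨(y.1, y.2 - 1), by unfold Adj; simp, ?_, ?_⟩
            · simp only; omega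
            · rw [dn_eq]; simp only; omega
          · refine ⟨(y.1, y.2 + 1), by unfold Adj; simp, ?_, ?_⟩
            · simp only; omega
            · rw [dn_eq]; simp only; omega
        · rcases lt_or_gt_of_ne hx with hlt | hlt
          · refine ⟨(y.1 - 1, y.2), by unfold Adj; simp, ?_, ?_⟩
            · simp only; omega
            · rw [dn_eq]; simp only; omega
          · refine ⟨(y.1 + 1, y.2), by unfold Adj; simp, ?_, ?_⟩
            · simp only; omega
            · rw [dn_eq]; simp only; omega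
      have h1 := ih y' hl1 (by omega)
      have hy'O : y' ∈ O := mem_of_lt_dF (x := z) (by omega)
      have hyO : y ∈ O := mem_of_lt_dF (x := z) (by omega)
      have h2 := hr y' hy'O y hyO hadj
      have h3 : (2 + (dF O z : ℝ)) / 2 ≤ 1 + (dF O y' : ℝ) := by
        have h4 := dF_lip hne z y'
        have h5 : dF O z ≤ 2 * dF O y' := by omega
        have h6 : (dF O z : ℝ) ≤ 2 * (dF O y' : ℝ) := by exact_mod_cast h5
        linarith
      have h7 : C0 / (1 + (dF O y' : ℝ)) ≤ 2 * C0 / (2 + (dF O z : ℝ)) := by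
        have h8 : 2 * C0 / (2 + (dF O z : ℝ)) = C0 / ((2 + (dF O z : ℝ)) / 2) := by
          field_simp
        rw [h8]
        apply div_le_div_of_nonneg_left hC0 (by positivity) h3
      calc |r z - r y| ≤ |r z - r y'| + |r y' - r y| := abs_sub_le _ _ _
        _ ≤ n * (2 * C0 / (2 + (dF O z : ℝ))) + 2 * C0 / (2 + (dF O z : ℝ)) :=
            add_le_add h1 (h2.trans h7)
        _ = ((n + 1 : ℕ) : ℝ) * (2 * C0 / (2 + (dF O z : ℝ))) := by push_cast; ring
  refine (claim _ y rfl h).trans ?_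
  have h1 : (z.1 - y.1).natAbs + (z.2 - y.2).natAbs ≤ dF O z := by
    rw [dn_eq] at h; omega
  have h2 : (((z.1 - y.1).natAbs + (z.2 - y.2).natAbs : ℕ) : ℝ) ≤ 2 + (dF O z : ℝ) := by
    have : (((z.1 - y.1).natAbs + (z.2 - y.2).natAbs : ℕ) : ℝ) ≤ (dF O z : ℝ) := by
      exact_mod_cast h1
    linarith
  have h3 : (0 : ℝ) < 2 + (dF O z : ℝ) := by positivity
  calc _ ≤ (2 + (dF O z : ℝ)) * (2 * C0 / (2 + (dF O z : ℝ))) :=
        mul_le_mul_of_nonneg_right h2 (by positivity)
    _ = 2 * C0 := by field_simp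

/-- square of a harmonic function is subharmonic -/
theorem lap_sq_nonneg {u : Pt → ℝ} {x : Pt} (h : lap u x = 0) : 0 ≤ lap (fun y => u y ^ 2) x := by
  unfold lap at *
  have e : u (x.1 + 1, x.2) ^ 2 + u (x.1 - 1, x.2) ^ 2 + u (x.1, x.2 + 1) ^ 2 +
      u (x.1, x.2 - 1) ^ 2 - 4 * u x ^ 2 =
      (u (x.1 + 1, x.2) - u x) ^ 2 + (u (x.1 - 1, x.2) - u x) ^ 2 +
      (u (x.1, x.2 + 1) - u x) ^ 2 + (u (x.1, x.2 - 1) - u x) ^ 2 +
      2 * u x * (u (x.1 + 1, x.2) + u (x.1 - 1, x.2) + u (x.1, x.2 + 1) + u (x.1, x.2 - 1) -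
        4 * u x) := by ring
  show 0 ≤ u (x.1 + 1, x.2) ^ 2 + u (x.1 - 1, x.2) ^ 2 + u (x.1, x.2 + 1) ^ 2 +
      u (x.1, x.2 - 1) ^ 2 - 4 * u x ^ 2
  rw [e, h, mul_zero, add_zero]
  positivity

theorem dinf_eq_dn (x z : Pt) : dinf x z = (dn x z : ℤ) := by
  rw [dn_eq]; unfold dinf; push_cast; rfl

/-- first pointwise bound -/
theorem agmon_pt1 {O : Set Pt} (hO : O.Finite) {φ u χ r : Pt → ℝ} {c C0 H : ℝ}
    (hu : IsGreen O φ u) (hc : 0 ≤ c) (hC0 : 0 ≤ C0) (hr : QLip O C0 r)
    (hH : ∑ x ∈ hO.toFinset, (χ x * Real.exp (c * r x) * u x) ^ 2 / (1 + (dF O x : ℝ)) ^ 2 ≤ H)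
    {x : Pt} (hx : x ∈ O) (hfar : ∀ y, 8 * dn x y ≤ dF O x → χ y = 1 ∧ φ y = 0) :
    |u x| ≤ 272 * Real.exp (2 * (c * C0)) * Real.exp (-(c * r x)) * √H := by
  have hne := exists_notMem hO
  have hxp : 0 < dF O x := dF_pos hne hx
  set ρ := dF O x / 8 with hρ
  have hbox : ∀ y, dn x y ≤ ρ → y ∈ O := fun y hy => mem_of_lt_dF (x := x) (by omega)
  set E := Real.exp (4 * (c * C0)) * Real.exp (-(2 * (c * r x))) with hE
  have hEpos : 0 < E := by positivity
  have hH0 : 0 ≤ H := le_trans (sum_nonneg fun y _ => by positivity) hH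
  have hd0 : (0 : ℝ) ≤ dF O x := by positivity
  -- pointwise comparison
  have hpt : ∀ y, dn x y ≤ ρ → u y ^ 2 ≤ 4 * (1 + (dF O x : ℝ)) ^ 2 * E *
      ((χ y * Real.exp (c * r y) * u y) ^ 2 / (1 + (dF O y : ℝ)) ^ 2) := by
    intro y hy
    obtain ⟨hχ, _⟩ := hfar y (by omega)
    rw [hχ, one_mul]
    have h1 := hr.box hO hC0 hx (y := y) (by omega)
    have h2 : (1 + (dF O y : ℝ)) ≤ 2 * (1 + (dF O x : ℝ)) := by
      have h3 := dF_lip hne y x
      rw [dn_comm] at h3
      have h4 : dF O y ≤ 2 * dF O x := by omega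
      have h5 : (dF O y : ℝ) ≤ 2 * (dF O x : ℝ) := by exact_mod_cast h4
      linarith
    have h3 : (1 + (dF O y : ℝ)) ^ 2 ≤ 4 * (1 + (dF O x : ℝ)) ^ 2 := by
      calc (1 + (dF O y : ℝ)) ^ 2 ≤ (2 * (1 + (dF O x : ℝ))) ^ 2 := by gcongr
        _ = 4 * (1 + (dF O x : ℝ)) ^ 2 := by ring
    have h4 : 1 ≤ E * Real.exp (c * r y) ^ 2 := by
      rw [hE, ← Real.exp_nat_mul, ← Real.exp_add, ← Real.exp_add]
      apply Real.one_le_exp
      have := (abs_le.1 h1).2
      push_cast
      nlinarith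
    have h5 : (0 : ℝ) < (1 + (dF O y : ℝ)) ^ 2 := by positivity
    rw [← mul_div_assoc, le_div_iff₀ h5]
    calc u y ^ 2 * (1 + (dF O y : ℝ)) ^ 2 ≤ u y ^ 2 * (4 * (1 + (dF O x : ℝ)) ^ 2) := by gcongr
      _ = (u y ^ 2 * (4 * (1 + (dF O x : ℝ)) ^ 2)) * 1 := by ring
      _ ≤ (u y ^ 2 * (4 * (1 + (dF O x : ℝ)) ^ 2)) * (E * Real.exp (c * r y) ^ 2) := by gcongr
      _ = _ := by ring
  have hsum : ∑ y ∈ box x ρ, u y ^ 2 ≤ 4 * (1 + (dF O x : ℝ)) ^ 2 * E * H := by
    calc ∑ y ∈ box x ρ, u y ^ 2 ≤ ∑ y ∈ box x ρ, 4 * (1 + (dF O x : ℝ)) ^ 2 * E *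
          ((χ y * Real.exp (c * r y) * u y) ^ 2 / (1 + (dF O y : ℝ)) ^ 2) :=
          sum_le_sum fun y hy => hpt y (mem_box.1 hy)
      _ = 4 * (1 + (dF O x : ℝ)) ^ 2 * E * ∑ y ∈ box x ρ,
          ((χ y * Real.exp (c * r y) * u y) ^ 2 / (1 + (dF O y : ℝ)) ^ 2) := by rw [mul_sum]
      _ ≤ 4 * (1 + (dF O x : ℝ)) ^ 2 * E * H := by
          apply mul_le_mul_of_nonneg_left _ (by positivity)
          refine le_trans ?_ hH
          apply sum_le_sum_of_subset_of_nonneg
          · intro y hy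
            simpa using hbox y (mem_box.1 hy)
          · intro y _ _; positivity
  have hsq : u x ^ 2 ≤ 73728 * E * H := by
    by_cases hρ0 : ρ = 0
    · have h1 : u x ^ 2 ≤ ∑ y ∈ box x ρ, u y ^ 2 :=
        single_le_sum (f := fun y => u y ^ 2) (fun y _ => sq_nonneg _)
          (mem_box.2 (by rw [dn_self]; omega))
      have h2 : (1 + (dF O x : ℝ)) ≤ 8 := by
        have : dF O x ≤ 7 := by omega
        have : (dF O x : ℝ) ≤ 7 := by exact_mod_cast this
        linarith
      have h3 : (1 + (dF O x : ℝ)) ^ 2 ≤ 8 ^ 2 := by gcongr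
      calc u x ^ 2 ≤ 4 * (1 + (dF O x : ℝ)) ^ 2 * E * H := h1.trans hsum
        _ ≤ 4 * 8 ^ 2 * E * H := by gcongr
        _ ≤ 73728 * E * H := by
            have : 0 ≤ E * H := by positivity
            nlinarith
    · have hmv := G.mean_value (fun y => u y ^ 2) x ρ (fun z _ => sq_nonneg _) (fun z hz => by
        apply lap_sq_nonneg
        have hzd : dn x z < ρ := by rw [dinf_eq_dn] at hz; exact_mod_cast hz
        have hzO := hbox z (by omega)
        have := hu.eq z hzO
        rw [(hfar z (by omega)).2] at this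
        linarith)
      have hρ1 : (1 : ℝ) ≤ ρ := by
        have : 1 ≤ ρ := by omega
        exact_mod_cast this
      have h2 : (1 + (dF O x : ℝ)) ≤ 16 * ρ := by
        have : 1 + dF O x ≤ 16 * ρ := by omega
        exact_mod_cast this
      have h3 : (1 + (dF O x : ℝ)) ^ 2 ≤ 256 * (ρ : ℝ) ^ 2 := by
        calc (1 + (dF O x : ℝ)) ^ 2 ≤ (16 * ρ) ^ 2 := by gcongr
          _ = 256 * (ρ : ℝ) ^ 2 := by ring
      have h4 : (ρ : ℝ) ^ 2 * u x ^ 2 ≤ (ρ : ℝ) ^ 2 * (73728 * E * H) := by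
        calc (ρ : ℝ) ^ 2 * u x ^ 2 ≤ 72 * ∑ y ∈ box x ρ, u y ^ 2 := hmv
          _ ≤ 72 * (4 * (1 + (dF O x : ℝ)) ^ 2 * E * H) := by gcongr
          _ ≤ 72 * (4 * (256 * (ρ : ℝ) ^ 2) * E * H) := by gcongr
          _ = (ρ : ℝ) ^ 2 * (73728 * E * H) := by ring
      exact le_of_mul_le_mul_left h4 (by positivity)
  have hfin : 73728 * E * H ≤ (272 * Real.exp (2 * (c * C0)) * Real.exp (-(c * r x)) * √H) ^ 2 := by
    have e1 : (272 * Real.exp (2 * (c * C0)) * Real.exp (-(c * r x)) * √H) ^ 2 =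
        73984 * (Real.exp (2 * (c * C0)) ^ 2 * Real.exp (-(c * r x)) ^ 2) * (√H) ^ 2 := by ring
    have e2 : Real.exp (2 * (c * C0)) ^ 2 * Real.exp (-(c * r x)) ^ 2 = E := by
      rw [hE, ← Real.exp_nat_mul, ← Real.exp_nat_mul]
      congr 2 <;> (push_cast; ring)
    rw [e1, e2, Real.sq_sqrt hH0]
    have : 0 ≤ E * H := by positivity
    nlinarith
  exact abs_le_of_sq_le_sq (hsq.trans hfin) (by positivity)

/-- **pointwise form of Agmon's estimate** -/
theorem agmon_point : ∃ D : ℝ, 1 ≤ D ∧ ∀ (O : Set Pt) (hO : O.Finite), CPr O →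
    ∀ (φ u χ r : Pt → ℝ) (c C0 B : ℝ), IsGreen O φ u → 0 ≤ c → 0 ≤ C0 → D * (c * C0) ≤ 1 →
    QLip O C0 r →
    ∑ x ∈ hO.toFinset, χ x ^ 2 * Real.exp (2 * c * r x) * |u x * φ x| +
        pS hO.toFinset (fun x y => (χ x - χ y) ^ 2 * Real.exp (2 * c * r x) * |u x * u y|) ≤ B →
    ∀ x ∈ O, (∀ q ∈ O, (q = x ∨ Adj x q) → ∀ y ∈ O, 2 * dn q y ≤ dF O q → χ y = 1 ∧ φ y = 0) →
      |u x| ≤ D * Real.exp (-(c * r x)) * √B ∧
      ∀ y, Adj x y → |u x - u y| ≤ D * Real.exp (-(c * r x)) * √B / (1 + (dF O x : ℝ)) := by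
  obtain ⟨D, hD, hA⟩ := agmon
  set K := 272 * 8 * √D with hK
  have hsD : 0 ≤ √D := Real.sqrt_nonneg D
  refine ⟨2 * D + 2 + 1000 * K, by linarith [mul_nonneg (by norm_num : (0 : ℝ) ≤ 1000 * (272 * 8)) hsD], ?_⟩
  intro O hO hCP φ u χ r c C0 B hu hc hC0 hcD hr hB x hx hfar
  have hne := exists_notMem hO
  have hcC : 0 ≤ c * C0 := mul_nonneg hc hC0
  have hK0 : 0 ≤ K := by positivity
  have hcC2 : 2 * (c * C0) ≤ 1 := by
    have h1 : 0 ≤ (2 * D + 1000 * K) * (c * C0) := by positivity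
    nlinarith
  have hH := hA O hO hCP φ u χ r c C0 hu hc hC0 (by nlinarith) hr
  set S := hO.toFinset with hS
  set Bs := ∑ x ∈ S, χ x ^ 2 * Real.exp (2 * c * r x) * |u x * φ x| +
        pS S (fun x y => (χ x - χ y) ^ 2 * Real.exp (2 * c * r x) * |u x * u y|) with hBs
  have hB0 : 0 ≤ Bs := add_nonneg (sum_nonneg fun x _ => by positivity)
    (pS_nonneg fun x _ y _ _ => by positivity)
  have hH' : ∑ x ∈ S, (χ x * Real.exp (c * r x) * u x) ^ 2 / (1 + (dF O x : ℝ)) ^ 2 ≤ D * B :=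
    hH.trans (mul_le_mul_of_nonneg_left hB hD.le)
  have hBB : 0 ≤ B := hB0.trans hB
  have hexp1 : Real.exp (2 * (c * C0)) ≤ 8 := by
    have h1 := Real.exp_le_exp.2 hcC2
    have := Real.exp_one_lt_d9
    linarith
  -- the bound at a point with the weak hypothesis
  have hP1 : ∀ z ∈ O, (∀ y, 8 * dn z y ≤ dF O z → χ y = 1 ∧ φ y = 0) →
      |u z| ≤ K * Real.exp (-(c * r z)) * √B := by
    intro z hz hfz
    have h1 := agmon_pt1 hO hu hc hC0 hr hH' hz hfz
    rw [Real.sqrt_mul hD.le] at h1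
    refine h1.trans ?_
    rw [hK]
    have h2 : 0 ≤ Real.exp (-(c * r z)) * (√D * √B) := by positivity
    calc 272 * Real.exp (2 * (c * C0)) * Real.exp (-(c * r z)) * (√D * √B)
        = 272 * Real.exp (2 * (c * C0)) * (Real.exp (-(c * r z)) * (√D * √B)) := by ring
      _ ≤ 272 * 8 * (Real.exp (-(c * r z)) * (√D * √B)) := by gcongr
      _ = _ := by ring
  have hxp : 0 < dF O x := dF_pos hne hx
  set X := Real.exp (-(c * r x)) * √B with hX
  have hX0 : 0 ≤ X := by positivity
  -- comparison of the weights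
  have hw : ∀ z, |r x - r z| ≤ 2 * C0 → K * Real.exp (-(c * r z)) * √B ≤ 8 * K * X := by
    intro z hz
    have h1 : Real.exp (-(c * r z)) ≤ 8 * Real.exp (-(c * r x)) := by
      have h2 : -(c * r z) ≤ 2 * (c * C0) + -(c * r x) := by
        have := (abs_le.1 hz).2
        nlinarith
      calc Real.exp (-(c * r z)) ≤ Real.exp (2 * (c * C0) + -(c * r x)) := Real.exp_le_exp.2 h2
        _ = Real.exp (2 * (c * C0)) * Real.exp (-(c * r x)) := Real.exp_add _ _
        _ ≤ 8 * Real.exp (-(c * r x)) := by gcongr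
    calc K * Real.exp (-(c * r z)) * √B ≤ K * (8 * Real.exp (-(c * r x))) * √B := by gcongr
      _ = 8 * K * X := by rw [hX]; ring
  have hux : |u x| ≤ K * X := by
    have := hP1 x hx (fun y hy => hfar x hx (Or.inl rfl) y (mem_of_lt_dF (x := x) (by omega)) (by omega))
    rw [hX]; linarith
  -- neighbours
  have hadjb : ∀ y, Adj x y → |u y| ≤ 8 * K * X := by
    intro y hy
    by_cases hyO : y ∈ O
    · have hd1 : dn x y ≤ 1 := dn_adj hy
      have hyl := dF_lip hne y x
      rw [dn_comm] at hyl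
      have hyp : 0 < dF O y := dF_pos hne hyO
      have h1 := hP1 y hyO (fun z hz =>
        hfar y hyO (Or.inr hy) z (mem_of_lt_dF (x := y) (by omega)) (by omega))
      refine h1.trans (hw y ?_)
      have h3 := hr x hx y hyO hy
      refine h3.trans ?_
      have h4 : C0 / (1 + (dF O x : ℝ)) ≤ C0 := div_le_self hC0 (by
        have : (0 : ℝ) ≤ dF O x := by positivity
        linarith)
      linarith
    · rw [hu.off y hyO, abs_zero]; positivity
  have hd0 : (0 : ℝ) ≤ dF O x := by positivity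
  have hKX : 0 ≤ K * X := mul_nonneg hK0 hX0
  refine ⟨?_, ?_⟩
  · calc |u x| ≤ K * X := hux
      _ ≤ (2 * D + 2 + 1000 * K) * X := by nlinarith
      _ = _ := by rw [hX]; ring
  · intro y hy
    have hgoal : |u x - u y| ≤ 200 * (K * X) / (1 + (dF O x : ℝ)) → |u x - u y| ≤
        (2 * D + 2 + 1000 * K) * Real.exp (-(c * r x)) * √B / (1 + (dF O x : ℝ)) := by
      intro h
      refine h.trans ?_
      apply div_le_div_of_nonneg_right _ (by positivity)
      calc 200 * (K * X) ≤ (2 * D + 2 + 1000 * K) * X := by nlinarith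
        _ = _ := by rw [hX]; ring
    apply hgoal
    by_cases hsm : dF O x < 16
    · have h1 : |u x - u y| ≤ 9 * (K * X) := by
        have := abs_sub (u x) (u y)
        have := hadjb y hy
        linarith
      rw [le_div_iff₀ (by positivity)]
      have h2 : (1 + (dF O x : ℝ)) ≤ 17 := by
        have : dF O x ≤ 16 := hsm.le
        have : (dF O x : ℝ) ≤ 16 := by exact_mod_cast this
        linarith
      calc |u x - u y| * (1 + (dF O x : ℝ)) ≤ 9 * (K * X) * 17 := by gcongr
        _ ≤ 200 * (K * X) := by linarith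
    · push Not at hsm
      set n := dF O x / 4 - 1 with hn
      have hn1 : 1 ≤ n := by omega
      have hbig : ∀ z, dn x z ≤ n + 1 → |u z| ≤ 8 * K * X ∧ lap u z = 0 := by
        intro z hz
        have hzO : z ∈ O := mem_of_lt_dF (x := x) (by omega)
        have hzl := dF_lip hne z x
        rw [dn_comm] at hzl
        have hzp : 0 < dF O z := dF_pos hne hzO
        constructor
        · have h1 := hP1 z hzO (fun w hwz => by
            have h2 := dn_tri x z w
            exact hfar x hx (Or.inl rfl) w (mem_of_lt_dF (x := z) (by omega)) (by omega))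
          exact h1.trans (hw z (hr.box hO hC0 hx (by omega)))
        · have := hu.eq z hzO
          rw [(hfar x hx (Or.inl rfl) z hzO (by omega)).2] at this
          linarith
      have key : ∀ y, dn x y ≤ 1 → (∀ z, dn y z ≤ n → |u z| ≤ 8 * K * X) ∧
          (∀ z, dn y z < n → lap u z = 0) := by
        intro y hy
        constructor
        · intro z hz
          have := dn_tri x y z
          exact (hbig z (by omega)).1
        · intro z hz
          have := dn_tri x y z
          exact (hbig z (by omega)).2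
      have hfin : 2 * (8 * K * X) / n ≤ 200 * (K * X) / (1 + (dF O x : ℝ)) := by
        rw [div_le_div_iff₀ (by exact_mod_cast hn1) (by positivity)]
        have h5 : (1 + (dF O x : ℝ)) ≤ 8 * n := by
          have : 1 + dF O x ≤ 8 * n := by omega
          exact_mod_cast this
        have h7 : (0 : ℝ) ≤ n := by positivity
        nlinarith [mul_nonneg hKX h7]
      rcases adj_cases hy with hh | hh | hh | hh
      · have := key x (by rw [dn_self]; omega)
        have e := (grad_est n x u _ hn1 this.1 this.2).1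
        rw [hh, abs_sub_comm]
        exact e.trans hfin
      · have := key y (dn_adj hy)
        have e := (grad_est n y u _ hn1 this.1 this.2).1
        rw [hh] at e ⊢
        simp only [sub_add_cancel] at e
        exact e.trans hfin
      · have := key x (by rw [dn_self]; omega)
        have e := (grad_est n x u _ hn1 this.1 this.2).2
        rw [hh, abs_sub_comm]
        exact e.trans hfin
      · have := key y (dn_adj hy)
        have e := (grad_est n y u _ hn1 this.1 this.2).2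
        rw [hh] at e ⊢
        simp only [sub_add_cancel] at e
        exact e.trans hfin

end Vale.Agent.P155.H904
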