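import Vale.Agent.P155.H904.IMin2
import Vale.Agent.P155.H904.Zero
import Vale.Agent.P155.A4.Main
import Vale.Agent.P155.A.TempMain
import Vale.Agent.P155.B.DomMain
import Vale.Agent.P155.B1b.PlaneMain
import Vale.Agent.P155.L.Nest
import Vale.Agent.P155.G1.Decay
import Vale.Agent.P155.H12.HPos

/-!
# P155 block I: the final statements, all inputs being theorems
-/

namespace Vale.Agent.P155.H904

open Vale.Agent.P155 Finset Skel

/-- **block I, truncated potential** -/
theorem i_min_closed : H12.I_min := by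
  obtain ⟨β, hβ, h1, h2⟩ := G1.decay
  exact i_min A4.a_one A4.a_two B1b.B_plane Dom.b_dom L.l_cp Temp.det_KM_ne_zero Temp.sub_self
    hβ (by norm_num) h1 h2

theorem i_zero_closed' : I_zero' := by
  obtain ⟨β, hβ, h1, h2⟩ := G1.decay
  exact i_zero' A4.a_one A4.a_two B1b.B_plane Dom.b_dom L.l_cp Temp.det_KM_ne_zero Temp.sub_self
    hβ (by norm_num) h1 h2

theorem hf_fL {T : Temp} {φ χ u : Pt → ℝ} (hu : IsGreen T.faceSet φ u) {ω : Conf}
    (hω : ω ∈ DD T.V) :
    hf ω (J.fL T.faceSet φ χ u) = - hf ω (lap (fun y => (1 - χ y) * u y)) := by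
  classical
  unfold hf
  rw [← finsum_neg_distrib]
  refine finsum_congr (fun x => ?_)
  by_cases hx : x ∈ T.faceSet
  · have h1 := hu.eq x hx
    unfold J.fL
    rw [if_pos hx, ← h1]
    unfold lap
    ring
  · rw [H12.h_off hω hx]
    simp

/-- **block I, the layer lemma for `k = 0`** -/
theorem i_zero_closed : H12.I_zero := by
  refine ⟨1 / 2, by norm_num, ?_⟩
  intro a ha ha2 C0
  obtain ⟨c, hc, h⟩ := i_zero_closed' a ha ha2
  obtain ⟨C, hC⟩ := h C0
  refine ⟨c, hc, max C 0, ?_⟩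
  intro R T φ hR hfit hbump hφ2 u χ hu hχ
  have hRpos : (0 : ℝ) < R := by exact_mod_cast hR
  refine H12.Ex_const_le (by positivity) (fun ω hω => ?_)
  rw [H12.cEx_Fk_zero _ hω]
  have hu' := hu ω hω
  have hχ' := hχ ω hω
  rw [H12.Ok_zero] at hu' hχ'
  rw [H12.Ok_zero]
  calc Ex T.V (fun ω' => (hkf 0 ω' (J.fL T.faceSet φ (χ ω) (u ω))) ^ 2)
      = Ex T.V (fun ω' => (hf ω' (lap (fun y => (1 - χ ω y) * u ω y))) ^ 2) := by
        refine H12.Ex_congr (fun ω' hω' => ?_)
        rw [← H12.hf_eq_hkf H12.l_finite hω', hf_fL hu' hω', neg_sq]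
    _ ≤ C * (R : ℝ) ^ (-c) := hC R T φ (u ω) (χ ω) hR hfit (fun y => H12.bump_le hbump y) hφ2 hu' hχ'
    _ ≤ max C 0 * (R : ℝ) ^ (-c) := by
        apply mul_le_mul_of_nonneg_right (le_max_left _ _) (by positivity)

end Vale.Agent.P155.H904
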