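import Vale.Agent.P155.H904.Row
import Vale.Agent.P155.A.TempGeo
import Vale.Agent.P155.A.JCT2
import Vale.Agent.P155.A.Temp2

/-!
# P155 block I: the product of the two cross inverse Kasteleyn entries gains for every far pair
-/

namespace Vale.Agent.P155.H904

open Vale.Agent.P155 Finset

/-! ## The geometric facts hold -/

theorem conn_of_reach {γ : LatCycle} {P : Pt → Prop}
    (hP : ∀ f g, γ.FStep f g → (P f ↔ P g))
    {f g : Pt} (hf : P f) (h : γ.Reach f g) :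
    Relation.ReflTransGen (fun a b => Adj a b ∧ P b) f g := by
  have key : P g ∧ Relation.ReflTransGen (fun a b => Adj a b ∧ P b) f g := by
    induction h with
    | refl => exact ⟨hf, .refl⟩
    | tail _ h2 ih => exact ⟨(hP _ _ h2).1 ih.1, ih.2.tail ⟨h2.adj, (hP _ _ h2).1 ih.1⟩⟩
  exact key.2

theorem conn_cells (T : Temp) : Conn T.cells := by
  intro f hf g hg
  have h1 : T.γ.inside f := hf
  have h2 : T.γ.inside g := hg
  exact conn_of_reach (P := fun f => f ∈ T.cells) (fun f g h => h.inside_iff) hf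
    (LatCycle.reach_of_inside_iff (by tauto))

theorem conn_cells_compl (T : Temp) : Conn T.cellsᶜ := by
  intro f hf g hg
  have h1 : ¬ T.γ.inside f := hf
  have h2 : ¬ T.γ.inside g := hg
  exact conn_of_reach (P := fun f => f ∈ T.cellsᶜ) (fun f g h => not_congr h.inside_iff) hf
    (LatCycle.reach_of_inside_iff (by tauto))

theorem tgeo {T : Temp} (hdet : (KM T.V).det ≠ 0) : TGeo T where
  fin := T.cells_finite
  cin := conn_cells T
  cout := conn_cells_compl T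
  v0 := by
    obtain ⟨F, hF, hF'⟩ := LatCycle.edge_inside (γ := T.γ) T.i0
    refine ⟨F, hF', ?_⟩
    have h := hF.1
    unfold LatCycle.corner at h
    unfold Corner
    omega
  row := fun b b' _ hb' hbV hb'V => sum_Kinv_K hdet hbV hb'V hb'

/-! ## Fine and coarse distances -/

theorem mem_faceSet_iff (T : Temp) (v : Pt) : v ∈ T.faceSet ↔ (v.1 / 2, v.2 / 2) ∈ T.cells := by
  constructor
  · rintro ⟨f, hf, h1, h2, h3, h4⟩
    have : ((v.1 / 2, v.2 / 2) : Pt) = f := by ext <;> simp only <;> omega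
    rwa [this]
  · intro h
    exact ⟨_, h, by simp only; omega⟩

theorem dF_coarse_le {T : Temp} (hfin : T.cells.Finite) {f w : Pt} (h : CellAt T f w) :
    dF T.cells f ≤ 1 + dF T.faceSet w := by
  obtain ⟨c0, hc0⟩ := exists_not_mem_of_finite hfin
  have hne : ∃ y, y ∉ T.faceSet := ⟨(2 * c0.1, 2 * c0.2), by
    rw [mem_faceSet_iff]; simpa using hc0⟩
  obtain ⟨y, hy, hwy⟩ := exists_dF hne w
  rw [mem_faceSet_iff] at hy
  refine (dF_le hy).trans ?_
  rw [← hwy, dn_le_iff]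
  obtain ⟨⟨h1, h2, h3, h4⟩, -⟩ := dn_spec w y
  clear hwy
  generalize dn w y = n at *
  push_cast
  simp only [abs_le]
  rcases h.2 with rfl | rfl | rfl | rfl <;> simp only [wx, wy] at h1 h2 h3 h4 <;>
    constructor <;> omega

theorem dF_fine_le {T : Temp} (hfin : T.cells.Finite) {f w : Pt} (h : CellAt T f w) :
    dF T.faceSet w ≤ 2 * dF T.cells f + 2 := by
  obtain ⟨c, hc, hfc⟩ := exists_dF (exists_not_mem_of_finite hfin) f
  have hy : ((2 * c.1, 2 * c.2) : Pt) ∉ T.faceSet := by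
    rw [mem_faceSet_iff]; simpa using hc
  refine (dF_le hy).trans ?_
  rw [← hfc, dn_le_iff]
  obtain ⟨⟨h1, h2, h3, h4⟩, -⟩ := dn_spec f c
  push_cast
  simp only [abs_le]
  rcases h.2 with rfl | rfl | rfl | rfl <;> simp only [wx, wy] <;> constructor <;> omega

theorem CellAt.mem_V {T : Temp} (hfin : T.cells.Finite) {f w : Pt} (h : CellAt T f w) :
    w ∈ T.V := by
  rcases h.2 with rfl | rfl | rfl | rfl
  · rw [wx_mem hfin]; exact Or.inl h.1
  · rw [wx_mem hfin]; right; simpa using h.1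
  · rw [wy_mem hfin]; exact Or.inl h.1
  · rw [wy_mem hfin]; right; simpa using h.1

theorem CellAt.white {T : Temp} {f w : Pt} (h : CellAt T f w) : White w := by
  unfold White
  rcases h.2 with rfl | rfl | rfl | rfl <;> simp only [wx, wy]
  · exact ⟨f.1 + f.2 + 1, by ring⟩
  · exact ⟨f.1 + f.2, by ring⟩
  · exact ⟨f.1 + f.2 + 1, by ring⟩
  · exact ⟨f.1 + f.2, by ring⟩

/-- the a-priori bound far from `b` -/
def KFar (T : Temp) (CK : ℝ) : Prop := ∀ w b, White w → Black b → w ∈ T.V → b ∈ T.V →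
  dF T.faceSet w ≤ 8 * dn b w → |Kinv T.V b w| ≤ CK / (1 + dF T.faceSet w)

theorem dn_ctr_le (x f : Pt) : dn (ctr x) (ctr f) ≤ 2 * dn x f := by
  rw [dn_le_iff]
  obtain ⟨⟨h1, h2, h3, h4⟩, -⟩ := dn_spec x f
  push_cast
  simp only [ctr, abs_le]
  constructor <;> omega

theorem le_dn_ctr (x f : Pt) : 2 * dn x f ≤ dn (ctr x) (ctr f) := by
  obtain ⟨-, h5⟩ := dn_spec x f
  obtain ⟨⟨h1, h2, h3, h4⟩, -⟩ := dn_spec (ctr x) (ctr f)
  simp only [ctr] at h1 h2 h3 h4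
  simp only [ctr]
  omega

theorem adj_cellAt {T : Temp} {f g : Pt} (hf : f ∈ T.cells) (hg : Adj f g) :
    ∃ w, CellAt T f w ∧ ((g = (f.1 + 1, f.2) ∧ w = wx f) ∨
      (g = (f.1 - 1, f.2) ∧ w = wx (f.1 - 1, f.2)) ∨ (g = (f.1, f.2 + 1) ∧ w = wy f) ∨
      (g = (f.1, f.2 - 1) ∧ w = wy (f.1, f.2 - 1))) := by
  rcases adj_cases hg with h | h | h | h
  · exact ⟨wx f, ⟨hf, Or.inl rfl⟩, Or.inl ⟨h, rfl⟩⟩
  · exact ⟨wx (f.1 - 1, f.2), ⟨hf, Or.inr (Or.inl rfl)⟩, Or.inr (Or.inl ⟨h, rfl⟩)⟩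
  · exact ⟨wy f, ⟨hf, Or.inr (Or.inr (Or.inl rfl))⟩, Or.inr (Or.inr (Or.inl ⟨h, rfl⟩))⟩
  · exact ⟨wy (f.1, f.2 - 1), ⟨hf, Or.inr (Or.inr (Or.inr rfl))⟩,
      Or.inr (Or.inr (Or.inr ⟨h, rfl⟩))⟩

theorem abs_pot {T : Temp} {b : Pt} {O : Set Pt} {σ : Pt → ℝ}
    (s2 : ∀ f : Pt, (f ∈ O ∨ (f.1 + 1, f.2) ∈ O) → σ (f.1 + 1, f.2) - σ f = rx T b f)
    (s3 : ∀ f : Pt, (f ∈ O ∨ (f.1, f.2 + 1) ∈ O) → σ (f.1, f.2 + 1) - σ f = ry T b f)
    {f g w : Pt} (hf : f ∈ O) (h : (g = (f.1 + 1, f.2) ∧ w = wx f) ∨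
      (g = (f.1 - 1, f.2) ∧ w = wx (f.1 - 1, f.2)) ∨ (g = (f.1, f.2 + 1) ∧ w = wy f) ∨
      (g = (f.1, f.2 - 1) ∧ w = wy (f.1, f.2 - 1))) : |σ g - σ f| = |Kinv T.V b w| := by
  rcases h with ⟨rfl, rfl⟩ | ⟨rfl, rfl⟩ | ⟨rfl, rfl⟩ | ⟨rfl, rfl⟩
  · rw [s2 f (Or.inl hf)]; rfl
  · have := s2 (f.1 - 1, f.2) (Or.inr (by simpa using hf))
    simp only [sub_add_cancel] at this
    rw [abs_sub_comm]
    exact congrArg abs this
  · rw [s3 f (Or.inl hf)]; rfl
  · have := s3 (f.1, f.2 - 1) (Or.inr (by simpa using hf))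
    simp only [sub_add_cancel] at this
    rw [abs_sub_comm]
    exact congrArg abs this

/-- **Gain for an unpinched pair.** -/
theorem kgain {T : Temp} (g : TGeo T) {CK : ℝ} (hCK : 0 ≤ CK) (hK : KFar T CK) {β C : ℝ}
    (hdec : G45.SupDecay C β) (hβ : 0 < β) (hC : 0 ≤ C) {w b x : Pt} (hb : Black b)
    (hbV : b ∈ T.V) (hx : CellAt T x w) {L d : ℕ} (hL : 2 * dF T.cells x + 1 ≤ L)
    (hd : dF T.cells x + 2 * L ≤ d) (hfar : 3 * d + 10 ≤ dn b w)
    (hunp : Unp T b (Oc T.cells x d)) :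
    |Kinv T.V b w| ≤ 12 * C / (dF T.cells x : ℝ) * (3 * (dF T.cells x : ℝ) / ((L : ℝ) + 1)) ^ β *
      (2 * CK * (2 + Real.log L)) := by
  have hne := exists_not_mem_of_finite g.fin
  have hdist : ∀ f ∈ Oc T.cells x d, ∀ w', CellAt T f w' → dn w w' ≤ 2 * d + 2 := by
    intro f hf w' hw'
    have h1 := hw'.dn_le
    have h2 := hx.dn_le
    have h3 := dn_ctr_le x f
    have h4 := (Oc.sub hx.1 hf).2
    have h5 := dn_tri w (ctr x) w'
    have h6 := dn_tri (ctr x) (ctr f) w'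
    rw [dn_comm w (ctr x)] at h5
    omega
  obtain ⟨σ, s1, s2, s3, s4⟩ := exists_pot g hb hbV (O := Oc T.cells x d)
    (fun f hf => (Oc.sub hx.1 hf).1) (by
      rintro f hf rfl
      obtain ⟨w', hw', -⟩ := adj_cellAt (T := T) (Oc.sub hx.1 hf).1 (adj_r f)
      have h1 := hdist f hf w' hw'
      have h2 := hw'.dn_le
      have h3 := dn_tri (ctr f) w' w
      rw [dn_comm w' w] at h3
      omega) hunp
  have hpot : LPot T.cells x d CK σ := by
    refine ⟨g.fin, hx.1, s1, s4, ?_⟩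
    intro f hf f' hff'
    have hfD := (Oc.sub hx.1 hf).1
    obtain ⟨w', hw', hcase⟩ := adj_cellAt hfD hff'
    rw [abs_pot s2 s3 hf hcase]
    have h1 := dF_coarse_le g.fin hw'
    have h2 := dF_fine_le g.fin hw'
    have h3 := dF_pos hne hfD
    have h4 : dF T.cells f ≤ dF T.cells x + dn f x := dF_lip hne f x
    rw [dn_comm] at h4
    have h5 := (Oc.sub hx.1 hf).2
    have h6 := hdist f hf w' hw'
    have h7 := dn_tri b w' w
    rw [dn_comm w' w] at h7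
    have h8 := hK w' b hw'.white hb (hw'.mem_V g.fin) hbV (by omega)
    refine h8.trans (div_le_div_of_nonneg_left hCK (by exact_mod_cast h3) ?_)
    exact_mod_cast h1
  -- the white point `w` lies between `x` and a neighbour
  have hxx : ∃ x', Adj x x' ∧ ((x' = (x.1 + 1, x.2) ∧ w = wx x) ∨
      (x' = (x.1 - 1, x.2) ∧ w = wx (x.1 - 1, x.2)) ∨ (x' = (x.1, x.2 + 1) ∧ w = wy x) ∨
      (x' = (x.1, x.2 - 1) ∧ w = wy (x.1, x.2 - 1))) := by
    rcases hx.2 with h | h | h | h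
    · exact ⟨_, adj_r x, Or.inl ⟨rfl, h⟩⟩
    · exact ⟨_, adj_l x, Or.inr (Or.inl ⟨rfl, h⟩)⟩
    · exact ⟨_, adj_u x, Or.inr (Or.inr (Or.inl ⟨rfl, h⟩))⟩
    · exact ⟨_, adj_d x, Or.inr (Or.inr (Or.inr ⟨rfl, h⟩))⟩
  obtain ⟨x', hadj, hcase⟩ := hxx
  rw [← abs_pot s2 s3 (Oc.self T.cells x d) hcase]
  exact hpot.gain g.cout hCK hdec hβ hC hL hd hadj

theorem black_cases {b : Pt} (hb : Black b) : (∃ f, b = ctr f) ∨ ∃ v, b = dbl v := by
  unfold Black at hb
  obtain ⟨k, hk⟩ := hb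
  by_cases h : b.1 % 2 = 0
  · right
    refine ⟨(b.1 / 2, b.2 / 2), ?_⟩
    ext <;> simp only [dbl] <;> omega
  · left
    refine ⟨(b.1 / 2, b.2 / 2), ?_⟩
    ext <;> simp only [ctr] <;> omega

/-- for a far pair one of the two is unpinched -/
theorem kpair {T : Temp} (g : TGeo T) {w b w' b' x x' : Pt} (hb : Black b) (hb' : Black b')
    (hwb : Adj w b) (hwb' : Adj w' b') (hx : CellAt T x w) (hx' : CellAt T x' w') {d : ℕ}
    (hfar : d + d + 1 < dn x x') : Unp T b' (Oc T.cells x d) ∨ Unp T b (Oc T.cells x' d) := by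
  rcases black_cases hb' with h | ⟨v', rfl⟩
  · exact Or.inl (Or.inl h)
  rcases black_cases hb with h | ⟨v, rfl⟩
  · exact Or.inr (Or.inl h)
  obtain ⟨f0, hf0, hc0⟩ := g.v0
  have hpath := path_of_conn g.cin hx'.1 hf0 (hx'.corner hwb') hc0
  rcases two_cross (d := d) (d' := d) hx.1 hx'.1 hfar (hx.corner hwb) (hx'.corner hwb') hpath
    with h | h
  · exact Or.inl (Or.inr ⟨v', rfl, h⟩)
  · exact Or.inr (Or.inr ⟨v, rfl, h⟩)

/-- `kgain` in terms of the fine distance -/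
theorem kgain' {T : Temp} (g : TGeo T) {CK : ℝ} (hCK : 0 ≤ CK) (hK : KFar T CK) {β C : ℝ}
    (hdec : G45.SupDecay C β) (hβ : 0 < β) (hC : 0 ≤ C) {w b x : Pt} (hb : Black b)
    (hbV : b ∈ T.V) (hx : CellAt T x w) {r L d : ℕ} (hr : 1 + dF T.faceSet w ≤ r)
    (hL : 2 * r + 1 ≤ L) (hd : r + 2 * L ≤ d) (hfar : 3 * d + 10 ≤ dn b w)
    (hunp : Unp T b (Oc T.cells x d)) :
    |Kinv T.V b w| ≤ 120 * C * CK / (1 + (dF T.faceSet w : ℝ)) *
      (3 * (r : ℝ) / ((L : ℝ) + 1)) ^ β * (2 + Real.log L) := by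
  have h1 := dF_coarse_le g.fin hx
  have h2 := dF_fine_le g.fin hx
  have h3 := dF_pos (exists_not_mem_of_finite g.fin) hx.1
  have key := kgain g hCK hK hdec hβ hC hb hbV hx (L := L) (d := d) (by omega) (by omega) hfar hunp
  have hlog : 0 ≤ Real.log L := Real.log_nonneg (by exact_mod_cast (by omega : 1 ≤ L))
  have h3' : (0 : ℝ) < (dF T.cells x : ℝ) := by exact_mod_cast h3
  have e1 : (3 * (dF T.cells x : ℝ) / ((L : ℝ) + 1)) ^ β ≤ (3 * (r : ℝ) / ((L : ℝ) + 1)) ^ β := by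
    apply Real.rpow_le_rpow (by positivity) _ hβ.le
    apply div_le_div_of_nonneg_right _ (by positivity)
    have : (dF T.cells x : ℝ) ≤ r := by exact_mod_cast h1.trans hr
    linarith
  have e2 : 12 * C / (dF T.cells x : ℝ) ≤ 60 * C / (1 + (dF T.faceSet w : ℝ)) := by
    rw [div_le_div_iff₀ h3' (by positivity)]
    have h4 : (1 + (dF T.faceSet w : ℝ)) ≤ 5 * (dF T.cells x : ℝ) := by
      have : 1 + dF T.faceSet w ≤ 5 * dF T.cells x := by omega
      exact_mod_cast this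
    nlinarith
  calc |Kinv T.V b w| ≤ _ := key
    _ ≤ 60 * C / (1 + (dF T.faceSet w : ℝ)) * (3 * (r : ℝ) / ((L : ℝ) + 1)) ^ β *
        (2 * CK * (2 + Real.log L)) := by
      apply mul_le_mul_of_nonneg_right _ (by positivity)
      exact mul_le_mul e2 e1 (by positivity) (by positivity)
    _ = _ := by ring

/-- **The product of the two cross entries gains for every far pair of edges near the boundary.** -/
theorem kpair_gain {T : Temp} (g : TGeo T) {CK : ℝ} (hCK : 0 ≤ CK) (hK : KFar T CK) {β C : ℝ}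
    (hdec : G45.SupDecay C β) (hβ : 0 < β) (hC : 0 ≤ C) {w b w' b' : Pt} (hw : White w)
    (hw' : White w') (hb : Black b) (hb' : Black b') (hwV : w ∈ T.V) (hw'V : w' ∈ T.V)
    (hbV : b ∈ T.V) (hb'V : b' ∈ T.V) (hwb : Adj w b) (hwb' : Adj w' b') {r L d : ℕ}
    (hr : 1 + dF T.faceSet w ≤ r) (hr' : 1 + dF T.faceSet w' ≤ r) (hL : 2 * r + 1 ≤ L)
    (hd : r + 2 * L ≤ d) (hfar : 6 * d + 20 ≤ dn w w') :
    |Kinv T.V b w'| * |Kinv T.V b' w| ≤ 120 * C * CK ^ 2 /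
      ((1 + (dF T.faceSet w : ℝ)) * (1 + (dF T.faceSet w' : ℝ))) *
      (3 * (r : ℝ) / ((L : ℝ) + 1)) ^ β * (2 + Real.log L) := by
  obtain ⟨x, hx⟩ := exists_cellAt g.fin hw hwV
  obtain ⟨x', hx'⟩ := exists_cellAt g.fin hw' hw'V
  have hlog : 0 ≤ Real.log L := Real.log_nonneg (by exact_mod_cast (by omega : 1 ≤ L))
  have hd1 : 3 * d + 10 ≤ dn b' w := by
    have h1 := dn_tri w b' w'
    have h2 := dn_adj hwb'
    rw [dn_comm b' w', dn_comm w b'] at h1
    omega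
  have hd2 : 3 * d + 10 ≤ dn b w' := by
    have h1 := dn_tri w b w'
    have h2 := dn_adj hwb
    omega
  have hxx : d + d + 1 < dn x x' := by
    have h1 := hx.dn_le
    have h2 := hx'.dn_le
    have h3 := dn_ctr_le x x'
    have h4 := dn_tri w (ctr x) w'
    have h5 := dn_tri (ctr x) (ctr x') w'
    rw [dn_comm w (ctr x)] at h4
    omega
  have b1 := hK w b' hw hb' hwV hb'V (by omega)
  have b2 := hK w' b hw' hb hw'V hbV (by omega)
  have hpos : (0 : ℝ) < 1 + (dF T.faceSet w : ℝ) := by positivity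
  have hpos' : (0 : ℝ) < 1 + (dF T.faceSet w' : ℝ) := by positivity
  rcases kpair g hb hb' hwb hwb' hx hx' (d := d) hxx with h | h
  · have k := kgain' g hCK hK hdec hβ hC hb' hb'V hx hr hL hd hd1 h
    calc |Kinv T.V b w'| * |Kinv T.V b' w| ≤ (CK / (1 + (dF T.faceSet w' : ℝ))) *
          (120 * C * CK / (1 + (dF T.faceSet w : ℝ)) *
          (3 * (r : ℝ) / ((L : ℝ) + 1)) ^ β * (2 + Real.log L)) := by
          apply mul_le_mul b2 k (abs_nonneg _) (by positivity)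
      _ = _ := by field_simp
  · have k := kgain' g hCK hK hdec hβ hC hb hbV hx' hr' hL hd hd2 h
    calc |Kinv T.V b w'| * |Kinv T.V b' w| ≤ (120 * C * CK / (1 + (dF T.faceSet w' : ℝ)) *
          (3 * (r : ℝ) / ((L : ℝ) + 1)) ^ β * (2 + Real.log L)) *
          (CK / (1 + (dF T.faceSet w : ℝ))) := by
          apply mul_le_mul k b1 (abs_nonneg _) (by positivity)
      _ = _ := by field_simp

end Vale.Agent.P155.H904
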