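import Vale.Agent.P155.H904.Agmon2
import Vale.Agent.P155.H904.KGain
import Vale.Agent.P155.B.DomMain
import Vale.Agent.P155.B1b.PlaneMain
import Vale.Agent.P155.A.TempMain

/-!
# P155, BD block R1: decay of the columns of the inverse Kasteleyn matrix
-/

namespace Vale.Agent.P155.H904

open Vale.Agent.P155 Finset Vale.Agent.P155.G45

variable {T : Temp}

theorem ctr_mem_V {z : Pt} : ctr z ∈ T.V ↔ z ∈ T.cells := by
  rw [mem_V_iff T.cells_finite, mem_closed_iff]
  constructor
  · rintro ⟨⟨f, hf, h1, h2, h3, h4⟩, -⟩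
    simp only [ctr] at h1 h2 h3 h4
    have : f = z := by ext <;> omega
    rwa [← this]
  · intro h
    refine ⟨⟨z, h, by simp only [ctr]; omega⟩, ?_⟩
    intro hc
    have := congrArg Prod.fst hc
    simp only [ctr, Temp.v0] at this
    omega

theorem ctr_black (z : Pt) : Black (ctr z) := by
  unfold Black ctr
  exact ⟨z.1 + z.2 + 1, by ring⟩

theorem nbrs_ctr {z w : Pt} : w ∈ nbrs (ctr z) ↔
    (w = wx z ∨ w = wx (z.1 - 1, z.2) ∨ w = wy z ∨ w = wy (z.1, z.2 - 1)) := by
  have e1 : ((ctr z).1 + 1, (ctr z).2) = wx z := by simp only [ctr, wx]; ext <;> simp only <;> ring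
  have e2 : ((ctr z).1 - 1, (ctr z).2) = wx (z.1 - 1, z.2) := by
    simp only [ctr, wx]; ext <;> simp only <;> ring
  have e3 : ((ctr z).1, (ctr z).2 + 1) = wy z := by simp only [ctr, wy]; ext <;> simp only <;> ring
  have e4 : ((ctr z).1, (ctr z).2 - 1) = wy (z.1, z.2 - 1) := by
    simp only [ctr, wy]; ext <;> simp only <;> ring
  simp only [nbrs, mem_insert, mem_singleton, e1, e2, e3, e4]

theorem cellAt_iff {z w : Pt} : CellAt T z w ↔ z ∈ T.cells ∧ w ∈ nbrs (ctr z) := by
  rw [nbrs_ctr]; rfl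

/-- the (odd,odd) part of a column is a Green potential on the cells -/
theorem col_green (hdet : (KM T.V).det ≠ 0) {w' : Pt} (hw' : w' ∈ T.V) :
    IsGreen T.cells (fun z => K w' (ctr z)) (fun z => Kinv T.V (ctr z) w') where
  off := fun z hz => Kinv_not_mem_left (fun h => hz (ctr_mem_V.1 h))
  eq := by
    intro z hz
    set F : Pt → ℝ := fun b => Kinv T.V b w' with hF
    have h1 : KTop (Kop F) (ctr z) = K w' (ctr z) := by
      rw [← sum_nbrs_KT]
      have h2 : ∀ w ∈ nbrs (ctr z), K w (ctr z) * Kop F w = if w = w' then K w (ctr z) else 0 := by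
        intro w hw
        have hc : CellAt T z w := cellAt_iff.2 ⟨hz, hw⟩
        rw [hF, Kop_Kinv hdet hw' (hc.mem_V T.cells_finite) hc.white]
        split_ifs <;> simp
      rw [sum_congr rfl h2, sum_ite_eq']
      split_ifs with h
      · rfl
      · rw [K_eq_zero]
        intro hadj
        exact h (mem_nbrs_comm.1 (mem_nbrs.2 hadj))
    rw [KTop_Kop] at h1
    rw [← h1]
    unfold lap
    simp only [hF, ctr]
    have e1 : 2 * (z.1 + 1) + 1 = 2 * z.1 + 1 + 2 := by ring
    have e2 : 2 * (z.1 - 1) + 1 = 2 * z.1 + 1 - 2 := by ring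
    have e3 : 2 * (z.2 + 1) + 1 = 2 * z.2 + 1 + 2 := by ring
    have e4 : 2 * (z.2 - 1) + 1 = 2 * z.2 + 1 - 2 := by ring
    rw [e1, e2, e3, e4]
    ring

theorem cPr_cells (T : Temp) : CPr T.cells :=
  fun _ hp r => cp_of_conn T.cells_finite (conn_cells_compl T) hp r

theorem QLip.sub_const {O : Set Pt} {C0 : ℝ} {r : Pt → ℝ} (hr : QLip O C0 r) (a : ℝ) :
    QLip O C0 (fun x => r x - a) := by
  intro x hx y hy h
  have := hr x hx y hy h
  rwa [show r x - a - (r y - a) = r x - r y by ring]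

theorem QLip.adj {O : Set Pt} {C0 : ℝ} (hC0 : 0 ≤ C0) {r : Pt → ℝ} (hr : QLip O C0 r) {x y : Pt}
    (hx : x ∈ O) (hy : y ∈ O) (h : Adj x y) : |r x - r y| ≤ C0 := by
  refine (hr x hx y hy h).trans (div_le_self hC0 ?_)
  have : (0 : ℝ) ≤ dF O x := by positivity
  linarith

/-- cut-off around `p` between the radii `d/4` and `3d/8` -/
noncomputable def cut (p : Pt) (d : ℕ) (x : Pt) : ℝ :=
  max 0 (min 1 ((8 * (dn p x : ℝ) - 2 * d) / d))

theorem cut_zero {p x : Pt} {d : ℕ} (h : 4 * dn p x ≤ d) : cut p d x = 0 := by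
  unfold cut
  apply max_eq_left
  apply (min_le_right _ _).trans
  apply div_nonpos_of_nonpos_of_nonneg _ (by positivity)
  have : 4 * (dn p x : ℝ) ≤ d := by exact_mod_cast h
  linarith

theorem cut_one {p x : Pt} {d : ℕ} (hd : 1 ≤ d) (h : 3 * d ≤ 8 * dn p x) : cut p d x = 1 := by
  unfold cut
  have hd' : (1 : ℝ) ≤ d := by exact_mod_cast hd
  rw [min_eq_left, max_eq_right zero_le_one]
  rw [le_div_iff₀ (by linarith)]
  have : 3 * (d : ℝ) ≤ 8 * (dn p x : ℝ) := by exact_mod_cast h
  linarith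

theorem cut_lip {p x y : Pt} {d : ℕ} (hd : 1 ≤ d) (h : Adj x y) :
    (cut p d x - cut p d y) ^ 2 ≤ 64 / (d : ℝ) ^ 2 := by
  have hd' : (1 : ℝ) ≤ d := by exact_mod_cast hd
  have h1 : |(dn p x : ℝ) - dn p y| ≤ 1 := by
    have a1 := dn_tri p x y
    have a2 := dn_tri p y x
    have a3 := dn_adj h
    have a4 := dn_adj (adj_symm' h)
    have a5 : (dn p y : ℝ) ≤ dn p x + 1 := by
      have : dn p y ≤ dn p x + 1 := by omega
      exact_mod_cast this
    have a6 : (dn p x : ℝ) ≤ dn p y + 1 := by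
      have : dn p x ≤ dn p y + 1 := by omega
      exact_mod_cast this
    rw [abs_le]; constructor <;> linarith
  have h2 : |cut p d x - cut p d y| ≤ 8 / d := by
    unfold cut
    have e1 := abs_max_sub_max_le_abs (min 1 ((8 * (dn p x : ℝ) - 2 * d) / d))
      (min 1 ((8 * (dn p y : ℝ) - 2 * d) / d)) 0
    rw [max_comm _ (0 : ℝ), max_comm _ (0 : ℝ)] at e1
    have e2 := abs_min_sub_min_le_max 1 ((8 * (dn p x : ℝ) - 2 * d) / d) 1
      ((8 * (dn p y : ℝ) - 2 * d) / d)
    rw [sub_self, abs_zero, max_eq_right (abs_nonneg _)] at e2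
    refine e1.trans (e2.trans ?_)
    rw [← sub_div, abs_div, abs_of_pos (show (0 : ℝ) < d by linarith)]
    apply div_le_div_of_nonneg_right _ (by linarith)
    have : 8 * (dn p x : ℝ) - 2 * d - (8 * (dn p y : ℝ) - 2 * d) =
        8 * ((dn p x : ℝ) - dn p y) := by ring
    rw [this, abs_mul, abs_of_pos (show (0 : ℝ) < 8 by norm_num)]
    linarith
  calc (cut p d x - cut p d y) ^ 2 = |cut p d x - cut p d y| ^ 2 := (sq_abs _).symm
    _ ≤ (8 / d) ^ 2 := by gcongr
    _ = 64 / (d : ℝ) ^ 2 := by rw [div_pow]; norm_num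

/-- the source of a column sits at the two cells of `w'` -/
theorem source_cells {z' w' x : Pt} (h : CellAt T z' w') (hx : K w' (ctr x) ≠ 0) :
    x = z' ∨ Adj z' x := by
  have h1 : w' ∈ nbrs (ctr x) := by
    by_contra hc
    apply hx
    rw [K_eq_zero]
    intro hadj
    exact hc (mem_nbrs_comm.1 (mem_nbrs.2 hadj))
  rw [nbrs_ctr] at h1
  have h2 := h.2
  unfold Adj
  obtain ⟨x1, x2⟩ := x
  obtain ⟨y1, y2⟩ := z'
  simp only [wx, wy] at h1 h2
  simp only [Prod.mk.injEq]
  rcases h2 with rfl | rfl | rfl | rfl <;> simp only [Prod.mk.injEq] at h1 <;>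
    rcases h1 with h1 | h1 | h1 | h1 <;> simp only [abs_eq_max_neg] <;> omega

theorem dn_ctr_side {z' w' x : Pt} (h : CellAt T z' w') : 2 * dn x z' ≤ dn (ctr x) w' + 1 := by
  have h1 := le_dn_ctr x z'
  have h2 := dn_tri (ctr x) w' (ctr z')
  have h3 : dn w' (ctr z') ≤ 1 := by
    rw [dn_comm]
    exact dn_adj (mem_nbrs.1 (cellAt_iff.1 h).2)
  omega

/-- **decay of the (odd,odd) part of a column** -/
theorem col_decay : ∃ D : ℝ, 1 ≤ D ∧ ∀ (T : Temp) (z' w' : Pt), CellAt T z' w' →
    ∀ (r : Pt → ℝ) (c C0 : ℝ), 0 ≤ c → 0 ≤ C0 → D * (c * C0) ≤ 1 → QLip T.cells C0 r →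
    ∀ z ∈ T.cells, 5 * C0 < r z - r z' →
    |Kinv T.V (ctr z) w'| ≤ D * Real.exp (-(c * (r z - r z'))) / (1 + (dF T.cells z' : ℝ)) ∧
    ∀ q, Adj z q → |Kinv T.V (ctr z) w' - Kinv T.V (ctr q) w'| ≤
      D * Real.exp (-(c * (r z - r z'))) /
        ((1 + (dF T.cells z' : ℝ)) * (1 + (dF T.cells z : ℝ))) := by
  classical
  obtain ⟨D, hD, hA⟩ := agmon_point
  obtain ⟨A, hAp⟩ := B1b.B_plane
  obtain ⟨CK, hCKraw⟩ := Dom.b_dom A hAp
  set C1 := |CK| with hC1
  have hC1' : 0 ≤ C1 := abs_nonneg _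
  set C2 := 182 * C1 + 281 with hC2
  have hC2' : 0 ≤ C2 := by positivity
  refine ⟨4 * D + D * C2, by nlinarith, ?_⟩
  intro T z' w' hcell r c C0 hc hC0 hcD hr z hz hfar
  have hfin := T.cells_finite
  have hne := exists_notMem hfin
  have hdet := Temp.det_KM_ne_zero T
  have hw' := hcell.mem_V hfin
  have hwh' := hcell.white
  have hz'O : z' ∈ T.cells := hcell.1
  have hD0 : 0 ≤ D := by linarith
  have hcC : 0 ≤ c * C0 := mul_nonneg hc hC0
  set s : Pt → ℝ := fun x => r x - r z' with hs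
  have hsl : QLip T.cells C0 s := hr.sub_const _
  have hsz' : s z' = 0 := by simp [hs]
  set u : Pt → ℝ := fun z => Kinv T.V (ctr z) w' with hu
  set φ : Pt → ℝ := fun z => K w' (ctr z) with hφ
  have hgreen : IsGreen T.cells φ u := col_green hdet hw'
  set d := dF T.cells z' with hd
  have hd1 : 1 ≤ d := dF_pos hne hz'O
  have hd1' : (1 : ℝ) ≤ d := by exact_mod_cast hd1
  have hcD1 : D * (c * C0) ≤ 1 := by nlinarith [mul_nonneg (mul_nonneg hD0 hC2') hcC]
  have hc4 : 4 * (c * C0) ≤ 1 := by nlinarith [mul_nonneg (mul_nonneg hD0 hC2') hcC]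
  have hexp : ∀ t : ℝ, t ≤ 2 * C0 → Real.exp (2 * c * t) ≤ 8 := by
    intro t ht
    have h1 : 2 * c * t ≤ 1 := by nlinarith
    have h2 := Real.exp_le_exp.2 h1
    have := Real.exp_one_lt_d9
    linarith
  -- the source
  have hsrc : ∀ x ∈ T.cells, φ x ≠ 0 → s x ≤ C0 ∧ dn z' x ≤ 1 := by
    intro x hx h
    rcases source_cells hcell h with rfl | hadj
    · rw [hsz', dn_self]; exact ⟨hC0, by omega⟩
    · refine ⟨?_, dn_adj hadj⟩
      have := hsl.adj hC0 hz'O hx hadj
      rw [hsz'] at this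
      have := (abs_le.1 this).1
      linarith
  -- it suffices to have a cut-off with a good bound
  suffices hχ : ∃ (χ : Pt → ℝ) (B : ℝ), (∀ y ∈ T.cells, 2 * C0 < s y → χ y = 1) ∧
      √B ≤ C2 / (1 + (d : ℝ)) ∧
      ∑ x ∈ hfin.toFinset, χ x ^ 2 * Real.exp (2 * c * s x) * |u x * φ x| +
        pS hfin.toFinset (fun x y => (χ x - χ y) ^ 2 * Real.exp (2 * c * s x) * |u x * u y|) ≤ B by
    obtain ⟨χ, B, h1, h2, h3⟩ := hχ
    have hfar' : ∀ q ∈ T.cells, (q = z ∨ Adj z q) → ∀ y ∈ T.cells, 2 * dn q y ≤ dF T.cells q →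
        χ y = 1 ∧ φ y = 0 := by
      intro q hq hqz y hy hqy
      have a1 : |s z - s q| ≤ C0 := by
        rcases hqz with rfl | h
        · simpa using hC0
        · exact hsl.adj hC0 hz hq h
      have a2 := hsl.box hfin hC0 hq hqy
      have a3 : 2 * C0 < s y := by
        have := (abs_le.1 a1).2
        have := (abs_le.1 a2).2
        have : 5 * C0 < s z := hfar
        linarith
      refine ⟨h1 y hy a3, ?_⟩
      by_contra hne
      have := (hsrc y hy hne).1
      linarith
    obtain ⟨k1, k2⟩ := hA T.cells hfin (cPr_cells T) φ u χ s c C0 B hgreen hc hC0 hcD1 hsl h3 z hz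
      hfar'
    have hE : 0 ≤ D * Real.exp (-(c * s z)) := by positivity
    have hfinal : D * Real.exp (-(c * s z)) * √B ≤
        (4 * D + D * C2) * Real.exp (-(c * (r z - r z'))) / (1 + (d : ℝ)) := by
      calc D * Real.exp (-(c * s z)) * √B ≤ D * Real.exp (-(c * s z)) * (C2 / (1 + (d : ℝ))) :=
            mul_le_mul_of_nonneg_left h2 hE
        _ = (D * C2) * Real.exp (-(c * s z)) / (1 + (d : ℝ)) := by ring
        _ ≤ (4 * D + D * C2) * Real.exp (-(c * s z)) / (1 + (d : ℝ)) := by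
            gcongr
            linarith
    refine ⟨k1.trans hfinal, fun q hq => ?_⟩
    refine (k2 q hq).trans ?_
    rw [← div_div]
    apply div_le_div_of_nonneg_right hfinal
    positivity
  -- a-priori bound
  have hM : ∀ x, 2 * d < 8 * dn z' x + 8 → 32 ≤ d → |u x| ≤ C1 / d := by
    intro x hx hd32
    have h1 := dn_ctr_side (x := x) hcell
    rw [dn_comm x z'] at h1
    have h2 := dF_fine_le hfin hcell
    have h3 := dF_coarse_le hfin hcell
    by_cases hxV : ctr x ∈ T.V
    · have h4 := (hCKraw T w' (ctr x) hwh' (ctr_black x) hw' hxV).2.2 (by omega)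
      refine h4.trans ?_
      have h5 : (d : ℝ) ≤ 1 + (dF T.faceSet w' : ℝ) := by exact_mod_cast h3
      calc CK / (1 + (dF T.faceSet w' : ℝ)) ≤ C1 / (1 + (dF T.faceSet w' : ℝ)) := by
            apply div_le_div_of_nonneg_right (le_abs_self _) (by positivity)
        _ ≤ C1 / d := by
            apply div_le_div_of_nonneg_left hC1' (by linarith) h5
    · have : u x = 0 := Kinv_not_mem_left hxV
      rw [this, abs_zero]
      positivity
  have h1le : ∀ x, |u x| ≤ 1 := fun x => Dom.abs_Kinv_le_one hdet hw' hwh' (ctr_black x)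
  have hφ1 : ∀ x, |φ x| ≤ 1 := fun x => Dom.abs_K_le _ _
  by_cases hd32 : 32 ≤ d
  · refine ⟨cut z' d, 8192 * C1 ^ 2 / (d : ℝ) ^ 2, ?_, ?_, ?_⟩
    · intro y hy hsy
      apply cut_one hd1
      by_contra hcon
      push Not at hcon
      have := hsl.box hfin hC0 hz'O (y := y) (by omega)
      rw [hsz'] at this
      have := (abs_le.1 this).1
      linarith
    · have e1 : 8192 * C1 ^ 2 / (d : ℝ) ^ 2 ≤ (182 * C1 / (1 + (d : ℝ))) ^ 2 := by
        rw [div_pow, div_le_div_iff₀ (by positivity) (by positivity)]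
        have : (1 + (d : ℝ)) ^ 2 ≤ (33 / 32 * d) ^ 2 := by
          have h32 : (32 : ℝ) ≤ d := by exact_mod_cast hd32
          gcongr
          linarith
        have h3 : 0 ≤ C1 ^ 2 := sq_nonneg _
        have h4 : (0 : ℝ) ≤ (d : ℝ) ^ 2 := sq_nonneg _
        nlinarith [mul_nonneg h3 h4]
      calc √(8192 * C1 ^ 2 / (d : ℝ) ^ 2) ≤ √((182 * C1 / (1 + (d : ℝ))) ^ 2) := Real.sqrt_le_sqrt e1
        _ = 182 * C1 / (1 + (d : ℝ)) := Real.sqrt_sq (by positivity)
        _ ≤ C2 / (1 + (d : ℝ)) := by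
            apply div_le_div_of_nonneg_right _ (by positivity)
            rw [hC2]; linarith
    · have hz1 : ∑ x ∈ hfin.toFinset, cut z' d x ^ 2 * Real.exp (2 * c * s x) * |u x * φ x| = 0 := by
        apply sum_eq_zero
        intro x hx
        have hxO : x ∈ T.cells := by simpa using hx
        by_cases hφx : φ x = 0
        · rw [hφx]; simp
        · have := (hsrc x hxO hφx).2
          rw [cut_zero (by omega)]; simp
      rw [hz1, zero_add]
      set g : Pt → ℝ := fun x => if dn z' x ≤ d / 2 then 512 * C1 ^ 2 / (d : ℝ) ^ 4 else 0 with hg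
      have hg0 : ∀ x, 0 ≤ g x := by
        intro x; simp only [hg]; split_ifs <;> positivity
      have hmono : pS hfin.toFinset (fun x y => (cut z' d x - cut z' d y) ^ 2 *
          Real.exp (2 * c * s x) * |u x * u y|) ≤ pS hfin.toFinset (fun x _ => g x) := by
        apply pS_mono
        intro x hx y hy hxy
        have hxO : x ∈ T.cells := by simpa using hx
        have hyO : y ∈ T.cells := by simpa using hy
        by_cases heq : cut z' d x = cut z' d y
        · rw [heq]; simpa using hg0 x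
        · have a1 := dn_tri z' x y
          have a2 := dn_tri z' y x
          have a3 := dn_adj hxy
          have a4 := dn_adj (adj_symm' hxy)
          have b1 : ¬ (4 * dn z' x ≤ d ∧ 4 * dn z' y ≤ d) := by
            rintro ⟨p1, p2⟩; exact heq (by rw [cut_zero p1, cut_zero p2])
          have b2 : ¬ (3 * d ≤ 8 * dn z' x ∧ 3 * d ≤ 8 * dn z' y) := by
            rintro ⟨p1, p2⟩; exact heq (by rw [cut_one hd1 p1, cut_one hd1 p2])
          have c1 : 2 * d < 8 * dn z' x + 8 := by omega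
          have c2 : 2 * d < 8 * dn z' y + 8 := by omega
          have c3 : dn z' x ≤ d / 2 := by omega
          have c4 : s x ≤ 2 * C0 := by
            have := hsl.box hfin hC0 hz'O (y := x) (by omega)
            rw [hsz'] at this
            have := (abs_le.1 this).1
            linarith
          have e1 := cut_lip (p := z') hd1 hxy
          have e2 := hexp (s x) c4
          have e3 : |u x * u y| ≤ C1 / d * (C1 / d) := by
            rw [abs_mul]
            exact mul_le_mul (hM x c1 hd32) (hM y c2 hd32) (abs_nonneg _) (by positivity)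
          simp only [hg]
          rw [if_pos c3]
          calc (cut z' d x - cut z' d y) ^ 2 * Real.exp (2 * c * s x) * |u x * u y| ≤
              64 / (d : ℝ) ^ 2 * 8 * (C1 / d * (C1 / d)) := by gcongr
            _ = 512 * C1 ^ 2 / (d : ℝ) ^ 4 := by field_simp; ring
      refine hmono.trans ((pS_fst_le fun x _ => hg0 x).trans ?_)
      have hsub : ∑ x ∈ hfin.toFinset, g x ≤ ∑ x ∈ box z' (d / 2), 512 * C1 ^ 2 / (d : ℝ) ^ 4 := by
        have e1 : ∑ x ∈ hfin.toFinset, g x =
            ∑ x ∈ hfin.toFinset.filter (fun x => dn z' x ≤ d / 2), 512 * C1 ^ 2 / (d : ℝ) ^ 4 := by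
          rw [sum_filter]
        rw [e1]
        apply sum_le_sum_of_subset_of_nonneg
        · intro x hx
          exact mem_box.2 (mem_filter.1 hx).2
        · intro x _ _; positivity
      have hcard : (((box z' (d / 2)).card : ℕ) : ℝ) ≤ 4 * (d : ℝ) ^ 2 := by
        rw [G45.card_box]
        have : (2 * (d / 2) + 1) ^ 2 ≤ (2 * d) ^ 2 := Nat.pow_le_pow_left (by omega) 2
        have h2 : (((2 * (d / 2) + 1) ^ 2 : ℕ) : ℝ) ≤ (((2 * d) ^ 2 : ℕ) : ℝ) := by exact_mod_cast this
        push_cast at h2 ⊢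
        linarith
      rw [sum_const, nsmul_eq_mul] at hsub
      calc 4 * ∑ x ∈ hfin.toFinset, g x ≤ 4 * (((box z' (d / 2)).card : ℝ) *
            (512 * C1 ^ 2 / (d : ℝ) ^ 4)) := by linarith
        _ ≤ 4 * (4 * (d : ℝ) ^ 2 * (512 * C1 ^ 2 / (d : ℝ) ^ 4)) := by
            have : 0 ≤ 512 * C1 ^ 2 / (d : ℝ) ^ 4 := by positivity
            nlinarith
        _ = 8192 * C1 ^ 2 / (d : ℝ) ^ 2 := by field_simp; ring
  · push Not at hd32
    refine ⟨fun _ => 1, 78408 / (1 + (d : ℝ)) ^ 2, fun _ _ _ => rfl, ?_, ?_⟩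
    · rw [Real.sqrt_div (by norm_num), Real.sqrt_sq (by positivity)]
      apply div_le_div_of_nonneg_right _ (by positivity)
      have : √(78408 : ℝ) ≤ 281 := by
        rw [Real.sqrt_le_left (by norm_num)]; norm_num
      rw [hC2]; linarith
    · have hp : pS hfin.toFinset (fun x y => ((fun _ => (1 : ℝ)) x - (fun _ => (1 : ℝ)) y) ^ 2 *
          Real.exp (2 * c * s x) * |u x * u y|) = 0 := by
        unfold pS
        simp
      rw [hp, add_zero]
      have hterm : ∀ x ∈ hfin.toFinset, (1 : ℝ) ^ 2 * Real.exp (2 * c * s x) * |u x * φ x| ≤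
          if dn z' x ≤ 1 then 8 else 0 := by
        intro x hx
        have hxO : x ∈ T.cells := by simpa using hx
        by_cases hφx : φ x = 0
        · rw [hφx]; simp only [mul_zero, abs_zero]; split_ifs <;> norm_num
        · obtain ⟨p1, p2⟩ := hsrc x hxO hφx
          rw [if_pos p2]
          have e1 := hexp (s x) (by linarith)
          have e2 : |u x * φ x| ≤ 1 := by
            rw [abs_mul]
            calc |u x| * |φ x| ≤ 1 * 1 := mul_le_mul (h1le x) (hφ1 x) (abs_nonneg _) zero_le_one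
              _ = 1 := one_mul 1
          calc (1 : ℝ) ^ 2 * Real.exp (2 * c * s x) * |u x * φ x| ≤ (1 : ℝ) ^ 2 * 8 * 1 := by gcongr
            _ = 8 := by norm_num
      have hsum : ∑ x ∈ hfin.toFinset, (1 : ℝ) ^ 2 * Real.exp (2 * c * s x) * |u x * φ x| ≤ 72 := by
        refine (sum_le_sum hterm).trans ?_
        rw [← sum_filter, sum_const, nsmul_eq_mul]
        have : (hfin.toFinset.filter (fun x => dn z' x ≤ 1)).card ≤ (box z' 1).card := by
          apply card_le_card
          intro x hx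
          exact mem_box.2 (mem_filter.1 hx).2
        rw [G45.card_box] at this
        have h2 : ((hfin.toFinset.filter (fun x => dn z' x ≤ 1)).card : ℝ) ≤ 9 := by
          exact_mod_cast this
        linarith
      refine hsum.trans ?_
      rw [le_div_iff₀ (by positivity)]
      have : (1 + (d : ℝ)) ^ 2 ≤ 33 ^ 2 := by
        have h3 : (d : ℝ) ≤ 32 := by exact_mod_cast hd32.le
        gcongr
        linarith
      nlinarith

end Vale.Agent.P155.H904
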