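import Vale.Agent.P155.H904.Dist

/-!
# P155 block I: dual one-forms on the coarse lattice

A dual one-form is a pair `(ax, ay)`: `ax f` is the increment from the cell `f` to `f + (1,0)`,
`ay f` the increment from `f` to `f + (0,1)`. The coarse vertex `v` is the lower left corner of the
cell `v`.
-/

namespace Vale.Agent.P155.H904

open Vale.Agent.P155 Finset

/-- curl of a dual one-form at a coarse vertex -/
def curl (ax ay : Pt → ℝ) (v : Pt) : ℝ :=
  ax (v.1 - 1, v.2 - 1) + ay (v.1, v.2 - 1) - ay (v.1 - 1, v.2 - 1) - ax (v.1 - 1, v.2)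

/-- bounded support -/
def Bdd (ax : Pt → ℝ) (M : ℕ) : Prop := ∀ f, ax f ≠ 0 → |f.1| ≤ M ∧ |f.2| ≤ M

theorem Bdd.mono {ax : Pt → ℝ} {M M' : ℕ} (h : Bdd ax M) (hM : M ≤ M') : Bdd ax M' := by
  intro f hf
  obtain ⟨h1, h2⟩ := h f hf
  have : (M : ℤ) ≤ M' := by exact_mod_cast hM
  exact ⟨h1.trans this, h2.trans this⟩

theorem Bdd.zero_left {ax : Pt → ℝ} {M : ℕ} (h : Bdd ax M) {f : Pt} (hf : f.1 < -M) :
    ax f = 0 := by
  by_contra h0
  have := (h f h0).1
  rw [abs_le] at this
  omega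

theorem Bdd.finite {ax : Pt → ℝ} {M : ℕ} (h : Bdd ax M) : (Function.support ax).Finite := by
  apply Set.Finite.subset (s := (Set.Icc (-(M : ℤ)) M) ×ˢ (Set.Icc (-(M : ℤ)) M))
  · exact (Set.finite_Icc _ _).prod (Set.finite_Icc _ _)
  · intro f hf
    obtain ⟨h1, h2⟩ := h f hf
    rw [abs_le] at h1 h2
    exact ⟨h1, h2⟩

/-- the total curl vanishes -/
theorem finsum_curl {ax ay : Pt → ℝ} {M : ℕ} (hx : Bdd ax M) (hy : Bdd ay M) :
    ∑ᶠ v, curl ax ay v = 0 := by
  have key : ∀ (g : Pt → ℝ) (c : Pt), ∑ᶠ v : Pt, g (v.1 - c.1, v.2 - c.2) = ∑ᶠ v, g v := by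
    intro g c
    exact finsum_comp_equiv (Equiv.subRight c) (f := g)
  have fin : ∀ (g : Pt → ℝ) (c : Pt), (Function.support g).Finite →
      (Function.support (fun v : Pt => g (v.1 - c.1, v.2 - c.2))).Finite := by
    intro g c hg
    have : (Function.support (fun v : Pt => g (v.1 - c.1, v.2 - c.2))) =
        (Equiv.subRight c) ⁻¹' (Function.support g) := rfl
    rw [this]
    exact hg.preimage ((Equiv.subRight c).injective.injOn)
  have e1 := key ax (1, 1)
  have e2 := key ay (0, 1)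
  have e3 := key ay (1, 1)
  have e4 := key ax (1, 0)
  have f1 := fin ax (1, 1) hx.finite
  have f2 := fin ay (0, 1) hy.finite
  have f3 := fin ay (1, 1) hy.finite
  have f4 := fin ax (1, 0) hx.finite
  simp only [sub_zero] at e2 e4 f2 f4
  unfold curl
  rw [finsum_sub_distrib _ f4, finsum_sub_distrib _ f3, finsum_add_distrib f1 f2, e1, e2, e3, e4]
  · ring
  · refine (f1.union f2).subset ?_
    exact Function.support_add _ _
  · refine ((f1.union f2).union f3).subset ?_
    refine (Function.support_sub _ _).trans ?_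
    exact Set.union_subset_union_left _ (Function.support_add _ _)

theorem curl_zero_of_ne {ax ay : Pt → ℝ} {M : ℕ} (hx : Bdd ax M) (hy : Bdd ay M) {v0 : Pt}
    (h : ∀ v, v ≠ v0 → curl ax ay v = 0) (v : Pt) : curl ax ay v = 0 := by
  by_cases hv : v = v0
  · subst hv
    have := finsum_curl hx hy
    rwa [finsum_eq_single _ v h] at this
  · exact h v hv

/-- the potential of a closed form with bounded support -/
noncomputable def potl (M : ℕ) (ax : Pt → ℝ) (f : Pt) : ℝ :=
  ∑ k ∈ range (f.1 + M + 1).toNat, ax (-(M : ℤ) - 1 + k, f.2)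

theorem potl_x {ax : Pt → ℝ} {M : ℕ} (hx : Bdd ax M) (f : Pt) :
    potl M ax (f.1 + 1, f.2) - potl M ax f = ax f := by
  unfold potl
  by_cases h : 0 ≤ f.1 + M + 1
  · have : (f.1 + 1 + M + 1).toNat = (f.1 + M + 1).toNat + 1 := by omega
    simp only [this, sum_range_succ, add_sub_cancel_left]
    congr 1
    ext
    · simp only
      rw [Int.toNat_of_nonneg h]
      ring
    · rfl
  · have h1 : (f.1 + 1 + M + 1).toNat = 0 := by omega
    have h2 : (f.1 + M + 1).toNat = 0 := by omega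
    simp only [h1, h2, range_zero, sum_empty, sub_zero]
    exact (hx.zero_left (by omega)).symm

theorem potl_y {ax ay : Pt → ℝ} {M : ℕ} (hy : Bdd ay M)
    (hc : ∀ v, curl ax ay v = 0) (f : Pt) :
    potl M ax (f.1, f.2 + 1) - potl M ax f = ay f := by
  unfold potl
  simp only
  rw [← sum_sub_distrib]
  have key : ∀ k : ℕ, ax (-(M : ℤ) - 1 + k, f.2 + 1) - ax (-(M : ℤ) - 1 + k, f.2) =
      ay (-(M : ℤ) - 1 + (k + 1 : ℕ), f.2) - ay (-(M : ℤ) - 1 + k, f.2) := by
    intro k
    have := hc (-(M : ℤ) - 1 + k + 1, f.2 + 1)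
    unfold curl at this
    simp only [add_sub_cancel_right] at this
    push_cast
    rw [← add_assoc]
    linarith
  rw [sum_congr rfl (fun k _ => key k), sum_range_sub (fun k => ay (-(M : ℤ) - 1 + (k : ℕ), f.2))]
  have h0 : ay (-(M : ℤ) - 1 + ((0 : ℕ) : ℤ), f.2) = 0 := hy.zero_left (by simp)
  rw [h0, sub_zero]
  by_cases h : 0 ≤ f.1 + M + 1
  · congr 1
    ext
    · simp only
      rw [Int.toNat_of_nonneg h]
      ring
    · rfl
  · have h2 : (f.1 + M + 1).toNat = 0 := by omega
    rw [h2, h0]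
    exact (hy.zero_left (by omega)).symm

theorem potl_left {ax : Pt → ℝ} {M : ℕ} {f : Pt} (hf : f.1 < -M) : potl M ax f = 0 := by
  unfold potl
  have h2 : (f.1 + M + 1).toNat = 0 := by omega
  rw [h2]; simp

/-- adjacency of an edge (as the pair of the cells it separates) to the domain, and not to `O` -/
def Ok' (D O : Set Pt) (f g : Pt) : Prop := (f ∈ D ∨ g ∈ D) ∧ f ∉ O ∧ g ∉ O

/-- a unit step between coarse vertices along an edge of a cell of `D`, not an edge of a cell
of `O` -/
inductive St (D O : Set Pt) : Pt → Pt → Prop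
  | r (i j : ℤ) : Ok' D O (i, j - 1) (i, j) → St D O (i, j) (i + 1, j)
  | l (i j : ℤ) : Ok' D O (i, j - 1) (i, j) → St D O (i + 1, j) (i, j)
  | u (i j : ℤ) : Ok' D O (i - 1, j) (i, j) → St D O (i, j) (i, j + 1)
  | d (i j : ℤ) : Ok' D O (i - 1, j) (i, j) → St D O (i, j + 1) (i, j)

/-- the elementary form -/
noncomputable def dl (f : Pt) (c : ℝ) : Pt → ℝ := fun g => if g = f then c else 0

theorem Bdd.dl (f : Pt) (c : ℝ) : ∃ M, Bdd (dl f c) M := by
  refine ⟨max f.1.natAbs f.2.natAbs, ?_⟩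
  intro g hg
  unfold H904.dl at hg
  have : g = f := by
    by_contra h
    simp [h] at hg
  subst this
  push_cast
  simp

theorem Bdd.add {a b : Pt → ℝ} {M : ℕ} (ha : Bdd a M) (hb : Bdd b M) :
    Bdd (fun f => a f + b f) M := by
  intro f hf
  by_cases h : a f = 0
  · apply hb
    intro h'
    simp [h, h'] at hf
  · exact ha f h

theorem Bdd.sub {a b : Pt → ℝ} {M : ℕ} (ha : Bdd a M) (hb : Bdd b M) :
    Bdd (fun f => a f - b f) M := by
  intro f hf
  by_cases h : a f = 0
  · apply hb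
    intro h'
    simp [h, h'] at hf
  · exact ha f h

theorem Bdd.zero : Bdd (fun _ => (0 : ℝ)) 0 := by
  intro f hf
  simp at hf

/-- `[u = v]` -/
noncomputable def dt (v u : Pt) : ℝ := if u = v then 1 else 0

/-- the unit flow of a path, as a dual form with curl `δ_{v0} - δ_v` -/
def UFlow (D O : Set Pt) (v v0 : Pt) : Prop :=
  ∃ (px py : Pt → ℝ) (M : ℕ), Bdd px M ∧ Bdd py M ∧
    (∀ f, px f ≠ 0 → Ok' D O f (f.1 + 1, f.2)) ∧ (∀ f, py f ≠ 0 → Ok' D O f (f.1, f.2 + 1)) ∧
    ∀ u, curl px py u = dt v0 u - dt v u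

theorem UFlow.refl (D O : Set Pt) (v : Pt) : UFlow D O v v := by
  refine ⟨fun _ => 0, fun _ => 0, 0, Bdd.zero, Bdd.zero, ?_, ?_, ?_⟩
  · intro f h; simp at h
  · intro f h; simp at h
  · intro u; simp [curl]

theorem UFlow.cons_y {D O : Set Pt} {v v' v0 : Pt} (h : UFlow D O v' v0) (g : Pt) (c : ℝ)
    (hok : Ok' D O g (g.1, g.2 + 1))
    (hc : ∀ u, curl (fun _ => 0) (dl g c) u = dt v' u - dt v u) : UFlow D O v v0 := by
  obtain ⟨px, py, M, h1, h2, h3, h4, h5⟩ := h
  obtain ⟨M', hM'⟩ := Bdd.dl g c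
  refine ⟨px, fun f => py f + dl g c f, max M M', h1.mono (le_max_left _ _),
    (h2.mono (le_max_left _ _)).add (hM'.mono (le_max_right _ _)), h3, ?_, ?_⟩
  · intro f hf
    by_cases hfg : f = g
    · rw [hfg]; exact hok
    · apply h4
      simpa [dl, hfg] using hf
  · intro u
    have e1 := h5 u
    have e2 := hc u
    unfold curl at *
    linarith

theorem UFlow.cons_x {D O : Set Pt} {v v' v0 : Pt} (h : UFlow D O v' v0) (g : Pt) (c : ℝ)
    (hok : Ok' D O g (g.1 + 1, g.2))
    (hc : ∀ u, curl (dl g c) (fun _ => 0) u = dt v' u - dt v u) : UFlow D O v v0 := by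
  obtain ⟨px, py, M, h1, h2, h3, h4, h5⟩ := h
  obtain ⟨M', hM'⟩ := Bdd.dl g c
  refine ⟨fun f => px f + dl g c f, py, max M M',
    (h1.mono (le_max_left _ _)).add (hM'.mono (le_max_right _ _)), h2.mono (le_max_left _ _),
    ?_, h4, ?_⟩
  · intro f hf
    by_cases hfg : f = g
    · rw [hfg]; exact hok
    · apply h3
      simpa [dl, hfg] using hf
  · intro u
    have e1 := h5 u
    have e2 := hc u
    unfold curl at *
    linarith

theorem curl_dl_y (g : Pt) (c : ℝ) (u : Pt) :
    curl (fun _ => 0) (dl g c) u = c * dt (g.1, g.2 + 1) u - c * dt (g.1 + 1, g.2 + 1) u := by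
  unfold curl dl dt
  have h1 : ((u.1, u.2 - 1) : Pt) = g ↔ u = (g.1, g.2 + 1) := by
    constructor
    · rintro rfl; ext <;> simp
    · rintro rfl; ext <;> simp
  have h2 : ((u.1 - 1, u.2 - 1) : Pt) = g ↔ u = (g.1 + 1, g.2 + 1) := by
    constructor
    · rintro rfl; ext <;> simp
    · rintro rfl; ext <;> simp
  simp only [h1, h2]
  split_ifs <;> ring

theorem curl_dl_x (g : Pt) (c : ℝ) (u : Pt) :
    curl (dl g c) (fun _ => 0) u = c * dt (g.1 + 1, g.2 + 1) u - c * dt (g.1 + 1, g.2) u := by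
  unfold curl dl dt
  have h1 : ((u.1 - 1, u.2) : Pt) = g ↔ u = (g.1 + 1, g.2) := by
    constructor
    · rintro rfl; ext <;> simp
    · rintro rfl; ext <;> simp
  have h2 : ((u.1 - 1, u.2 - 1) : Pt) = g ↔ u = (g.1 + 1, g.2 + 1) := by
    constructor
    · rintro rfl; ext <;> simp
    · rintro rfl; ext <;> simp
  simp only [h1, h2]
  split_ifs <;> ring

theorem uflow_of_path {D O : Set Pt} {v v0 : Pt} (h : Relation.ReflTransGen (St D O) v v0) :
    UFlow D O v v0 := by
  induction h using Relation.ReflTransGen.head_induction_on with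
  | refl => exact UFlow.refl D O v0
  | head h1 _ ih =>
    cases h1 with
    | r i j hok =>
      apply ih.cons_y (i, j - 1) (-1)
      · simpa using hok
      · intro u; rw [curl_dl_y]; simp only [sub_add_cancel]; ring
    | l i j hok =>
      apply ih.cons_y (i, j - 1) 1
      · simpa using hok
      · intro u; rw [curl_dl_y]; simp only [sub_add_cancel]; ring
    | u i j hok =>
      apply ih.cons_x (i - 1, j) 1
      · simpa using hok
      · intro u; rw [curl_dl_x]; simp only [sub_add_cancel]; ring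
    | d i j hok =>
      apply ih.cons_x (i - 1, j) (-1)
      · simpa using hok
      · intro u; rw [curl_dl_x]; simp only [sub_add_cancel]; ring

end Vale.Agent.P155.H904
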