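import Vale.Agent.P155.H904.Sigma
import Vale.Agent.P155.G45.Visits
import Vale.Agent.P155.G.Grad

/-!
# P155 block I: gain for unpinched pairs
-/

namespace Vale.Agent.P155.H904

open Vale.Agent.P155 Finset



/-- gradient estimate (block G2) -/
theorem grad_est (n : ℕ) (x : Pt) (u : Pt → ℝ) (M : ℝ) (hn : 1 ≤ n)
    (hM : ∀ z, dn x z ≤ n → |u z| ≤ M) (hl : ∀ z, dn x z < n → lap u z = 0) :
    |u (x.1 + 1, x.2) - u x| ≤ 2 * M / n ∧ |u (x.1, x.2 + 1) - u x| ≤ 2 * M / n := by
  have h1 : ∀ z : ℤ × ℤ, |z.1 - x.1| ≤ n → |z.2 - x.2| ≤ n → |u z| ≤ M := by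
    intro z h1 h2
    apply hM
    rw [dn_le_iff, abs_sub_comm x.1, abs_sub_comm x.2]
    exact ⟨h1, h2⟩
  have h2 : ∀ z : ℤ × ℤ, |z.1 - x.1| < n → |z.2 - x.2| < n → |lap u z| ≤ 0 := by
    intro z h1 h2
    rw [hl z, abs_zero]
    have := (dn_spec x z).2
    rw [abs_lt] at h1 h2
    omega
  have e1 := G.grad_x u x n hn M 0 h1 h2
  have e2 := G.grad_y u x n hn M 0 h1 h2
  rw [mul_zero, add_zero] at e1 e2
  exact ⟨e1, e2⟩

theorem cp_of_conn {D : Set Pt} (hD : D.Finite) (hout : Conn Dᶜ) {p : Pt} (hp : p ∉ D) (r : ℕ) :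
    ∃ q, q ∉ D ∧ dn p q = r := by
  obtain ⟨M, hM⟩ := exists_box_of_finite hD
  have hg : ((M + r + |p.1| + 1, 0) : Pt) ∉ D := by
    intro h
    have := (hM _ h).1
    rw [abs_le] at this
    have := abs_nonneg p.1
    simp only at *
    omega
  have hpath := hout p hp _ hg
  have claim : ∀ c, Relation.ReflTransGen (fun a b => Adj a b ∧ b ∈ Dᶜ) p c →
      ∀ r ≤ dn p c, ∃ q, q ∉ D ∧ dn p q = r := by
    intro c hc
    induction hc with
    | refl =>
      intro r hr
      rw [dn_self] at hr
      exact ⟨p, hp, by rw [dn_self]; omega⟩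
    | @tail b c _ h2 ih =>
      intro r hr
      by_cases h : r ≤ dn p b
      · exact ih r h
      · have h1 : dn b c ≤ 1 := by
          rw [dn_le_iff]
          have := h2.1
          unfold Adj at this
          have a1 := abs_nonneg (b.1 - c.1)
          have a2 := abs_nonneg (b.2 - c.2)
          push_cast
          omega
        have h3 := dn_tri p b c
        exact ⟨c, h2.2, by omega⟩
  apply claim _ hpath r
  have h1 := (dn_spec p ((M + r + |p.1| + 1, 0) : Pt)).1.2.1
  have h2 := le_abs_self p.1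
  simp only at h1
  omega

theorem dn_adj {a b : Pt} (h : Adj a b) : dn a b ≤ 1 := by
  rw [dn_le_iff]
  unfold Adj at h
  have a1 := abs_nonneg (a.1 - b.1)
  have a2 := abs_nonneg (a.2 - b.2)
  push_cast
  omega

/-- data of a local potential -/
structure LPot (D : Set Pt) (x : Pt) (d : ℕ) (A : ℝ) (σ : Pt → ℝ) : Prop where
  fin : D.Finite
  mem : x ∈ D
  zero : ∀ f, f ∉ D → σ f = 0
  harm : ∀ f ∈ Oc D x d, lap σ f = 0
  grad : ∀ f ∈ Oc D x d, ∀ g, Adj f g → |σ g - σ f| ≤ A / dF D f

/-- one king step -/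
theorem LPot.king {D : Set Pt} {x : Pt} {d : ℕ} {A : ℝ} {σ : Pt → ℝ} (h : LPot D x d A σ)
    (hA : 0 ≤ A) {f f' : Pt} (hf : f ∈ Oc D x d) {m : ℕ} (hm : dF D f = m + 1)
    (hm' : dF D f' = m) (hff' : dn f f' ≤ 1) (hd : dn x f + 1 ≤ d) :
    |σ f - σ f'| ≤ 2 * A / (max m 1 : ℕ) ∧ (f' ∈ D → f' ∈ Oc D x d) := by
  have hne := exists_not_mem_of_finite h.fin
  have hmax : (1 : ℝ) ≤ (max m 1 : ℕ) := by exact_mod_cast le_max_right _ _
  have hmaxm : ((max m 1 : ℕ) : ℝ) ≤ (m + 1 : ℕ) := by
    exact_mod_cast max_le (Nat.le_succ m) (Nat.succ_le_succ (Nat.zero_le m))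
  have hpos : (0 : ℝ) < (max m 1 : ℕ) := by linarith
  have hgf : ∀ g, Adj f g → |σ g - σ f| ≤ A / (max m 1 : ℕ) := by
    intro g hg
    have := h.grad f hf g hg
    rw [hm] at this
    exact this.trans (div_le_div_of_nonneg_left hA hpos hmaxm)
  have hAle : A / (max m 1 : ℕ) ≤ 2 * A / (max m 1 : ℕ) :=
    div_le_div_of_nonneg_right (by linarith) hpos.le
  have hmemD : ∀ g, dn f g ≤ 1 → g ∈ D → dn x g ≤ d := by
    intro g hg _
    have := dn_tri x f g
    omega
  by_cases hadj : Adj f f'
  · refine ⟨?_, fun hf' => Oc.step hf hadj hf' (hmemD _ hff' hf')⟩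
    rw [abs_sub_comm]
    exact (hgf f' hadj).trans hAle
  · -- diagonal step
    have hne' : f ≠ f' := by
      rintro rfl
      omega
    obtain ⟨⟨h1, h2, h3, h4⟩, -⟩ := dn_spec f f'
    set y : Pt := (f'.1, f.2) with hy
    have hcase : f'.1 ≠ f.1 ∧ f'.2 ≠ f.2 := by
      constructor
      · intro hc
        apply hadj
        have : f'.2 ≠ f.2 := by
          intro hc'
          exact hne' (Prod.ext hc.symm hc'.symm)
        unfold Adj
        rw [hc, sub_self, abs_zero, zero_add]
        rcases abs_cases (f.2 - f'.2) with ⟨h5, h6⟩ | ⟨h5, h6⟩ <;> omega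
      · intro hc
        apply hadj
        have : f'.1 ≠ f.1 := by
          intro hc'
          exact hne' (Prod.ext hc'.symm hc.symm)
        unfold Adj
        rw [hc, sub_self, abs_zero, add_zero]
        rcases abs_cases (f.1 - f'.1) with ⟨h5, h6⟩ | ⟨h5, h6⟩ <;> omega
    have hfy : Adj f y := by
      unfold Adj
      simp only [hy, sub_self, abs_zero, add_zero]
      rcases abs_cases (f.1 - f'.1) with ⟨h5, h6⟩ | ⟨h5, h6⟩ <;> omega
    have hyf' : Adj y f' := by
      unfold Adj
      simp only [hy, sub_self, abs_zero, zero_add]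
      rcases abs_cases (f.2 - f'.2) with ⟨h5, h6⟩ | ⟨h5, h6⟩ <;> omega
    have hfy1 := dn_adj hfy
    by_cases hyD : y ∈ D
    · have hyO : y ∈ Oc D x d := Oc.step hf hfy hyD (hmemD _ hfy1 hyD)
      have hdFy : (max m 1 : ℕ) ≤ dF D y := by
        have e1 := dF_lip hne f y
        have e2 := dF_pos hne hyD
        omega
      have e3 := h.grad y hyO f' hyf'
      have e4 : A / (dF D y : ℝ) ≤ A / (max m 1 : ℕ) :=
        div_le_div_of_nonneg_left hA hpos (by exact_mod_cast hdFy)
      have e5 := hgf y hfy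
      refine ⟨?_, fun hf' => Oc.step hyO hyf' hf' (hmemD _ hff' hf')⟩
      have : σ f - σ f' = -(σ y - σ f) - (σ f' - σ y) := by ring
      rw [this]
      calc |-(σ y - σ f) - (σ f' - σ y)| ≤ |-(σ y - σ f)| + |σ f' - σ y| := abs_sub _ _
        _ ≤ A / (max m 1 : ℕ) + A / (max m 1 : ℕ) := by
            rw [abs_neg]; exact add_le_add e5 (e3.trans e4)
        _ = 2 * A / (max m 1 : ℕ) := by ring
    · -- `y` is outside: then `m = 0`
      have hm0 : m = 0 := by
        have e1 := dF_le (x := f) hyD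
        omega
      have hf'D : f' ∉ D := by
        intro hf'
        have := dF_pos hne hf'
        omega
      refine ⟨?_, fun hf' => (hf'D hf').elim⟩
      have e5 := hgf y hfy
      rw [h.zero y hyD, zero_sub, abs_neg] at e5
      rw [h.zero f' hf'D, sub_zero]
      exact e5.trans hAle

/-- the potential is at most `2A(2 + log)`, by walking to the boundary -/
theorem LPot.log_bound {D : Set Pt} {x : Pt} {d : ℕ} {A : ℝ} {σ : Pt → ℝ} (h : LPot D x d A σ)
    (hA : 0 ≤ A) : ∀ (m : ℕ) (f : Pt), f ∈ Oc D x d → dF D f = m → dn x f + m ≤ d →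
    |σ f| ≤ 2 * A * (1 + ∑ j ∈ range (m - 1), ((j : ℝ) + 1)⁻¹) := by
  have hne := exists_not_mem_of_finite h.fin
  intro m
  induction m with
  | zero =>
    intro f hf hm _
    have := dF_pos hne (Oc.sub h.mem hf).1
    omega
  | succ m ih =>
    intro f hf hm hd
    obtain ⟨f', hf', hff'⟩ := king_step hne hm
    obtain ⟨h1, h2⟩ := h.king hA hf hm hf' hff' (by omega)
    rcases Nat.eq_zero_or_pos m with h0 | h0
    · subst h0
      have hf'D : f' ∉ D := by
        intro hc
        have := dF_pos hne hc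
        omega
      rw [h.zero f' hf'D, sub_zero] at h1
      simpa using h1
    · have hf'D : f' ∈ D := by
        by_contra hc
        have := dF_eq_zero hc
        omega
      have hO := h2 hf'D
      have e1 := ih f' hO hf' (by
        have := dn_tri x f f'
        omega)
      have e2 : max m 1 = m := by omega
      rw [e2] at h1
      obtain ⟨k, rfl⟩ : ∃ k, m = k + 1 := ⟨m - 1, by omega⟩
      simp only [add_tsub_cancel_right] at e1 ⊢
      rw [sum_range_succ]
      have e3 : |σ f| ≤ |σ f - σ f'| + |σ f'| := by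
        have := abs_add_le (σ f - σ f') (σ f')
        simpa using this
      push_cast at h1
      calc |σ f| ≤ |σ f - σ f'| + |σ f'| := e3
        _ ≤ 2 * A / ((k : ℝ) + 1) + 2 * A * (1 + ∑ j ∈ range k, ((j : ℝ) + 1)⁻¹) := add_le_add h1 e1
        _ = 2 * A * (1 + (∑ j ∈ range k, ((j : ℝ) + 1)⁻¹ + ((k : ℝ) + 1)⁻¹)) := by
            rw [div_eq_mul_inv]; ring

theorem harm_le (n : ℕ) : ∑ j ∈ range n, ((j : ℝ) + 1)⁻¹ ≤ 1 + Real.log n := by
  have := harmonic_le_one_add_log n
  unfold harmonic at this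
  push_cast at this
  exact this

theorem box_sub_Oc {D : Set Pt} {x : Pt} {d n : ℕ} (hn : dF D x = n + 1) (hnd : n ≤ d) :
    ∀ f, dn x f ≤ n → f ∈ Oc D x d := by
  have hD : ∀ f, dn x f ≤ n → f ∈ D := by
    intro f hf
    by_contra hc
    have := dF_le (x := x) hc
    omega
  have main : ∀ (k : ℕ) (f : Pt), (f.1 - x.1).natAbs + (f.2 - x.2).natAbs = k → dn x f ≤ n →
      f ∈ Oc D x d := by
    intro k
    induction k with
    | zero =>
      intro f hk _
      have : f = x := by ext <;> omega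
      rw [this]
      exact Oc.self D x d
    | succ k ih =>
      intro f hk hf
      obtain ⟨h1, h2⟩ := dn_le_iff.1 hf
      rw [abs_le] at h1 h2
      have step : ∀ g : Pt, Adj g f → (g.1 - x.1).natAbs + (g.2 - x.2).natAbs = k → dn x g ≤ n →
          f ∈ Oc D x d := fun g hg hk' hg' => Oc.step (ih g hk' hg') hg (hD f hf) (hf.trans hnd)
      by_cases h3 : x.1 < f.1
      · exact step (f.1 - 1, f.2) (adj_symm (adj_l f)) (by simp only; omega)
          (dn_le_iff.2 (by simp only [abs_le]; omega))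
      by_cases h4 : f.1 < x.1
      · exact step (f.1 + 1, f.2) (adj_symm (adj_r f)) (by simp only; omega)
          (dn_le_iff.2 (by simp only [abs_le]; omega))
      by_cases h5 : x.2 < f.2
      · exact step (f.1, f.2 - 1) (adj_symm (adj_d f)) (by simp only; omega)
          (dn_le_iff.2 (by simp only [abs_le]; omega))
      by_cases h6 : f.2 < x.2
      · exact step (f.1, f.2 + 1) (adj_symm (adj_u f)) (by simp only; omega)
          (dn_le_iff.2 (by simp only [abs_le]; omega))
      omega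
  intro f hf
  exact main _ f rfl hf

/-- **Decay of the potential.** -/
theorem LPot.decay {D : Set Pt} {x : Pt} {d : ℕ} {A : ℝ} {σ : Pt → ℝ} (h : LPot D x d A σ)
    (hout : Conn Dᶜ) (hA : 0 ≤ A) {β C : ℝ} (hdec : G45.SupDecay C β) (hβ : 0 < β) (hC : 0 ≤ C)
    {L : ℕ} (hL : 1 ≤ L) (hd : dF D x + 2 * L ≤ d) {f : Pt} (hf : f ∈ Oc D x d)
    (hfx : dn x f + dF D x ≤ L) :
    |σ f| ≤ C * (((dn x f : ℝ) + dF D x + 1) / ((L : ℝ) + 1)) ^ β * (2 * A * (2 + Real.log L)) := by
  classical
  have hne := exists_not_mem_of_finite h.fin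
  obtain ⟨p, hp, hxp⟩ := exists_dF hne x
  set u : Pt → ℝ := fun f => if f ∈ Oc D x d then σ f else 0 with hu
  have hlog : 0 ≤ Real.log L := Real.log_nonneg (by exact_mod_cast hL)
  have key := hdec (Oc D x d) p L (2 * A * (2 + Real.log L)) u ?_ ?_ ?_ ?_ f ?_
  · rw [hu] at key
    simp only [hf, if_true] at key
    refine key.trans ?_
    have h1 : ((dn p f : ℝ) + 1) / ((L : ℝ) + 1) ≤ ((dn x f : ℝ) + dF D x + 1) / ((L : ℝ) + 1) := by
      apply div_le_div_of_nonneg_right _ (by positivity)
      have := dn_tri p x f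
      rw [dn_comm p x, hxp] at this
      have h' : ((dn p f : ℕ) : ℝ) ≤ ((dF D x + dn x f : ℕ) : ℝ) := by exact_mod_cast this
      push_cast at h'
      linarith
    have h2 := Real.rpow_le_rpow (by positivity) h1 hβ.le
    have h3 : 0 ≤ 2 * A * (2 + Real.log L) := by positivity
    exact mul_le_mul_of_nonneg_right (mul_le_mul_of_nonneg_left h2 hC) h3
  · intro r _
    obtain ⟨q, hq, hq'⟩ := cp_of_conn h.fin hout hp r
    exact ⟨q, fun hc => hq (Oc.sub h.mem hc).1, hq'⟩
  · intro z hz
    simp [hu, hz]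
  · intro z hz hzL
    have h1 := h.harm z hz
    have h2 : ∀ g, Adj z g → u g = σ g := by
      intro g hg
      by_cases hgO : g ∈ Oc D x d
      · simp [hu, hgO]
      · have : g ∉ D := by
          intro hgD
          apply hgO
          apply Oc.step hz hg hgD
          have e1 := dn_tri x p g
          have e2 := dn_tri p z g
          have e3 := dn_adj hg
          omega
        simp [hu, hgO, h.zero g this]
    have h3 : u z = σ z := by simp [hu, hz]
    unfold lap at *
    rw [h2 _ (adj_r z), h2 _ (adj_l z), h2 _ (adj_u z), h2 _ (adj_d z), h3]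
    exact h1
  · intro z hz
    by_cases hzO : z ∈ Oc D x d
    · simp only [hu, hzO, if_true]
      have e1 : dF D z ≤ L := by
        have := dF_le (x := z) hp
        rw [dn_comm] at this
        omega
      have e2 := h.log_bound hA (dF D z) z hzO rfl (by
        have := dn_tri x p z
        omega)
      refine e2.trans ?_
      have e3 := harm_le (dF D z - 1)
      have e4 : Real.log ((dF D z - 1 : ℕ) : ℝ) ≤ Real.log L := by
        rcases Nat.eq_zero_or_pos (dF D z - 1) with h0 | h0
        · rw [h0]; simpa using hlog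
        · apply Real.log_le_log (by exact_mod_cast h0)
          exact_mod_cast (by omega : dF D z - 1 ≤ L)
      apply mul_le_mul_of_nonneg_left _ (by positivity)
      linarith
    · simp only [hu, hzO, if_false, abs_zero]
      positivity
  · have := dn_tri p x f
    rw [dn_comm p x, hxp] at this
    omega

/-- **Gain.** -/
theorem LPot.gain {D : Set Pt} {x : Pt} {d : ℕ} {A : ℝ} {σ : Pt → ℝ} (h : LPot D x d A σ)
    (hout : Conn Dᶜ) (hA : 0 ≤ A) {β C : ℝ} (hdec : G45.SupDecay C β)
    (hβ : 0 < β) (hC : 0 ≤ C) {L : ℕ} (hL : 2 * dF D x + 1 ≤ L) (hd : dF D x + 2 * L ≤ d)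
    {g : Pt} (hg : Adj x g) :
    |σ g - σ x| ≤ 12 * C / (dF D x : ℝ) * (3 * (dF D x : ℝ) / ((L : ℝ) + 1)) ^ β *
      (2 * A * (2 + Real.log L)) := by
  have hne := exists_not_mem_of_finite h.fin
  have hn0 := dF_pos hne h.mem
  obtain ⟨n, hn⟩ : ∃ n, dF D x = n + 1 := ⟨dF D x - 1, by omega⟩
  have hlog : 0 ≤ Real.log L := Real.log_nonneg (by exact_mod_cast (by omega : 1 ≤ L))
  set B : ℝ := C * (3 * (dF D x : ℝ) / ((L : ℝ) + 1)) ^ β * (2 * A * (2 + Real.log L)) with hB
  have hB0 : 0 ≤ B := by positivity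
  -- the bound of `σ` near `x`
  have hb : ∀ f ∈ Oc D x d, dn x f ≤ n + 1 → |σ f| ≤ B := by
    intro f hf hfn
    have e := h.decay hout hA hdec hβ hC (L := L) (by omega) hd hf (by omega)
    refine e.trans ?_
    have h1 : ((dn x f : ℝ) + dF D x + 1) / ((L : ℝ) + 1) ≤ 3 * (dF D x : ℝ) / ((L : ℝ) + 1) := by
      apply div_le_div_of_nonneg_right _ (by positivity)
      have e1 : ((dn x f : ℕ) : ℝ) ≤ ((n + 1 : ℕ) : ℝ) := by exact_mod_cast hfn
      rw [hn]
      push_cast at *
      linarith [(Nat.cast_nonneg n : (0 : ℝ) ≤ n)]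
    have h2 := Real.rpow_le_rpow (by positivity) h1 hβ.le
    exact mul_le_mul_of_nonneg_right (mul_le_mul_of_nonneg_left h2 hC) (by positivity)
  have hgoal : 12 * C / (dF D x : ℝ) * (3 * (dF D x : ℝ) / ((L : ℝ) + 1)) ^ β *
      (2 * A * (2 + Real.log L)) = 12 * B / (dF D x : ℝ) := by
    rw [hB]; ring
  rw [hgoal]
  have hfd : (0 : ℝ) < (dF D x : ℝ) := by exact_mod_cast hn0
  by_cases hn2 : n ≤ 1
  · -- close to the boundary
    have e1 : |σ x| ≤ B := hb x (Oc.self D x d) (by rw [dn_self]; omega)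
    have e2 : |σ g| ≤ B := by
      by_cases hgD : g ∈ D
      · have h1 := dn_adj hg
        exact hb g (Oc.step (Oc.self D x d) hg hgD (by omega)) (by omega)
      · rw [h.zero g hgD, abs_zero]; exact hB0
    have e3 : |σ g - σ x| ≤ 2 * B := by
      have := abs_sub (σ g) (σ x)
      linarith
    refine e3.trans ?_
    rw [le_div_iff₀ hfd]
    have : (dF D x : ℝ) ≤ 2 := by
      rw [hn]; push_cast
      have : (n : ℝ) ≤ 1 := by exact_mod_cast hn2
      linarith
    nlinarith
  · push Not at hn2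
    -- gradient estimate in the box of radius `n - 1`
    have hN : 1 ≤ n - 1 := by omega
    have hbox := box_sub_Oc (D := D) (x := x) (d := d) hn (by omega)
    have hM : ∀ y, dn x y ≤ 1 → (∀ z, dn y z ≤ n - 1 → |σ z| ≤ B) ∧
        (∀ z, dn y z < n - 1 → lap σ z = 0) := by
      intro y hy
      constructor
      · intro z hz
        have := dn_tri x y z
        exact hb z (hbox z (by omega)) (by omega)
      · intro z hz
        have := dn_tri x y z
        exact h.harm z (hbox z (by omega))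
    have hfin : 2 * B / ((n - 1 : ℕ) : ℝ) ≤ 12 * B / (dF D x : ℝ) := by
      rw [div_le_div_iff₀ (by exact_mod_cast hN) hfd, hn]
      push_cast [Nat.cast_sub (by omega : 1 ≤ n)]
      have : (2 : ℝ) ≤ n := by exact_mod_cast hn2
      nlinarith
    rcases adj_cases hg with hh | hh | hh | hh
    · rw [hh]
      have := (hM x (by rw [dn_self]; omega))
      exact ((grad_est (n - 1) x σ B hN this.1 this.2).1).trans hfin
    · have := (hM g (dn_adj hg))
      have e := (grad_est (n - 1) g σ B hN this.1 this.2).1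
      rw [hh] at e
      simp only [sub_add_cancel] at e
      rw [hh, abs_sub_comm]
      exact e.trans hfin
    · rw [hh]
      have := (hM x (by rw [dn_self]; omega))
      exact ((grad_est (n - 1) x σ B hN this.1 this.2).2).trans hfin
    · have := (hM g (dn_adj hg))
      have e := (grad_est (n - 1) g σ B hN this.1 this.2).2
      rw [hh] at e
      simp only [sub_add_cancel] at e
      rw [hh, abs_sub_comm]
      exact e.trans hfin

end Vale.Agent.P155.H904
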