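import Vale.Agent.P155.G1.Decay

/-!
# P155, BD block R0: Hardy's inequality on simply connected lattice domains

* `hardy_super` : the Green potential of `(1 + dF)^(a-2)` is at most `D (1 + dF)^a`;
* `hardy` : `∑ v² / (1 + dF)² ≤ D ∑ v (-Δ v)`.
-/

namespace Vale.Agent.P155.H904

open Vale.Agent.P155 Finset Vale.Agent.P155.G45

/-- **the supersolution behind Hardy's inequality** -/
theorem hardy_super : ∃ a D : ℝ, 0 < a ∧ a ≤ 1 ∧ 0 < D ∧ ∀ (O : Set Pt), O.Finite → CPr O →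
    ∀ s : Pt → ℝ, IsGreen O (fun x => (1 + (dF O x : ℝ)) ^ (a - 2)) s →
    ∀ x, s x ≤ D * (1 + (dF O x : ℝ)) ^ a := by
  classical
  obtain ⟨β, hβ, hSD, _⟩ := G1.decay
  set a : ℝ := min (β / 2) 1 with ha
  have ha0 : 0 < a := lt_min (by positivity) one_pos
  have ha1 : a ≤ 1 := min_le_right _ _
  have haβ : a ≤ β / 2 := min_le_left _ _
  have hba : 0 < β - a := by linarith
  -- the small parameter
  set δ : ℝ := (1 / 4 : ℝ) ^ (1 / a) with hδ
  have hδ0 : 0 < δ := Real.rpow_pos_of_pos (by norm_num) _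
  have hδa : δ ^ a = 1 / 4 := by
    rw [hδ, ← Real.rpow_mul (by norm_num), one_div_mul_cancel ha0.ne', Real.rpow_one]
  -- the large parameter
  obtain ⟨K, hK3, hK⟩ := exists_K (C := 2) (β := β - a) (ε := 1 / 4) hba (by norm_num) (by norm_num)
  have hK3' : (3 : ℝ) ≤ K := by exact_mod_cast hK3
  have hKpos : (0 : ℝ) < K := by linarith
  set D0 : ℝ := δ ^ (a - 2) * ((K : ℝ) + 1) ^ 2 with hD0
  have hD0pos : 0 < D0 := by
    have := Real.rpow_pos_of_pos hδ0 (a - 2)
    positivity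
  refine ⟨a, 2 * D0, ha0, ha1, by positivity, ?_⟩
  intro O hO hCP s hs x
  have hφ0 : ∀ y : Pt, 0 ≤ (1 + (dF O y : ℝ)) ^ (a - 2) := fun y => by positivity
  have hs0 : ∀ y, 0 ≤ s y := green_nonneg hO hs (fun y _ => hφ0 y)
  have hpos : ∀ y : Pt, (0 : ℝ) < 1 + (dF O y : ℝ) := fun y => by positivity
  have hpa : ∀ y : Pt, (0 : ℝ) < (1 + (dF O y : ℝ)) ^ a := fun y => Real.rpow_pos_of_pos (hpos y) a
  by_cases hx : x ∈ O
  swap
  · rw [hs.off x hx]
    have := hpa x
    positivity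
  have hne : hO.toFinset.Nonempty := ⟨x, by simpa using hx⟩
  obtain ⟨z, hzS, hz⟩ := hO.toFinset.exists_max_image (fun y => s y / (1 + (dF O y : ℝ)) ^ a) hne
  have hzO : z ∈ O := by simpa using hzS
  set M : ℝ := s z / (1 + (dF O z : ℝ)) ^ a with hM
  have hM0 : 0 ≤ M := div_nonneg (hs0 z) (hpa z).le
  have hsM : ∀ y, s y ≤ M * (1 + (dF O y : ℝ)) ^ a := by
    intro y
    by_cases hy : y ∈ O
    · have := hz y (by simpa using hy)
      rwa [div_le_iff₀ (hpa y)] at this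
    · rw [hs.off y hy]
      exact mul_nonneg hM0 (hpa y).le
  have hsz : s z = M * (1 + (dF O z : ℝ)) ^ a := by
    rw [hM, div_mul_cancel₀ _ (hpa z).ne']
  -- it suffices to bound `M`
  suffices hMD : M ≤ 2 * D0 from (hsM x).trans (mul_le_mul_of_nonneg_right hMD (hpa x).le)
  obtain ⟨p, hpO, hdp⟩ := exists_dF (exists_notMem hO) z
  set d : ℕ := dF O z with hd
  set L : ℕ := K * (d + 1) with hL
  have hpz : dn p z = d := by rw [dn_comm]; exact hdp
  have hLz : dn p z ≤ L := by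
    rw [hpz, hL]
    calc d ≤ 1 * (d + 1) := by omega
      _ ≤ K * (d + 1) := Nat.mul_le_mul_right _ (by omega)
  have hL1 : (L : ℝ) + 1 ≤ ((K : ℝ) + 1) * (1 + (d : ℝ)) := by
    rw [hL]; push_cast; nlinarith [Nat.cast_nonneg (α := ℝ) d]
  have hL2 : (K : ℝ) * (1 + (d : ℝ)) ≤ (L : ℝ) + 1 := by
    rw [hL]; push_cast; nlinarith [Nat.cast_nonneg (α := ℝ) d]
  set φ : Pt → ℝ := fun y => (1 + (dF O y : ℝ)) ^ (a - 2) with hφ
  set q : ℝ := δ * (1 + (d : ℝ)) with hq
  have hq0 : 0 < q := by positivity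
  set φ1 : Pt → ℝ := fun y => if 1 + (dF O y : ℝ) < q then 0 else φ y with hφ1
  set φ2 : Pt → ℝ := fun y => if 1 + (dF O y : ℝ) < q then φ y else 0 with hφ2
  have hφ12 : ∀ y, φ y = φ1 y + φ2 y := by
    intro y; simp only [hφ1, hφ2]; split_ifs <;> simp
  have hφ1n : ∀ y, 0 ≤ φ1 y := by
    intro y; simp only [hφ1]; split_ifs
    · exact le_rfl
    · exact hφ0 y
  have hφ2n : ∀ y, 0 ≤ φ2 y := by
    intro y; simp only [hφ2]; split_ifs
    · exact hφ0 y
    · exact le_rfl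
  have hφ1q : ∀ y, φ1 y ≤ q ^ (a - 2) := by
    intro y; simp only [hφ1]; split_ifs with h
    · exact (Real.rpow_pos_of_pos hq0 _).le
    · push Not at h
      exact Real.rpow_le_rpow_of_nonpos hq0 h (by linarith)
  obtain ⟨v1, hv1⟩ := exists_green hO φ1
  obtain ⟨v2, hv2⟩ := exists_green hO φ2
  have hv1n : ∀ y, 0 ≤ v1 y := green_nonneg hO hv1 (fun y _ => hφ1n y)
  have hv2n : ∀ y, 0 ≤ v2 y := green_nonneg hO hv2 (fun y _ => hφ2n y)
  have hsum : ∀ y, s y = v1 y + v2 y := by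
    have hg : IsGreen O φ (fun y => v1 y + v2 y) :=
      { off := fun y hy => by simp [hv1.off y hy, hv2.off y hy]
        eq := fun y hy => by
          rw [lap_add]
          linarith [hv1.eq y hy, hv2.eq y hy, hφ12 y] }
    have := green_unique hO hs hg
    intro y
    exact congrFun this y
  -- the shallow part
  have h2 : v2 z ≤ M * q ^ a := by
    have hfin : (O \ {y | 1 + (dF O y : ℝ) < q}).Finite := hO.subset Set.sdiff_subset
    refine comparison hfin (u := v2) (v := fun _ => M * q ^ a) ?_ ?_ z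
    · intro y hy
      rw [lap_const]
      have e := hv2.eq y hy.1
      have e2 : φ2 y = 0 := if_neg (show ¬ (1 + (dF O y : ℝ) < q) from hy.2)
      linarith
    · intro y hy
      by_cases hyO : y ∈ O
      · have hyq : 1 + (dF O y : ℝ) < q := by
          by_contra hc
          exact hy ⟨hyO, hc⟩
        calc v2 y ≤ s y := by rw [hsum y]; linarith [hv1n y]
          _ ≤ M * (1 + (dF O y : ℝ)) ^ a := hsM y
          _ ≤ M * q ^ a := by
              apply mul_le_mul_of_nonneg_left _ hM0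
              exact Real.rpow_le_rpow (hpos y).le hyq.le ha0.le
      · rw [hv2.off y hyO]
        have := Real.rpow_pos_of_pos hq0 a
        positivity
  -- the inner part
  set O' : Set Pt := {y | y ∈ O ∧ dn p y < L} with hO'
  have hO'fin : O'.Finite := hO.subset (fun y hy => hy.1)
  obtain ⟨w, hw⟩ := exists_green hO'fin φ1
  have hqa : 0 < q ^ (a - 2) := Real.rpow_pos_of_pos hq0 _
  have hw1 : w z ≤ q ^ (a - 2) * ((L : ℝ) + 1) ^ 2 := by
    have hsc : IsGreen O' (fun y => (q ^ (a - 2))⁻¹ * φ1 y) (fun y => (q ^ (a - 2))⁻¹ * w y) :=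
      { off := fun y hy => by rw [hw.off y hy, mul_zero]
        eq := fun y hy => by
          rw [lap_smul]
          have := hw.eq y hy
          rw [← this]; ring }
    have := exit_le (p := p) (L := L) (fun y hy => hy.2.le) hsc
      (fun y _ => by
        rw [inv_mul_le_iff₀ hqa, mul_one]
        exact hφ1q y) z
    rwa [inv_mul_le_iff₀ hqa] at this
  have hw0 : ∀ y, 0 ≤ w y := green_nonneg hO'fin hw (fun y _ => hφ1n y)
  have hwv : ∀ y, w y ≤ v1 y := by
    apply comparison hO'fin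
    · intro y hy
      linarith [hw.eq y hy, hv1.eq y hy.1]
    · intro y hy
      rw [hw.off y hy]; exact hv1n y
  -- the outer part
  have h3 := hSD O p L (M * ((L : ℝ) + 1) ^ a) (fun y => v1 y - w y) (fun r _ => hCP p hpO r)
    (fun y hy => by
      have : y ∉ O' := fun h => hy h.1
      rw [hv1.off y hy, hw.off y this]; simp)
    (fun y hy hyL => by
      rw [lap_sub]
      linarith [hw.eq y ⟨hy, hyL⟩, hv1.eq y hy])
    (fun y hyL => by
      rw [abs_of_nonneg (by linarith [hwv y])]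
      calc v1 y - w y ≤ s y := by rw [hsum y]; linarith [hw0 y, hv2n y]
        _ ≤ M * (1 + (dF O y : ℝ)) ^ a := hsM y
        _ ≤ M * ((L : ℝ) + 1) ^ a := by
            apply mul_le_mul_of_nonneg_left _ hM0
            apply Real.rpow_le_rpow (hpos y).le _ ha0.le
            have : dF O y ≤ L := by
              have h := G45.dF_le (O := O) (x := y) hpO
              rw [dn_comm] at h
              exact h.trans hyL
            have : (dF O y : ℝ) ≤ L := by exact_mod_cast this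
            linarith)
    z hLz
  have h3' : v1 z - w z ≤ 1 / 4 * (M * (1 + (d : ℝ)) ^ a) := by
    refine (le_abs_self _).trans (h3.trans ?_)
    rw [hpz]
    have hd1 : (0 : ℝ) < (d : ℝ) + 1 := by positivity
    have hLp : (0 : ℝ) < (L : ℝ) + 1 := by positivity
    have e1 : 2 * (((d : ℝ) + 1) / ((L : ℝ) + 1)) ^ β * (M * ((L : ℝ) + 1) ^ a) =
        2 * (((d : ℝ) + 1) / ((L : ℝ) + 1)) ^ (β - a) * (M * (1 + (d : ℝ)) ^ a) := by
      have e2 : ((L : ℝ) + 1) ^ a = (1 + (d : ℝ)) ^ a * ((((d : ℝ) + 1) / ((L : ℝ) + 1)) ^ a)⁻¹ := by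
        rw [Real.div_rpow hd1.le hLp.le, inv_div, add_comm (1 : ℝ)]
        have := Real.rpow_pos_of_pos hd1 a
        field_simp
      have e3 : (((d : ℝ) + 1) / ((L : ℝ) + 1)) ^ β =
          (((d : ℝ) + 1) / ((L : ℝ) + 1)) ^ (β - a) * (((d : ℝ) + 1) / ((L : ℝ) + 1)) ^ a := by
        rw [← Real.rpow_add (by positivity)]
        congr 1; ring
      rw [e2, e3]
      have : (0 : ℝ) < (((d : ℝ) + 1) / ((L : ℝ) + 1)) ^ a := Real.rpow_pos_of_pos (by positivity) a
      field_simp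
    rw [e1]
    apply mul_le_mul_of_nonneg_right _ (by have := hpa z; positivity)
    refine le_trans ?_ hK
    apply mul_le_mul_of_nonneg_left _ (by norm_num)
    apply Real.rpow_le_rpow (by positivity) _ hba.le
    rw [div_le_div_iff₀ hLp hKpos]
    nlinarith
  -- conclusion
  have hX : 0 < (1 + (d : ℝ)) ^ a := hpa z
  have e4 : q ^ a = 1 / 4 * (1 + (d : ℝ)) ^ a := by
    rw [hq, Real.mul_rpow hδ0.le (by positivity), hδa]
  have e5 : q ^ (a - 2) * ((L : ℝ) + 1) ^ 2 ≤ D0 * (1 + (d : ℝ)) ^ a := by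
    have h1 : ((L : ℝ) + 1) ^ 2 ≤ (((K : ℝ) + 1) * (1 + (d : ℝ))) ^ 2 := by gcongr
    have h2 : q ^ (a - 2) = δ ^ (a - 2) * (1 + (d : ℝ)) ^ (a - 2) := by
      rw [hq, Real.mul_rpow hδ0.le (by positivity)]
    have h3 : (1 + (d : ℝ)) ^ (a - 2) * (1 + (d : ℝ)) ^ 2 = (1 + (d : ℝ)) ^ a := by
      rw [← Real.rpow_natCast, ← Real.rpow_add (by positivity)]
      congr 1; push_cast; ring
    calc q ^ (a - 2) * ((L : ℝ) + 1) ^ 2 ≤ q ^ (a - 2) * (((K : ℝ) + 1) * (1 + (d : ℝ))) ^ 2 :=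
          mul_le_mul_of_nonneg_left h1 hqa.le
      _ = δ ^ (a - 2) * ((K : ℝ) + 1) ^ 2 * ((1 + (d : ℝ)) ^ (a - 2) * (1 + (d : ℝ)) ^ 2) := by
          rw [h2]; ring
      _ = D0 * (1 + (d : ℝ)) ^ a := by rw [h3]
  have htot : M * (1 + (d : ℝ)) ^ a ≤ (D0 + M / 2) * (1 + (d : ℝ)) ^ a := by
    calc M * (1 + (d : ℝ)) ^ a = s z := hsz.symm
      _ = w z + (v1 z - w z) + v2 z := by rw [hsum z]; ring
      _ ≤ D0 * (1 + (d : ℝ)) ^ a + 1 / 4 * (M * (1 + (d : ℝ)) ^ a) +
          M * (1 / 4 * (1 + (d : ℝ)) ^ a) := by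
          rw [e4] at h2
          linarith
      _ = (D0 + M / 2) * (1 + (d : ℝ)) ^ a := by ring
  have := le_of_mul_le_mul_right htot hX
  linarith

/-! ### sums over ordered pairs of neighbours -/

/-- sum over the ordered pairs of adjacent points of a finite set -/
noncomputable def pS (S : Finset Pt) (F : Pt → Pt → ℝ) : ℝ :=
  ∑ x ∈ S, ∑ y ∈ S.filter (fun y => Adj x y), F x y

theorem adj_symm' {x y : Pt} (h : Adj x y) : Adj y x := by
  unfold Adj at *
  rw [abs_sub_comm y.1, abs_sub_comm y.2]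
  exact h

theorem pS_comm (S : Finset Pt) (F : Pt → Pt → ℝ) : pS S F = pS S (fun x y => F y x) := by
  unfold pS
  apply sum_comm'
  intro x y
  simp only [mem_filter]
  constructor
  · rintro ⟨h1, h2, h3⟩; exact ⟨⟨h1, adj_symm' h3⟩, h2⟩
  · rintro ⟨⟨h1, h3⟩, h2⟩; exact ⟨h1, h2, adj_symm' h3⟩

theorem pS_add (S : Finset Pt) (F G : Pt → Pt → ℝ) :
    pS S (fun x y => F x y + G x y) = pS S F + pS S G := by
  unfold pS
  rw [← sum_add_distrib]
  exact sum_congr rfl fun x _ => sum_add_distrib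

theorem pS_smul (S : Finset Pt) (c : ℝ) (F : Pt → Pt → ℝ) :
    pS S (fun x y => c * F x y) = c * pS S F := by
  unfold pS
  rw [mul_sum]
  exact sum_congr rfl fun x _ => (mul_sum _ _ _).symm

theorem pS_mono {S : Finset Pt} {F G : Pt → Pt → ℝ}
    (h : ∀ x ∈ S, ∀ y ∈ S, Adj x y → F x y ≤ G x y) : pS S F ≤ pS S G := by
  unfold pS
  refine sum_le_sum fun x hx => sum_le_sum fun y hy => ?_
  obtain ⟨h1, h2⟩ := mem_filter.1 hy
  exact h x hx y h1 h2

theorem pS_nonneg {S : Finset Pt} {F : Pt → Pt → ℝ}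
    (h : ∀ x ∈ S, ∀ y ∈ S, Adj x y → 0 ≤ F x y) : 0 ≤ pS S F := by
  unfold pS
  refine sum_nonneg fun x hx => sum_nonneg fun y hy => ?_
  obtain ⟨h1, h2⟩ := mem_filter.1 hy
  exact h x hx y h1 h2

theorem card_adj_le (S : Finset Pt) (x : Pt) : (S.filter (fun y => Adj x y)).card ≤ 4 := by
  calc (S.filter (fun y => Adj x y)).card ≤ (nbrs x).card := by
        apply card_le_card
        intro y hy
        exact mem_nbrs.2 (mem_filter.1 hy).2
    _ ≤ 4 := by
        unfold nbrs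
        exact card_le_four

theorem pS_fst_le {S : Finset Pt} {g : Pt → ℝ} (hg : ∀ x ∈ S, 0 ≤ g x) :
    pS S (fun x _ => g x) ≤ 4 * ∑ x ∈ S, g x := by
  unfold pS
  rw [mul_sum]
  refine sum_le_sum fun x hx => ?_
  rw [sum_const, nsmul_eq_mul]
  apply mul_le_mul_of_nonneg_right _ (hg x hx)
  exact_mod_cast card_adj_le S x

theorem lap_eq_pS {S : Finset Pt} {u : Pt → ℝ} (hu : ∀ x, x ∉ S → u x = 0) (x : Pt) :
    lap u x = ∑ y ∈ S.filter (fun y => Adj x y), u y - 4 * u x := by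
  have h1 : ∑ y ∈ S.filter (fun y => Adj x y), u y = ∑ y ∈ nbrs x, u y := by
    apply sum_subset
    · intro y hy
      exact mem_nbrs.2 (mem_filter.1 hy).2
    · intro y hy hy'
      apply hu
      intro hyS
      exact hy' (mem_filter.2 ⟨hyS, mem_nbrs.1 hy⟩)
  rw [h1]
  unfold nbrs lap
  rw [sum_insert, sum_insert, sum_insert, sum_singleton]
  · ring
  · simp only [mem_singleton, Prod.mk.injEq, not_and]
    intro _; omega
  · simp only [mem_insert, mem_singleton, Prod.mk.injEq, not_or, not_and]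
    refine ⟨fun h => ?_, fun h => ?_⟩ <;> omega
  · simp only [mem_insert, mem_singleton, Prod.mk.injEq, not_or, not_and]
    refine ⟨fun h => ?_, fun h => ?_, fun h => ?_⟩ <;> omega

/-- the Dirichlet form of a function vanishing off `S` -/
theorem form_eq {S : Finset Pt} {u g : Pt → ℝ} (hu : ∀ x, x ∉ S → u x = 0) :
    ∑ x ∈ S, g x * (- lap u x) = ∑ x ∈ S, 4 * (g x * u x) - pS S (fun x y => g x * u y) := by
  unfold pS
  rw [← sum_sub_distrib]
  refine sum_congr rfl fun x _ => ?_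
  rw [lap_eq_pS hu x, ← mul_sum]
  ring

/-- ground state inequality -/
theorem ground {S : Finset Pt} {s v : Pt → ℝ} (hs : ∀ x, x ∉ S → s x = 0)
    (hs0 : ∀ x ∈ S, 0 < s x) (hv : ∀ x, x ∉ S → v x = 0) :
    ∑ x ∈ S, v x ^ 2 / s x * (- lap s x) ≤ ∑ x ∈ S, v x * (- lap v x) := by
  rw [form_eq hs, form_eq hv]
  have e1 : ∑ x ∈ S, 4 * (v x ^ 2 / s x * s x) = ∑ x ∈ S, 4 * (v x * v x) := by
    refine sum_congr rfl fun x hx => ?_
    rw [div_mul_cancel₀ _ (hs0 x hx).ne']; ring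
  rw [e1]
  have e2 : pS S (fun x y => v x * v y) ≤ pS S (fun x y => v x ^ 2 / s x * s y) := by
    have h1 := pS_comm S (fun x y => v x ^ 2 / s x * s y)
    have h2 : 2 * pS S (fun x y => v x * v y) ≤
        pS S (fun x y => v x ^ 2 / s x * s y) + pS S (fun x y => v y ^ 2 / s y * s x) := by
      rw [← pS_smul, ← pS_add]
      apply pS_mono
      intro x hx y hy _
      have hx0 := hs0 x hx
      have hy0 := hs0 y hy
      have : v x ^ 2 / s x * s y + v y ^ 2 / s y * s x - 2 * (v x * v y) =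
          (v x * s y - v y * s x) ^ 2 / (s x * s y) := by
        field_simp
        ring
      have h3 : 0 ≤ (v x * s y - v y * s x) ^ 2 / (s x * s y) := by positivity
      linarith
    linarith
  linarith

/-- **Hardy's inequality** -/
theorem hardy : ∃ D : ℝ, 0 < D ∧ ∀ (O : Set Pt) (hO : O.Finite), CPr O → ∀ v : Pt → ℝ,
    (∀ x, x ∉ O → v x = 0) →
    ∑ x ∈ hO.toFinset, v x ^ 2 / (1 + (dF O x : ℝ)) ^ 2 ≤
      D * ∑ x ∈ hO.toFinset, v x * (- lap v x) := by
  obtain ⟨a, D, ha, ha1, hD, h⟩ := hardy_super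
  refine ⟨D, hD, ?_⟩
  intro O hO hCP v hv
  obtain ⟨s, hs⟩ := exists_green hO (fun x => (1 + (dF O x : ℝ)) ^ (a - 2))
  have hsD := h O hO hCP s hs
  have hpos : ∀ y : Pt, (0 : ℝ) < 1 + (dF O y : ℝ) := fun y => by positivity
  have hφ : ∀ y : Pt, 0 < (1 + (dF O y : ℝ)) ^ (a - 2) := fun y => Real.rpow_pos_of_pos (hpos y) _
  have hs0 : ∀ y, 0 ≤ s y := green_nonneg hO hs (fun y _ => (hφ y).le)
  have hsp : ∀ x ∈ hO.toFinset, 0 < s x := by
    intro x hx
    have hxO : x ∈ O := by simpa using hx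
    have h1 := hs.eq x hxO
    have h2 := hφ x
    unfold lap at h1
    linarith [hs0 (x.1 + 1, x.2), hs0 (x.1 - 1, x.2), hs0 (x.1, x.2 + 1), hs0 (x.1, x.2 - 1)]
  have hg := ground (S := hO.toFinset) (s := s) (v := v)
    (fun x hx => hs.off x (by simpa using hx)) hsp (fun x hx => hv x (by simpa using hx))
  refine le_trans ?_ (mul_le_mul_of_nonneg_left hg hD.le)
  rw [mul_sum]
  refine sum_le_sum fun x hx => ?_
  have hxO : x ∈ O := by simpa using hx
  rw [hs.eq x hxO]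
  have h1 := hsD x
  have h2 := hsp x hx
  have h3 : (1 + (dF O x : ℝ)) ^ (a - 2) * (1 + (dF O x : ℝ)) ^ 2 = (1 + (dF O x : ℝ)) ^ a := by
    rw [← Real.rpow_natCast, ← Real.rpow_add (hpos x)]
    congr 1; push_cast; ring
  rw [div_le_iff₀ (by have := hpos x; positivity)]
  have e : D * (v x ^ 2 / s x * (1 + (dF O x : ℝ)) ^ (a - 2)) * (1 + (dF O x : ℝ)) ^ 2 =
      v x ^ 2 * ((D * (1 + (dF O x : ℝ)) ^ a) / s x) := by
    rw [← h3]; ring
  rw [e]
  have h4 : 1 ≤ (D * (1 + (dF O x : ℝ)) ^ a) / s x := by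
    rw [one_le_div h2]; exact h1
  nlinarith [sq_nonneg (v x)]

end Vale.Agent.P155.H904
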