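import Vale.Agent.P155.H904.LFinal

/-!
# P155 block I: application to `min (u_D, λ)`
-/

namespace Vale.Agent.P155.H904

open Vale.Agent.P155 Finset Skel

/-- small values of `R` -/
theorem small_R {R R0 : ℕ} {X B c : ℝ} (hR : 1 ≤ R) (hR0 : R ≤ R0) (hB : 0 ≤ B) (hc : 0 ≤ c)
    (h : X ≤ ((2 * (R : ℝ) + 3) ^ 2 * (8 * B * (2 * R + 5))) ^ 2) :
    X ≤ ((2 * (R0 : ℝ) + 3) ^ 2 * (8 * B * (2 * R0 + 5))) ^ 2 * (R0 : ℝ) ^ c * (R : ℝ) ^ (-c) := by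
  have hRR : (R : ℝ) ≤ R0 := by exact_mod_cast hR0
  have hR1 : (1 : ℝ) ≤ R := by exact_mod_cast hR
  have hpos : (0 : ℝ) < R := by linarith
  have h1 : 1 ≤ (R0 : ℝ) ^ c * (R : ℝ) ^ (-c) := by
    rw [Real.rpow_neg hpos.le, ← div_eq_mul_inv, ← Real.div_rpow (by linarith) hpos.le]
    apply Real.one_le_rpow _ hc
    rw [le_div_iff₀ hpos]
    linarith
  calc X ≤ _ := h
    _ ≤ ((2 * (R0 : ℝ) + 3) ^ 2 * (8 * B * (2 * R0 + 5))) ^ 2 := by gcongr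
    _ ≤ ((2 * (R0 : ℝ) + 3) ^ 2 * (8 * B * (2 * R0 + 5))) ^ 2 *
        ((R0 : ℝ) ^ c * (R : ℝ) ^ (-c)) := le_mul_of_one_le_right (by positivity) h1
    _ = _ := by ring

theorem min_sq_le (a b l : ℝ) : (min a l - min b l) ^ 2 ≤ (min a l - min b l) * (a - b) := by
  rcases min_cases a l with ⟨h1, h2⟩ | ⟨h1, h2⟩ <;> rcases min_cases b l with ⟨h3, h4⟩ | ⟨h3, h4⟩ <;>
    rw [h1, h3] <;> nlinarith

theorem sum_le_card {T : Temp} {R : ℕ} (hT : FGeo T R) (hR : 1 ≤ R) {C0 : ℝ} (hC0 : 0 ≤ C0)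
    {Φ : Pt → ℝ} (hΦ : ∀ y, Φ y ≤ C0 / (R : ℝ) ^ 2) :
    ∑ x ∈ hT.fin.toFinset, Φ x ≤ 9 * C0 := by
  have hR1 : (1 : ℝ) ≤ R := by exact_mod_cast hR
  have h1 : hT.fin.toFinset ⊆ box (0, 0) R := by
    intro x hx
    rw [G45.mem_box]
    exact hT.box x (by simpa using hx)
  have h2 : (hT.fin.toFinset.card : ℝ) ≤ (2 * (R : ℝ) + 1) ^ 2 := by
    have := card_le_card h1
    rw [G45.card_box] at this
    exact_mod_cast this
  calc ∑ x ∈ hT.fin.toFinset, Φ x ≤ ∑ x ∈ hT.fin.toFinset, C0 / (R : ℝ) ^ 2 :=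
        sum_le_sum (fun x _ => hΦ x)
    _ = (hT.fin.toFinset.card : ℝ) * (C0 / (R : ℝ) ^ 2) := by rw [sum_const, nsmul_eq_mul]
    _ ≤ (2 * (R : ℝ) + 1) ^ 2 * (C0 / (R : ℝ) ^ 2) := by gcongr
    _ ≤ 9 * C0 := by
      rw [mul_div_assoc', div_le_iff₀ (by positivity)]
      have h3 : (2 * (R : ℝ) + 1) ^ 2 ≤ 9 * (R : ℝ) ^ 2 := by nlinarith
      have := mul_le_mul_of_nonneg_right h3 hC0
      linarith

/-- energy of the truncated potential -/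
theorem energy_min {T : Temp} {R : ℕ} (hT : FGeo T R) (hR : 1 ≤ R) {C0 : ℝ} (hC0 : 0 ≤ C0)
    {Φ U : Pt → ℝ} (hΦ : ∀ y, 0 ≤ Φ y ∧ Φ y ≤ C0 / (R : ℝ) ^ 2) (hU : IsGreen T.faceSet Φ U)
    {lam : ℝ} (hlam : 0 ≤ lam) :
    ∑ f ∈ box (0, 0) (R + 1), ga (fun y => min (U y) lam) f ^ 2 ≤ 18 * C0 * lam := by
  set ψ : Pt → ℝ := fun y => min (U y) lam with hψ
  have hψ0 : ∀ y, y ∉ T.faceSet → ψ y = 0 := by
    intro y hy
    simp only [hψ, hU.off y hy]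
    exact min_eq_left hlam
  have hFS : J.FS ψ := hT.fin.subset (fun y hy => by
    by_contra hc
    exact hy (hψ0 y hc))
  have hzero : ∀ f, f ∉ box (0, 0) (R + 1) → pX ψ f = 0 ∧ pY ψ f = 0 := by
    intro f hf
    rw [G45.mem_box] at hf
    have key : ∀ x, dn x f ≤ 1 → ψ x = 0 := by
      intro x hx
      apply hψ0
      intro hxf
      have := hT.box x hxf
      have := dn_tri (0, 0) x f
      omega
    have k0 := key f (by rw [dn_self]; omega)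
    have k1 := key (f.1 - 1, f.2) (by rw [dn_le_iff]; simp)
    have k2 := key (f.1, f.2 - 1) (by rw [dn_le_iff]; simp)
    simp [pX, pY, k0, k1, k2]
  have e1 : ∑ᶠ x : Pt, (pX ψ x * (U x - U (x.1 - 1, x.2)) + pY ψ x * (U x - U (x.1, x.2 - 1))) =
      ∑ᶠ x, ψ x * Φ x := by
    have h1 := sbp hFS U
    rw [J.finsum_lap hFS U] at h1
    have h2 : ∑ᶠ x, ψ x * lap U x = - ∑ᶠ x, ψ x * Φ x := by
      rw [← finsum_neg_distrib]
      apply finsum_congr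
      intro x
      by_cases hx : x ∈ T.faceSet
      · have := hU.eq x hx
        rw [← this]; ring
      · rw [hψ0 x hx]; ring
    linarith
  have e2 : ∑ᶠ x : Pt, (pX ψ x * (U x - U (x.1 - 1, x.2)) + pY ψ x * (U x - U (x.1, x.2 - 1))) =
      ∑ x ∈ box (0, 0) (R + 1),
        (pX ψ x * (U x - U (x.1 - 1, x.2)) + pY ψ x * (U x - U (x.1, x.2 - 1))) := by
    apply finsum_eq_sum_of_support_subset
    intro x hx
    by_contra hc
    obtain ⟨h1, h2⟩ := hzero x hc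
    apply hx
    simp [h1, h2]
  have e3 : ∑ᶠ x, ψ x * Φ x ≤ lam * (9 * C0) := by
    have h1 : ∑ᶠ x, ψ x * Φ x = ∑ x ∈ hT.fin.toFinset, ψ x * Φ x := by
      apply finsum_eq_sum_of_support_subset
      intro x hx
      by_contra hc
      apply hx
      simp [hψ0 x (by simpa using hc)]
    rw [h1]
    calc ∑ x ∈ hT.fin.toFinset, ψ x * Φ x ≤ ∑ x ∈ hT.fin.toFinset, lam * Φ x :=
          sum_le_sum (fun x _ => mul_le_mul_of_nonneg_right (min_le_right _ _) (hΦ x).1)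
      _ = lam * ∑ x ∈ hT.fin.toFinset, Φ x := by rw [mul_sum]
      _ ≤ lam * (9 * C0) := mul_le_mul_of_nonneg_left
          (sum_le_card hT hR hC0 (fun y => (hΦ y).2)) hlam
  calc ∑ f ∈ box (0, 0) (R + 1), ga ψ f ^ 2 ≤ ∑ x ∈ box (0, 0) (R + 1), 2 *
        (pX ψ x * (U x - U (x.1 - 1, x.2)) + pY ψ x * (U x - U (x.1, x.2 - 1))) := by
        apply sum_le_sum
        intro x _
        have a1 : pX ψ x ^ 2 ≤ pX ψ x * (U x - U (x.1 - 1, x.2)) := min_sq_le _ _ _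
        have a2 : pY ψ x ^ 2 ≤ pY ψ x * (U x - U (x.1, x.2 - 1)) := min_sq_le _ _ _
        have a3 : ga ψ x ^ 2 ≤ 2 * (pX ψ x ^ 2 + pY ψ x ^ 2) := by
          unfold ga
          nlinarith [sq_abs (pX ψ x), sq_abs (pY ψ x), sq_nonneg (|pX ψ x| - |pY ψ x|)]
        linarith
    _ = 2 * ∑ᶠ x, ψ x * Φ x := by rw [← mul_sum, ← e2, e1]
    _ ≤ 18 * C0 * lam := by linarith

/-- the deep part, by Cauchy-Schwarz -/
theorem deep_le {T : Temp} {R : ℕ} {ψ : Pt → ℝ} {Q : ℝ} {r : ℕ} (hr : 1 ≤ r) (hQ0 : 0 ≤ Q)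
    (hQ : ∑ f ∈ box (0, 0) (R + 1), ga ψ f ^ 2 ≤ Q ^ 2) :
    ∑ f ∈ (box (0, 0) (R + 1)).filter (fun f => r < dF T.faceSet f), ga ψ f / dD T f ≤
      (2 * (R : ℝ) + 3) * Q / r := by
  have hr' : (0 : ℝ) < r := by exact_mod_cast hr
  have h1 : (∑ f ∈ box (0, 0) (R + 1), ga ψ f) ^ 2 ≤ ((2 * (R : ℝ) + 3) * Q) ^ 2 := by
    have h := sq_sum_le_card_mul_sum_sq (s := box (0, 0) (R + 1)) (f := fun f => ga ψ f)
    refine h.trans ?_
    rw [G45.card_box, mul_pow]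
    push_cast
    have h3 : (2 * ((R : ℝ) + 1) + 1) ^ 2 = (2 * (R : ℝ) + 3) ^ 2 := by ring
    rw [h3]
    exact mul_le_mul_of_nonneg_left hQ (sq_nonneg _)
  have h2 : ∑ f ∈ box (0, 0) (R + 1), ga ψ f ≤ (2 * (R : ℝ) + 3) * Q := by
    exact (sq_le_sq₀ (sum_nonneg (fun f _ => ga_nonneg ψ f)) (by positivity)).1 h1
  calc ∑ f ∈ (box (0, 0) (R + 1)).filter (fun f => r < dF T.faceSet f), ga ψ f / dD T f
      ≤ ∑ f ∈ (box (0, 0) (R + 1)).filter (fun f => r < dF T.faceSet f), ga ψ f / r := by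
        apply sum_le_sum
        intro f hf
        apply div_le_div_of_nonneg_left (ga_nonneg ψ f) hr'
        have := (mem_filter.1 hf).2
        have h3 : (r : ℝ) ≤ dF T.faceSet f := by exact_mod_cast this.le
        unfold dD
        linarith
    _ ≤ ∑ f ∈ box (0, 0) (R + 1), ga ψ f / r :=
        sum_le_sum_of_subset_of_nonneg (filter_subset _ _)
          (fun f _ _ => div_nonneg (ga_nonneg ψ f) hr'.le)
    _ = (∑ f ∈ box (0, 0) (R + 1), ga ψ f) / r := by rw [sum_div]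
    _ ≤ _ := div_le_div_of_nonneg_right h2 hr'.le

theorem zone {T : Temp} (hne : ∃ y, y ∉ T.faceSet) {R : ℕ} {C0 : ℝ} (hC0 : 0 ≤ C0) {Φ : Pt → ℝ}
    (hΦ : ∀ y, Φ y ≠ 0 → (R : ℝ) ≤ C0 * dF T.faceSet y) {f : Pt}
    (hf : 2 * C0 * (dF T.faceSet f : ℝ) < R) (y : Pt) (hy : dn f y < dF T.faceSet f) :
    Φ y = 0 := by
  by_contra h
  have h1 := hΦ y h
  have h2 := dF_lip hne y f
  rw [dn_comm] at h2
  have h3 : (dF T.faceSet y : ℝ) ≤ 2 * dF T.faceSet f := by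
    exact_mod_cast (by omega : dF T.faceSet y ≤ 2 * dF T.faceSet f)
  have h4 := mul_le_mul_of_nonneg_left h3 hC0
  linarith

end Vale.Agent.P155.H904
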