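import Vale.Agent.P155.H904.Params

/-!
# P155 block I: the variance bound with all parameters chosen
-/

namespace Vale.Agent.P155.H904

open Vale.Agent.P155 Finset Skel

theorem alg_final {M K1 L q g0 X Y c2 : ℝ} (hM : 0 ≤ M) (hK1 : 0 ≤ K1) (hL : 1 ≤ L)
    (hq : 0 ≤ q) (hX : X ≤ q) (hX0 : 0 ≤ X) (hY : Y ≤ q) (hY0 : 0 ≤ Y) (hg : 0 ≤ g0)
    (hc : c2 ≤ 2 * g0 * Y * L) :
    M * (L * (K1 * X) + (K1 * L) * (K1 * L * X) + (K1 * L) * (K1 * X) + (K1 * L) ^ 2 * c2) ≤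
      M * (K1 + 2 * K1 ^ 2 + 2 * K1 ^ 2 * g0) * L ^ 3 * q := by
  have hL0 : 0 ≤ L := by linarith
  have hL2 : 1 ≤ L ^ 2 := one_le_pow₀ hL
  have hLL : L ≤ L ^ 3 := by nlinarith
  have hLL2 : L ^ 2 ≤ L ^ 3 := by nlinarith
  have e1 : L * (K1 * X) ≤ K1 * (L ^ 3 * q) := by
    have : L * X ≤ L ^ 3 * q := mul_le_mul hLL hX hX0 (by positivity)
    nlinarith
  have e2 : (K1 * L) * (K1 * L * X) ≤ K1 ^ 2 * (L ^ 3 * q) := by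
    have : L ^ 2 * X ≤ L ^ 3 * q := mul_le_mul hLL2 hX hX0 (by positivity)
    have := mul_le_mul_of_nonneg_left this (sq_nonneg K1)
    nlinarith
  have e3 : (K1 * L) * (K1 * X) ≤ K1 ^ 2 * (L ^ 3 * q) := by
    have : L * X ≤ L ^ 3 * q := mul_le_mul hLL hX hX0 (by positivity)
    have := mul_le_mul_of_nonneg_left this (sq_nonneg K1)
    nlinarith
  have e4 : (K1 * L) ^ 2 * c2 ≤ 2 * K1 ^ 2 * g0 * (L ^ 3 * q) := by
    have h1 : (K1 * L) ^ 2 * c2 ≤ (K1 * L) ^ 2 * (2 * g0 * Y * L) :=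
      mul_le_mul_of_nonneg_left hc (sq_nonneg _)
    have h2 : L ^ 3 * Y ≤ L ^ 3 * q := mul_le_mul_of_nonneg_left hY (by positivity)
    have h3 := mul_le_mul_of_nonneg_left h2 (by positivity : 0 ≤ 2 * K1 ^ 2 * g0)
    nlinarith
  calc _ ≤ M * (K1 * (L ^ 3 * q) + K1 ^ 2 * (L ^ 3 * q) + K1 ^ 2 * (L ^ 3 * q) +
        2 * K1 ^ 2 * g0 * (L ^ 3 * q)) := by
        apply mul_le_mul_of_nonneg_left _ hM
        linarith
    _ = _ := by ring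

open Classical in
theorem layer_final (h1 : A_one) (h2 : A_two) (hp : B_plane) (hd : B_dom) {β Cd : ℝ}
    (hdec : G45.SupDecay Cd β) (hβ : 0 < β) (hCd : 0 ≤ Cd) {θ c1 : ℝ} (hθ : 0 < θ)
    (hθ1 : θ ≤ 1 / 8) (hc1 : 0 < c1) (K1 : ℝ) (hK1 : 0 ≤ K1) :
    ∃ C : ℝ, 0 ≤ C ∧ ∀ (T : Temp) (R : ℕ) (ψ : Pt → ℝ), 1 ≤ R →
      (KM T.V).det ≠ 0 → Sub T T.V → Fits T R → (∀ f, f ∉ T.faceSet → ψ f = 0) →
      2 * (pr θ R + 2) + 1 ≤ pL θ R →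
      ∑ f ∈ box (0, 0) (R + 1), ga ψ f ^ 2 ≤ K1 * (R : ℝ) ^ (-c1) →
      ∑ f ∈ box (0, 0) (R + 1), ga ψ f / dD T f ≤ K1 * Lg R →
      (∀ p, p ∉ T.faceSet → ∑ f ∈ (box (0, 0) (R + 1)).filter (fun f => dn p f ≤ 3 * pρ θ R),
        ga ψ f / dD T f ≤ K1 * Lg R * (R : ℝ) ^ (-c1)) →
      ∑ f ∈ (box (0, 0) (R + 1)).filter (fun f => pr θ R < dF T.faceSet f), ga ψ f / dD T f ≤
        K1 * (R : ℝ) ^ (-c1) →
      Ex T.V (fun ω => (hf ω (lap ψ)) ^ 2) ≤ C * (R : ℝ) ^ (-(min c1 (θ * β) / 2)) := by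
  obtain ⟨M, hM, hvar⟩ := var_main h1 h2 hp hd hdec hβ hCd
  set c := min c1 (θ * β) / 2 with hc
  have hcpos : 0 < c := by
    have : 0 < min c1 (θ * β) := lt_min hc1 (by positivity)
    linarith
  obtain ⟨KL, hKL, hLg⟩ := Lg_le (ε := c / 3) (by positivity)
  refine ⟨M * (K1 + 2 * K1 ^ 2 + 2 * K1 ^ 2 * (12 : ℝ) ^ β) * KL ^ 3, by positivity, ?_⟩
  intro T R ψ hR hdet hsub hFits hψ hL hQ hA hloc hdeep
  have hR' : (1 : ℝ) ≤ R := by exact_mod_cast hR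
  have hRpos : (0 : ℝ) < R := by linarith
  have key := hvar T R ψ (pr θ R) (pL θ R) (pd θ R) (pρ θ R) _ _ _ _ hdet hsub hFits hψ hL
    (by unfold pd; exact le_rfl) (by unfold pρ; exact le_rfl) hQ hA hloc hdeep
  have hg := gain_le hθ hθ1 hβ hR
  have hLg1 : (1 : ℝ) ≤ Lg R := by linarith [two_le_Lg R]
  have hX : (R : ℝ) ^ (-c1) ≤ (R : ℝ) ^ (-(2 * c)) := by
    apply Real.rpow_le_rpow_of_exponent_le hR'
    have : min c1 (θ * β) ≤ c1 := min_le_left _ _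
    linarith
  have hY : (R : ℝ) ^ (-(θ * β)) ≤ (R : ℝ) ^ (-(2 * c)) := by
    apply Real.rpow_le_rpow_of_exponent_le hR'
    have : min c1 (θ * β) ≤ θ * β := min_le_right _ _
    linarith
  have h3 := alg_final (M := M) (K1 := K1) (L := Lg R) (q := (R : ℝ) ^ (-(2 * c)))
    (g0 := (12 : ℝ) ^ β) (X := (R : ℝ) ^ (-c1)) (Y := (R : ℝ) ^ (-(θ * β))) hM hK1 hLg1
    (by positivity) hX (by positivity) hY (by positivity) (by positivity) hg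
  refine (key.trans h3).trans ?_
  have h4 : Lg R ^ 3 ≤ KL ^ 3 * (R : ℝ) ^ c := by
    have := pow_le_pow_left₀ (by linarith) (hLg R hR) 3
    refine this.trans (le_of_eq ?_)
    rw [mul_pow, ← Real.rpow_natCast ((R : ℝ) ^ (c / 3)), ← Real.rpow_mul hRpos.le]
    congr 2
    push_cast
    ring
  calc M * (K1 + 2 * K1 ^ 2 + 2 * K1 ^ 2 * (12 : ℝ) ^ β) * Lg R ^ 3 * (R : ℝ) ^ (-(2 * c))
      ≤ M * (K1 + 2 * K1 ^ 2 + 2 * K1 ^ 2 * (12 : ℝ) ^ β) * (KL ^ 3 * (R : ℝ) ^ c) *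
        (R : ℝ) ^ (-(2 * c)) := by gcongr
    _ = M * (K1 + 2 * K1 ^ 2 + 2 * K1 ^ 2 * (12 : ℝ) ^ β) * KL ^ 3 *
        ((R : ℝ) ^ c * (R : ℝ) ^ (-(2 * c))) := by ring
    _ = M * (K1 + 2 * K1 ^ 2 + 2 * K1 ^ 2 * (12 : ℝ) ^ β) * KL ^ 3 * (R : ℝ) ^ (-c) := by
      rw [← Real.rpow_add hRpos]
      congr 2
      ring

end Vale.Agent.P155.H904
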