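import Vale.Agent.P155.H904.Sum

/-!
# P155 block I: the abstract variance bound
-/

namespace Vale.Agent.P155.H904

open Vale.Agent.P155 Finset Skel

/-- size of the gradient at a face -/
def ga (ψ : Pt → ℝ) (f : Pt) : ℝ := |pX ψ f| + |pY ψ f|

theorem ga_nonneg (ψ : Pt → ℝ) (f : Pt) : 0 ≤ ga ψ f := by unfold ga; positivity

/-- one plus the distance to the boundary -/
noncomputable def dD (T : Temp) (f : Pt) : ℝ := 1 + (dF T.faceSet f : ℝ)

theorem dD_pos (T : Temp) (f : Pt) : 0 < dD T f := by unfold dD; positivity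
theorem one_le_dD (T : Temp) (f : Pt) : 1 ≤ dD T f := by
  unfold dD
  have : (0 : ℝ) ≤ dF T.faceSet f := by positivity
  linarith

theorem schur {F : Finset Pt} {a : Pt → ℝ} {k : Pt → Pt → ℝ} (hk : ∀ x y, 0 ≤ k x y)
    (hs : ∀ x y, k x y = k y x) {H : ℝ} (hH : ∀ f ∈ F, ∑ f' ∈ F, k f f' ≤ H) :
    ∑ f ∈ F, ∑ f' ∈ F, a f * a f' * k f f' ≤ H * ∑ f ∈ F, a f ^ 2 := by
  have h1 : ∑ f ∈ F, ∑ f' ∈ F, a f * a f' * k f f' ≤
      ∑ f ∈ F, ∑ f' ∈ F, ((a f ^ 2 * k f f') / 2 + (a f' ^ 2 * k f' f) / 2) := by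
    apply sum_le_sum; intro f _
    apply sum_le_sum; intro f' _
    rw [hs f' f]
    nlinarith [mul_nonneg (sq_nonneg (a f - a f')) (hk f f')]
  refine h1.trans ?_
  simp only [sum_add_distrib]
  have h2 : ∑ f ∈ F, ∑ f' ∈ F, (a f' ^ 2 * k f' f) / 2 = ∑ f ∈ F, ∑ f' ∈ F, (a f ^ 2 * k f f') / 2 :=
    sum_comm
  rw [h2, ← sum_add_distrib]
  have h3 : ∀ f ∈ F, (∑ f' ∈ F, (a f ^ 2 * k f f') / 2) + (∑ f' ∈ F, (a f ^ 2 * k f f') / 2) =
      a f ^ 2 * ∑ f' ∈ F, k f f' := by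
    intro f _
    rw [mul_sum, ← sum_div]
    ring
  rw [sum_congr rfl h3, mul_sum]
  apply sum_le_sum
  intro f hf
  rw [mul_comm H]
  exact mul_le_mul_of_nonneg_left (hH f hf) (sq_nonneg _)

theorem sum_box_inv_sq (p : Pt) (N : ℕ) :
    ∑ x ∈ box p N, 1 / (1 + (dn p x : ℝ)) ^ 2 ≤ 8 * (1 + Real.log ((N : ℝ) + 1)) := by
  classical
  have hmap : ∀ x ∈ box p N, dn p x ∈ Finset.range (N + 1) := by
    intro x hx
    have := G45.mem_box.1 hx
    simp; omega
  rw [← Finset.sum_fiberwise_of_maps_to hmap]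
  have h1 : ∀ k ∈ Finset.range (N + 1),
      ∑ x ∈ (box p N).filter (fun x => dn p x = k), 1 / (1 + (dn p x : ℝ)) ^ 2 ≤
        8 * ((k : ℝ) + 1)⁻¹ := by
    intro k _
    have h2 : ∀ x ∈ (box p N).filter (fun x => dn p x = k),
        1 / (1 + (dn p x : ℝ)) ^ 2 = 1 / (1 + (k : ℝ)) ^ 2 := by
      intro x hx
      rw [(Finset.mem_filter.1 hx).2]
    rw [Finset.sum_congr rfl h2, Finset.sum_const, nsmul_eq_mul]
    have h3 : (((box p N).filter (fun x => dn p x = k)).card : ℝ) ≤ 8 * ((k : ℝ) + 1) := by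
      exact_mod_cast G45.card_shell p N k
    calc (((box p N).filter (fun x => dn p x = k)).card : ℝ) * (1 / (1 + (k : ℝ)) ^ 2)
        ≤ 8 * ((k : ℝ) + 1) * (1 / (1 + (k : ℝ)) ^ 2) := by gcongr
      _ = 8 * ((k : ℝ) + 1)⁻¹ := by field_simp; ring
  refine (Finset.sum_le_sum h1).trans ?_
  rw [← mul_sum]
  have := harm_le (N + 1)
  push_cast at this
  linarith

theorem sum_edges (F : Finset Pt) (ψ : Pt → ℝ) (g : Pt → ℝ) :
    ∑ e ∈ F ×ˢ (univ : Finset Bool), |eC ψ e| * g e.1 = ∑ f ∈ F, ga ψ f * g f := by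
  rw [sum_product]
  apply sum_congr rfl
  intro f _
  rw [Fintype.sum_bool, abs_eC, abs_eC]
  simp only [if_true, Bool.false_eq_true, if_false, ga]
  ring

theorem sum_edges_sq (F : Finset Pt) (ψ : Pt → ℝ) :
    ∑ e ∈ F ×ˢ (univ : Finset Bool), eC ψ e ^ 2 ≤ ∑ f ∈ F, ga ψ f ^ 2 := by
  rw [sum_product]
  apply sum_le_sum
  intro f _
  rw [Fintype.sum_bool, ← sq_abs (eC ψ (f, true)), ← sq_abs (eC ψ (f, false)), abs_eC, abs_eC]
  simp only [if_true, Bool.false_eq_true, if_false, ga]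
  nlinarith [abs_nonneg (pX ψ f), abs_nonneg (pY ψ f)]

theorem split_alg (a a' M N n p p' G : ℝ) (D D' : ℝ) (h : D ≠ 0) (h' : D' ≠ 0) :
    a * a' * (M * (N + (n + p + p' + G) * (1 / (D * D')))) =
      M * (a * a' * N + a / D * (a' / D') * n + a / D * (a' / D') * p +
        a / D * (a' / D') * p' + a / D * (a' / D') * G) := by
  field_simp
  ring

theorem fin_alg {M0 Q X P1 P2 P3 : ℝ} (hM : 0 ≤ M0) (hX : Q ≤ X) (_hX0 : 0 ≤ X) (h1 : 0 ≤ P1)
    (h2 : 0 ≤ P2) (h3 : 0 ≤ P3) :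
    2 * Q + 2 * (M0 * (8 * X + P1 + P2 + P2 + P3)) ≤ (2 + 16 * M0) * (X + P1 + P2 + P3) := by
  nlinarith [mul_nonneg hM h1, mul_nonneg hM h2, mul_nonneg hM h3]

open Classical in
/-- **The variance bound.** -/
theorem var_main (h1 : A_one) (h2 : A_two) (hp : B_plane) (hd : B_dom) {β Cd : ℝ}
    (hdec : G45.SupDecay Cd β) (hβ : 0 < β) (hCd : 0 ≤ Cd) :
    ∃ M : ℝ, 0 ≤ M ∧ ∀ (T : Temp) (R : ℕ) (ψ : Pt → ℝ) (r L d ρ : ℕ) (A Aloc Adeep Q : ℝ),
      (KM T.V).det ≠ 0 → Sub T T.V → Fits T R → (∀ f, f ∉ T.faceSet → ψ f = 0) →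
      2 * (r + 2) + 1 ≤ L → (r + 2) + 2 * L ≤ d → 6 * d + 22 ≤ ρ →
      ∑ f ∈ box (0, 0) (R + 1), ga ψ f ^ 2 ≤ Q →
      ∑ f ∈ box (0, 0) (R + 1), ga ψ f / dD T f ≤ A →
      (∀ p, p ∉ T.faceSet → ∑ f ∈ (box (0, 0) (R + 1)).filter (fun f => dn p f ≤ 3 * ρ),
        ga ψ f / dD T f ≤ Aloc) →
      ∑ f ∈ (box (0, 0) (R + 1)).filter (fun f => r < dF T.faceSet f), ga ψ f / dD T f ≤ Adeep →
      Ex T.V (fun ω => (hf ω (lap ψ)) ^ 2) ≤ M * ((2 + Real.log (R + 2)) * Q + A * Aloc +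
        A * Adeep + A ^ 2 * ((3 * ((r : ℝ) + 2) / ((L : ℝ) + 1)) ^ β * (2 + Real.log L))) := by
  obtain ⟨C, hC, hK⟩ := kbounds hp hd
  set M0 : ℝ := 36 * C ^ 2 + 480 * Cd * C ^ 2 with hM0
  have hM0' : 0 ≤ M0 := by positivity
  refine ⟨2 + 16 * M0, by positivity, ?_⟩
  intro T R ψ r L d ρ A Aloc Adeep Q hdet hsub hFits hψ hL hd' hρ hQ hA hloc hdeep
  obtain ⟨hKU, hKF, hK1⟩ := hK T
  have g := tgeo hdet
  have hne := faceSet_ne T g.fin
  set F := box (0, 0) (R + 1) with hF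
  have hmemF : ∀ f, f ∈ F ↔ dn (0, 0) f ≤ R + 1 := fun f => G45.mem_box
  have hfs : ∀ f, f ∈ T.faceSet → dn (0, 0) f ≤ R := fun f hf =>
    G45.mem_box.1 (by exact_mod_cast hFits hf)
  have hFS : J.FS ψ := by
    apply J.FS.of_box (x := (0, 0)) (r := R)
    intro y hy
    apply hψ
    intro hy'
    exact hy (by exact_mod_cast hFits hy')
  have hFsupp : ∀ f, f ∉ F → pX ψ f = 0 ∧ pY ψ f = 0 := by
    intro f hf
    rw [hmemF] at hf
    have key : ∀ x, dn x f ≤ 1 → ψ x = 0 := by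
      intro x hx
      apply hψ
      intro hxf
      have := hfs x hxf
      have := dn_tri (0, 0) x f
      omega
    have k0 := key f (by rw [dn_self]; omega)
    have k1 := key (f.1 - 1, f.2) (by rw [dn_le_iff]; simp)
    have k2 := key (f.1, f.2 - 1) (by rw [dn_le_iff]; simp)
    simp [pX, pY, k0, k1, k2]
  set G : ℝ := (3 * ((r : ℝ) + 2) / ((L : ℝ) + 1)) ^ β * (2 + Real.log L) with hG
  have hlog : 0 ≤ Real.log L := Real.log_nonneg (by exact_mod_cast (by omega : 1 ≤ L))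
  have hG0 : 0 ≤ G := by positivity
  set nr : Pt → Pt → ℝ := fun f f' =>
    if (dF T.faceSet f < dn f f' ∨ dF T.faceSet f' < dn f f') ∧ dn f f' ≤ ρ then 1 else 0 with hnr
  set dp : Pt → ℝ := fun f => if r < dF T.faceSet f then 1 else 0 with hdp
  have nr0 : ∀ f f', 0 ≤ nr f f' := fun f f' => by simp only [hnr]; split_ifs <;> norm_num
  have dp0 : ∀ f, 0 ≤ dp f := fun f => by simp only [hdp]; split_ifs <;> norm_num
  set W : Pt → Pt → ℝ := fun f f' => M0 * (1 / (1 + (dn f f' : ℝ)) ^ 2 +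
    (nr f f' + dp f + dp f' + G) * (1 / (dD T f * dD T f'))) with hW
  have hW0 : ∀ f f', 0 ≤ W f f' := by
    intro f f'
    simp only [hW]
    have e1 := dD_pos T f
    have e2 := dD_pos T f'
    have e3 := nr0 f f'
    have e4 := dp0 f
    have e5 := dp0 f'
    positivity
  set I := (F ×ˢ (univ : Finset Bool)).filter (fun e => eW e ∈ T.V ∧ eB e ∈ T.V) with hI
  -- pointwise bound
  have point : ∀ e ∈ I, ∀ e' ∈ I,
      |Kinv T.V (eB e) (eW e')| * |Kinv T.V (eB e') (eW e)| ≤ W e.1 e'.1 := by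
    intro e he e' he'
    have b1 := (mem_filter.1 he).2
    have b2 := (mem_filter.1 he').2
    have e1 := dD_pos T e.1
    have e2 := dD_pos T e'.1
    have e3 := nr0 e.1 e'.1
    have e4 := dp0 e.1
    have e5 := dp0 e'.1
    have hq : 0 ≤ 1 / (dD T e.1 * dD T e'.1) := by positivity
    have hsq : 0 ≤ 1 / (1 + (dn e.1 e'.1 : ℝ)) ^ 2 := by positivity
    have hC2 : 36 * C ^ 2 ≤ M0 := by
      have : 0 ≤ 480 * Cd * C ^ 2 := by positivity
      linarith
    have hC3 : 480 * Cd * C ^ 2 ≤ M0 := by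
      have : 0 ≤ 36 * C ^ 2 := by positivity
      linarith
    rcases two_factors g.fin hC hKU b1.1 b1.2 b2.1 b2.2 with h | ⟨hB, h⟩
    · refine h.trans ?_
      simp only [hW]
      have : 36 * C ^ 2 * (1 / (1 + (dn e.1 e'.1 : ℝ)) ^ 2) ≤
          M0 * (1 / (1 + (dn e.1 e'.1 : ℝ)) ^ 2) := mul_le_mul_of_nonneg_right hC2 hsq
      have h' : 0 ≤ M0 * ((nr e.1 e'.1 + dp e.1 + dp e'.1 + G) * (1 / (dD T e.1 * dD T e'.1))) := by
        positivity
      linarith
    · have hWge : ∀ t : ℝ, t ≤ nr e.1 e'.1 + dp e.1 + dp e'.1 + G →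
          M0 * (t * (1 / (dD T e.1 * dD T e'.1))) ≤ W e.1 e'.1 := by
        intro t ht
        simp only [hW]
        have h3 : t * (1 / (dD T e.1 * dD T e'.1)) ≤ (nr e.1 e'.1 + dp e.1 + dp e'.1 + G) *
            (1 / (dD T e.1 * dD T e'.1)) := mul_le_mul_of_nonneg_right ht hq
        apply mul_le_mul_of_nonneg_left _ hM0'
        linarith
      have hdef : (1 + (dF T.faceSet e.1 : ℝ)) * (1 + (dF T.faceSet e'.1 : ℝ)) =
          dD T e.1 * dD T e'.1 := rfl
      by_cases hcase : (dn e.1 e'.1 ≤ ρ) ∨ (r < dF T.faceSet e.1) ∨ (r < dF T.faceSet e'.1)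
      · have h1t : (1 : ℝ) ≤ nr e.1 e'.1 + dp e.1 + dp e'.1 + G := by
          rcases hcase with hc | hc | hc
          · have : nr e.1 e'.1 = 1 := by simp only [hnr]; rw [if_pos ⟨hB, hc⟩]
            linarith
          · have : dp e.1 = 1 := by simp only [hdp]; rw [if_pos hc]
            linarith
          · have : dp e'.1 = 1 := by simp only [hdp]; rw [if_pos hc]
            linarith
        refine le_trans ?_ (hWge 1 h1t)
        rw [hdef] at h
        refine h.trans ?_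
        rw [one_mul]
        exact mul_le_mul_of_nonneg_right hC2 hq
      · push Not at hcase
        obtain ⟨c1, c2, c3⟩ := hcase
        have hfar := two_factors_far g hC hKF hdec hβ hCd b1.1 b1.2 b2.1 b2.2 (r := r) (L := L)
          (d := d) c2 c3 hL hd' (by omega)
        refine le_trans ?_ (hWge G (by linarith))
        rw [hdef] at hfar
        refine hfar.trans ?_
        rw [← mul_assoc M0]
        apply mul_le_mul_of_nonneg_right _ hq
        exact mul_le_mul_of_nonneg_right hC3 hG0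
  have hv := var_le h1 h2 hsub hK1 hFS hFsupp
  refine hv.trans ?_
  -- the diagonal part
  have hdiag : ∑ e ∈ I, eC ψ e ^ 2 ≤ Q := by
    refine le_trans ?_ ((sum_edges_sq F ψ).trans hQ)
    exact sum_le_sum_of_subset_of_nonneg (filter_subset _ _) (fun _ _ _ => sq_nonneg _)
  -- the double sum
  have hdouble : ∑ e ∈ I, ∑ e' ∈ I, |eC ψ e| * |eC ψ e'| *
      (|Kinv T.V (eB e) (eW e')| * |Kinv T.V (eB e') (eW e)|) ≤
      ∑ f ∈ F, ∑ f' ∈ F, ga ψ f * ga ψ f' * W f f' := by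
    calc _ ≤ ∑ e ∈ I, ∑ e' ∈ I, |eC ψ e| * |eC ψ e'| * W e.1 e'.1 :=
          sum_le_sum (fun e he => sum_le_sum (fun e' he' =>
            mul_le_mul_of_nonneg_left (point e he e' he') (by positivity)))
      _ ≤ ∑ e ∈ F ×ˢ (univ : Finset Bool), ∑ e' ∈ F ×ˢ (univ : Finset Bool),
            |eC ψ e| * |eC ψ e'| * W e.1 e'.1 := by
          refine (sum_le_sum (fun e _ => sum_le_sum_of_subset_of_nonneg (filter_subset _ _)
            (fun e' _ _ => mul_nonneg (by positivity) (hW0 _ _)))).trans ?_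
          exact sum_le_sum_of_subset_of_nonneg (filter_subset _ _)
            (fun e _ _ => sum_nonneg (fun e' _ => mul_nonneg (by positivity) (hW0 _ _)))
      _ = ∑ e ∈ F ×ˢ (univ : Finset Bool), |eC ψ e| * ∑ f' ∈ F, ga ψ f' * W e.1 f' := by
          apply sum_congr rfl
          intro e _
          rw [← sum_edges F ψ (fun f' => W e.1 f'), mul_sum]
          apply sum_congr rfl
          intro e' _
          ring
      _ = ∑ f ∈ F, ga ψ f * ∑ f' ∈ F, ga ψ f' * W f f' :=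
          sum_edges F ψ (fun f => ∑ f' ∈ F, ga ψ f' * W f f')
      _ = _ := by
          apply sum_congr rfl
          intro f _
          rw [mul_sum]
          apply sum_congr rfl
          intro f' _
          ring
  set b : Pt → ℝ := fun f => ga ψ f / dD T f with hb
  have hb0 : ∀ f, 0 ≤ b f := fun f => div_nonneg (ga_nonneg ψ f) (dD_pos T f).le
  have hlogR : 0 ≤ Real.log ((R : ℝ) + 2) := Real.log_nonneg (by
    have : (0 : ℝ) ≤ R := by positivity
    linarith)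
  have hA0 : 0 ≤ A := le_trans (sum_nonneg (fun f _ => hb0 f)) hA
  have hQ0 : 0 ≤ Q := le_trans (sum_nonneg (fun f _ => sq_nonneg _)) hQ
  have hAd0 : 0 ≤ Adeep := le_trans (sum_nonneg (fun f _ => hb0 f)) hdeep
  have hAl0 : 0 ≤ Aloc := by
    obtain ⟨p, hp⟩ := hne
    exact le_trans (sum_nonneg (fun f _ => hb0 f)) (hloc p hp)
  have hsplit : ∑ f ∈ F, ∑ f' ∈ F, ga ψ f * ga ψ f' * W f f' =
      M0 * (∑ f ∈ F, ∑ f' ∈ F, ga ψ f * ga ψ f' * (1 / (1 + (dn f f' : ℝ)) ^ 2) +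
        ∑ f ∈ F, ∑ f' ∈ F, b f * b f' * nr f f' + ∑ f ∈ F, ∑ f' ∈ F, b f * b f' * dp f +
        ∑ f ∈ F, ∑ f' ∈ F, b f * b f' * dp f' + ∑ f ∈ F, ∑ f' ∈ F, b f * b f' * G) := by
    rw [← sum_add_distrib, ← sum_add_distrib, ← sum_add_distrib, ← sum_add_distrib, mul_sum]
    apply sum_congr rfl; intro f _
    rw [← sum_add_distrib, ← sum_add_distrib, ← sum_add_distrib, ← sum_add_distrib, mul_sum]
    apply sum_congr rfl; intro f' _
    simp only [hW, hb]
    exact split_alg _ _ _ _ _ _ _ _ _ _ (dD_pos T f).ne' (dD_pos T f').ne'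
  have t1 : ∑ f ∈ F, ∑ f' ∈ F, ga ψ f * ga ψ f' * (1 / (1 + (dn f f' : ℝ)) ^ 2) ≤
      8 * (2 + Real.log (R + 2)) * Q := by
    have hH : ∀ f ∈ F, ∑ f' ∈ F, 1 / (1 + (dn f f' : ℝ)) ^ 2 ≤ 8 * (2 + Real.log (R + 2)) := by
      intro f hf
      have hsubF : F ⊆ box f (2 * R + 2) := by
        intro f' hf'
        rw [G45.mem_box]
        rw [hmemF] at hf hf'
        have := dn_tri f (0, 0) f'
        rw [dn_comm f (0, 0)] at this
        omega
      refine (sum_le_sum_of_subset_of_nonneg hsubF (fun _ _ _ => by positivity)).trans ?_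
      refine (sum_box_inv_sq f (2 * R + 2)).trans ?_
      have h3 : Real.log (((2 * R + 2 : ℕ) : ℝ) + 1) ≤ 1 + Real.log ((R : ℝ) + 2) := by
        have h4 : ((2 * R + 2 : ℕ) : ℝ) + 1 ≤ Real.exp 1 * ((R : ℝ) + 2) := by
          have := Real.add_one_le_exp (1 : ℝ)
          push_cast
          have hR : (0 : ℝ) ≤ R := by positivity
          nlinarith
        calc _ ≤ Real.log (Real.exp 1 * ((R : ℝ) + 2)) := Real.log_le_log (by positivity) h4
          _ = 1 + Real.log ((R : ℝ) + 2) := by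
            rw [Real.log_mul (Real.exp_pos 1).ne' (by positivity), Real.log_exp]
      linarith
    refine (schur (a := ga ψ) (fun x y => by positivity) (fun x y => by rw [dn_comm]) hH).trans ?_
    apply mul_le_mul_of_nonneg_left hQ (by positivity)
  have t2 : ∑ f ∈ F, ∑ f' ∈ F, b f * b f' * nr f f' ≤ A * Aloc := by
    have : ∀ f ∈ F, ∑ f' ∈ F, b f * b f' * nr f f' ≤ b f * Aloc := by
      intro f _
      have h3 : ∑ f' ∈ F, b f * b f' * nr f f' = b f * ∑ f' ∈ F, b f' * nr f f' := by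
        rw [mul_sum]; apply sum_congr rfl; intro f' _; ring
      rw [h3]
      apply mul_le_mul_of_nonneg_left _ (hb0 f)
      by_cases hex : ∃ f' ∈ F, nr f f' ≠ 0
      · obtain ⟨f0, _, hf0⟩ := hex
        have hf0' : (dF T.faceSet f < dn f f0 ∨ dF T.faceSet f0 < dn f f0) ∧ dn f f0 ≤ ρ := by
          by_contra hc
          exact hf0 (by simp only [hnr]; rw [if_neg hc])
        obtain ⟨p, hp, hfp⟩ := exists_dF hne f
        have hlip := dF_lip hne f f0
        have hdf : dn f p ≤ 2 * ρ := by omega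
        refine le_trans ?_ (hloc p hp)
        rw [sum_filter]
        apply sum_le_sum
        intro f' _
        by_cases h4 : nr f f' = 0
        · rw [h4, mul_zero]
          split_ifs
          · exact hb0 f'
          · exact le_rfl
        · have h5 : (dF T.faceSet f < dn f f' ∨ dF T.faceSet f' < dn f f') ∧ dn f f' ≤ ρ := by
            by_contra hc
            exact h4 (by simp only [hnr]; rw [if_neg hc])
          have h6 : nr f f' = 1 := by simp only [hnr]; rw [if_pos h5]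
          have h7 := dn_tri p f f'
          rw [dn_comm p f] at h7
          rw [h6, mul_one, if_pos (by omega)]
      · push Not at hex
        rw [sum_eq_zero (fun f' hf' => by rw [hex f' hf', mul_zero])]
        exact hAl0
    refine (sum_le_sum this).trans ?_
    rw [← sum_mul]
    exact mul_le_mul_of_nonneg_right hA hAl0
  have hdpsum : ∑ f ∈ F, b f * dp f ≤ Adeep := by
    refine le_trans (le_of_eq ?_) hdeep
    rw [sum_filter]
    apply sum_congr rfl
    intro f _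
    simp only [hdp]
    split_ifs <;> simp [hb]
  have t3 : ∑ f ∈ F, ∑ f' ∈ F, b f * b f' * dp f ≤ A * Adeep := by
    have : ∑ f ∈ F, ∑ f' ∈ F, b f * b f' * dp f = (∑ f ∈ F, b f * dp f) * ∑ f' ∈ F, b f' := by
      rw [sum_mul_sum]
      apply sum_congr rfl; intro f _
      apply sum_congr rfl; intro f' _
      ring
    rw [this, mul_comm A]
    exact mul_le_mul hdpsum hA (sum_nonneg (fun f _ => hb0 f)) hAd0
  have t4 : ∑ f ∈ F, ∑ f' ∈ F, b f * b f' * dp f' ≤ A * Adeep := by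
    have : ∑ f ∈ F, ∑ f' ∈ F, b f * b f' * dp f' = (∑ f ∈ F, b f) * ∑ f' ∈ F, b f' * dp f' := by
      rw [sum_mul_sum]
      apply sum_congr rfl; intro f _
      apply sum_congr rfl; intro f' _
      ring
    rw [this]
    exact mul_le_mul hA hdpsum (sum_nonneg (fun f _ => mul_nonneg (hb0 f) (dp0 f))) hA0
  have t5 : ∑ f ∈ F, ∑ f' ∈ F, b f * b f' * G ≤ A ^ 2 * G := by
    have : ∑ f ∈ F, ∑ f' ∈ F, b f * b f' * G = (∑ f ∈ F, b f) * (∑ f' ∈ F, b f') * G := by
      rw [sum_mul_sum, sum_mul]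
      apply sum_congr rfl; intro f _
      rw [sum_mul]
    rw [this, sq]
    apply mul_le_mul_of_nonneg_right _ hG0
    exact mul_le_mul hA hA (sum_nonneg (fun f _ => hb0 f)) hA0
  have hall : ∑ f ∈ F, ∑ f' ∈ F, ga ψ f * ga ψ f' * W f f' ≤
      M0 * (8 * (2 + Real.log (R + 2)) * Q + A * Aloc + A * Adeep + A * Adeep + A ^ 2 * G) := by
    rw [hsplit]
    apply mul_le_mul_of_nonneg_left _ hM0'
    linarith only [t1, t2, t3, t4, t5]
  have p1 : 0 ≤ A * Aloc := mul_nonneg hA0 hAl0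
  have p2 : 0 ≤ A * Adeep := mul_nonneg hA0 hAd0
  have p3 : 0 ≤ A ^ 2 * G := by positivity
  have p4 : 0 ≤ (2 + Real.log ((R : ℝ) + 2)) * Q := by positivity
  have p5 : Q ≤ (2 + Real.log ((R : ℝ) + 2)) * Q :=
    le_mul_of_one_le_left hQ0 (by linarith only [hlogR])
  calc 2 * ∑ e ∈ I, eC ψ e ^ 2 + 2 * ∑ e ∈ I, ∑ e' ∈ I, |eC ψ e| * |eC ψ e'| *
        (|Kinv T.V (eB e) (eW e')| * |Kinv T.V (eB e') (eW e)|)
      ≤ 2 * Q + 2 * (M0 * (8 * (2 + Real.log (R + 2)) * Q + A * Aloc + A * Adeep + A * Adeep +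
        A ^ 2 * G)) := by
        exact add_le_add (mul_le_mul_of_nonneg_left hdiag (by norm_num))
          (mul_le_mul_of_nonneg_left (hdouble.trans hall) (by norm_num))
    _ ≤ (2 + 16 * M0) * ((2 + Real.log (R + 2)) * Q + A * Aloc + A * Adeep + A ^ 2 * G) := by
        rw [mul_assoc 8]
        exact fin_alg hM0' p5 p4 p1 p2 p3

end Vale.Agent.P155.H904
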