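import Vale.Agent.P155.H12.FLBd
import Vale.Agent.P155.H12.Dual
import Vale.Agent.P155.G1.Decay

/-!
# P155, potential theory for the sweep: local visibility of a boundary piece (PT1)
-/

namespace Vale.Agent.P155.H904

open Finset Vale.Agent.P155 Vale.Agent.P155.G45 Vale.Agent.P155.J Vale.Agent.P155.H12

/-- `N` is a union of components of `O ∩ box p d`. -/
structure IsNb (O : Set Pt) (p : Pt) (d : ℕ) (N : Set Pt) : Prop where
  sub : N ⊆ O
  box : ∀ x ∈ N, dn p x ≤ d
  step : ∀ x ∈ N, ∀ y ∈ O, Adj x y → dn p y ≤ d → y ∈ N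

/-- The probability to leave `N` inside `O`. -/
theorem exists_exit {O : Set Pt} (hO : O.Finite) {p : Pt} {d : ℕ} {N : Set Pt}
    (hN : IsNb O p d N) : ∃ w : Pt → ℝ, (∀ x, 0 ≤ w x) ∧ (∀ x, w x ≤ 1) ∧ (∀ x, x ∉ O → w x = 0) ∧
      (∀ x ∈ O, x ∉ N → w x = 1) ∧ (∀ x ∈ N, lap w x = 0) ∧ (∀ x ∈ O, lap w x ≤ 0) := by
  classical
  have hNf : N.Finite := hO.subset hN.sub
  obtain ⟨w, hw1, hw2⟩ := exists_dirichlet hNf (fun _ => 0) (fun x => if x ∈ O then 1 else 0)
  have hlap : ∀ x ∈ N, lap w x = 0 := fun x hx => by have := hw2 x hx; linarith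
  have hf0 : ∀ x : Pt, (0 : ℝ) ≤ if x ∈ O then 1 else 0 := fun x => by split_ifs <;> norm_num
  have hf1 : ∀ x : Pt, (if x ∈ O then (1 : ℝ) else 0) ≤ 1 := fun x => by split_ifs <;> norm_num
  have h0 : ∀ x, 0 ≤ w x := by
    intro x
    refine comparison hNf (u := fun _ => 0) (v := w) (fun y hy => ?_) (fun y hy => ?_) x
    · rw [lap_const, hlap y hy]
    · rw [hw1 y hy]; exact hf0 y
  have h1 : ∀ x, w x ≤ 1 := by
    intro x
    refine comparison hNf (u := w) (v := fun _ => 1) (fun y hy => ?_) (fun y hy => ?_) x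
    · rw [lap_const, hlap y hy]
    · rw [hw1 y hy]; exact hf1 y
  refine ⟨w, h0, h1, fun x hx => ?_, fun x hx hxN => ?_, hlap, fun x hx => ?_⟩
  · rw [hw1 x (fun h => hx (hN.sub h)), if_neg hx]
  · rw [hw1 x hxN, if_pos hx]
  · by_cases hxN : x ∈ N
    · rw [hlap x hxN]
    · have hx1 : w x = 1 := by rw [hw1 x hxN, if_pos hx]
      unfold lap
      rw [hx1]
      linarith [h1 (x.1 + 1, x.2), h1 (x.1 - 1, x.2), h1 (x.1, x.2 + 1), h1 (x.1, x.2 - 1)]

/-- decay of the exit probability -/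
theorem exit_decay {C β : ℝ} (hSD : SupDecay C β) {O : Set Pt} (hCP : CPr O) {p : Pt}
    (hp : p ∉ O) {d : ℕ} {N : Set Pt} (hN : IsNb O p d N) {w : Pt → ℝ} (h0 : ∀ x, 0 ≤ w x)
    (h1 : ∀ x, w x ≤ 1) (hoff : ∀ x, x ∉ O → w x = 0) (hlap : ∀ x ∈ N, lap w x = 0) :
    ∀ x ∈ N, w x ≤ C * (((dn p x : ℝ) + 1) / ((d : ℝ) + 1)) ^ β := by
  classical
  intro x hx
  have h := hSD N p d 1 (fun y => if y ∈ N then w y else 0)
    (fun r _ => by
      obtain ⟨q, hq, hd⟩ := hCP p hp r
      exact ⟨q, fun h => hq (hN.sub h), hd⟩)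
    (fun y hy => by simp [hy])
    (fun y hy hyd => by
      refine (lap_congr_adj (v := w) (fun z hz => ?_) ?_).trans (hlap y hy)
      · by_cases hzO : z ∈ O
        · have : z ∈ N := hN.step y hy z hzO hz (by
            have := dn_tri p y z
            have := G45.Adj.dn_le hz
            omega)
          simp [this]
        · have : z ∉ N := fun h => hzO (hN.sub h)
          simp [this, hoff z hzO]
      · simp [hy])
    (fun y _ => by
      show |if y ∈ N then w y else 0| ≤ 1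
      split_ifs
      · rw [abs_of_nonneg (h0 y)]; exact h1 y
      · norm_num) x (hN.box x hx)
  simp only [if_pos hx, mul_one] at h
  exact (le_abs_self _).trans h

/-- **PT1, mass outside the neighbourhood.** -/
theorem pt1_out {C β : ℝ} (hβ : 0 < β) (hC : 0 ≤ C) (hSD : SupDecay C β) :
    ∃ K : ℝ, 0 < K ∧ ∀ (O : Set Pt) (hO : O.Finite), CPr O → ∀ (p : Pt) (N : Set Pt) (ρ d s : ℕ)
      (C0 : ℝ) (φ u χ : Pt → ℝ), p ∉ O → IsNb O p d N → 1 ≤ s → s ≤ ρ → 3 * ρ ≤ d →
      IsCut O s C0 χ → IsGreen O φ u → (∀ x ∈ O, 0 ≤ φ x) → (∀ x ∈ O, φ x ≠ 0 → dn p x ≤ ρ) →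
      (∀ x ∈ O, φ x ≠ 0 → x ∈ N) → ∀ S : Finset Pt, (∀ x ∈ S, x ∉ N) →
      ∑ x ∈ S, |fL O φ χ u x| ≤
        K * (C0 + 1) * (((ρ : ℝ) + 1) / ((d : ℝ) + 1)) ^ β * ∑ x ∈ hO.toFinset, φ x := by
  classical
  obtain ⟨A, hA, hfl⟩ := fL_bound hβ hC hSD
  obtain ⟨D, hD, hvis⟩ := visits_local hβ hC hSD
  refine ⟨100 * A * D * (C + 1), by positivity, ?_⟩
  intro O hO hCP p N ρ d s C0 φ u χ hp hN hs hsρ hρd hχ hu hφ0 hφρ hφN S hS
  have hC0 := cut_C0_nonneg hχ
  have hs0 : (0 : ℝ) < s := by exact_mod_cast hs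
  have hOq : ∃ q, q ∉ O := exists_notMem hO
  have hu0 := green_nonneg hO hu hφ0
  obtain ⟨w, hw0, hw1, hwoff, hwout, hwlap, hwsup⟩ := exists_exit hO hN
  -- points of the layer
  set S' := S.filter (fun x => s ≤ dF O x ∧ dF O x ≤ 2 * s) with hS'
  -- near a layer point outside `N` there is no source
  have hfar : ∀ x ∈ S', ∀ y, dn x y < s → φ y = 0 := by
    intro x hx y hy
    obtain ⟨hxS, hx1, hx2⟩ := Finset.mem_filter.1 hx
    by_contra hne
    have hyO : y ∈ O := mem_of_lt_dF (lt_of_lt_of_le hy hx1)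
    have hyN := hφN y hyO hne
    have hyρ := hφρ y hyO hne
    apply hS x hxS
    -- walk from `y` to `x` inside the box of radius `s - 1` around `x`
    have hbox : ∀ z, dn x z < s → z ∈ O ∧ dn p z ≤ d := by
      intro z hz
      refine ⟨mem_of_lt_dF (lt_of_lt_of_le hz hx1), ?_⟩
      have a1 := dn_tri p y x
      have a2 := dn_tri p x z
      rw [dn_comm y x] at a1
      omega
    have key : ∀ n : ℕ, ∀ z : Pt, z ∈ N → dn x z < s →
        (x.1 - z.1).natAbs + (x.2 - z.2).natAbs ≤ n → x ∈ N := by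
      intro n
      induction n with
      | zero =>
        intro z hz _ hn
        have e1 : (x.1 - z.1).natAbs = 0 := by omega
        have e2 : (x.2 - z.2).natAbs = 0 := by omega
        rw [Int.natAbs_eq_zero, sub_eq_zero] at e1 e2
        have : x = z := Prod.ext e1 e2
        rwa [this]
      | succ n ih =>
        intro z hz hzs hn
        rw [dn_eq] at hzs
        rcases lt_trichotomy z.1 x.1 with h | h | h
        · have hs' : dn x (z.1 + 1, z.2) < s := by rw [dn_eq]; simp only; omega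
          refine ih (z.1 + 1, z.2) (hN.step z hz _ (hbox _ hs').1 (adj_right z) (hbox _ hs').2) hs' ?_
          simp only; omega
        · rcases lt_trichotomy z.2 x.2 with h' | h' | h'
          · have hs' : dn x (z.1, z.2 + 1) < s := by rw [dn_eq]; simp only; omega
            refine ih (z.1, z.2 + 1) (hN.step z hz _ (hbox _ hs').1 (adj_up z) (hbox _ hs').2) hs' ?_
            simp only; omega
          · have : x = z := Prod.ext h.symm h'.symm
            rwa [this]
          · have hs' : dn x (z.1, z.2 - 1) < s := by rw [dn_eq]; simp only; omega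
            refine ih (z.1, z.2 - 1) (hN.step z hz _ (hbox _ hs').1 (adj_down z) (hbox _ hs').2) hs' ?_
            simp only; omega
        · have hs' : dn x (z.1 - 1, z.2) < s := by rw [dn_eq]; simp only; omega
          refine ih (z.1 - 1, z.2) (hN.step z hz _ (hbox _ hs').1 (adj_left z) (hbox _ hs').2) hs' ?_
          simp only; omega
    exact key _ y hyN hy le_rfl
  -- pointwise bound
  have hpt : ∀ x ∈ S, |fL O φ χ u x| ≤ if x ∈ S' then 100 * A * (C0 + 1) * (u x / s ^ 2) else 0 := by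
    intro x hx
    by_cases h0 : fL O φ χ u x = 0
    · rw [h0, abs_zero]
      split_ifs
      · have := hu0 x
        positivity
      · exact le_rfl
    obtain ⟨hxO, hx2⟩ := fL_supp hOq hs hχ hu h0
    rcases Nat.lt_or_ge (dF O x) s with hlt | hge
    · exfalso
      apply h0
      rw [fL_below hOq hχ hxO hlt]
      by_contra hne
      exact hS x hx (hφN x hxO hne)
    · have hxS' : x ∈ S' := Finset.mem_filter.2 ⟨hx, hge, hx2⟩
      rw [if_pos hxS']
      have h1 := hfl O s C0 χ φ u u 0 x hOq hs hχ hu hge le_rfl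
        (fun y => by rw [abs_of_nonneg (hu0 y)])
        (fun y hy => by
          rw [hu.eq y (mem_of_lt_dF (lt_of_lt_of_le hy hge)), hfar x hxS' y hy])
        (fun y hy => by rw [hfar x hxS' y hy, abs_zero])
      simpa using h1
  have hsum : ∑ x ∈ S, |fL O φ χ u x| ≤ 100 * A * (C0 + 1) / s ^ 2 * ∑ x ∈ S', u x := by
    calc ∑ x ∈ S, |fL O φ χ u x|
        ≤ ∑ x ∈ S, (if x ∈ S' then 100 * A * (C0 + 1) * (u x / s ^ 2) else 0) :=
          Finset.sum_le_sum hpt
      _ = ∑ x ∈ S', 100 * A * (C0 + 1) * (u x / s ^ 2) := by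
          rw [← Finset.sum_filter]
          apply Finset.sum_congr _ (fun _ _ => rfl)
          ext x
          simp only [Finset.mem_filter]
          constructor
          · rintro ⟨_, h⟩; exact h
          · intro h; exact ⟨(Finset.mem_filter.1 h).1, h⟩
      _ = _ := by
          rw [Finset.mul_sum]
          apply Finset.sum_congr rfl
          intro x _
          ring
  -- visits
  have hS'O : ∀ x ∈ S', x ∈ O := fun x hx => by
    have := (Finset.mem_filter.1 hx).2.1
    exact mem_of_dF_pos (by omega)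
  have h2 := hvis O hO hCP s hs S' φ u w (fun x hx => (Finset.mem_filter.1 hx).2.2) hu hφ0 hw0
    (fun x hx _ => hwsup x hx)
    (fun x hx => (hwout x (hS'O x hx) (hS x (Finset.mem_filter.1 hx).1)).ge)
  set q : ℝ := (((ρ : ℝ) + 1) / ((d : ℝ) + 1)) ^ β with hq
  have hq0 : 0 ≤ q := by positivity
  have h3 : ∑ x ∈ hO.toFinset, φ x * w x ≤ C * q * ∑ x ∈ hO.toFinset, φ x := by
    rw [Finset.mul_sum]
    apply Finset.sum_le_sum
    intro x hx
    have hxO : x ∈ O := by simpa using hx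
    by_cases hφx : φ x = 0
    · rw [hφx]; simp
    · have hxN := hφN x hxO hφx
      have hw := exit_decay hSD hCP hp hN hw0 hw1 hwoff hwlap x hxN
      have hle : (((dn p x : ℝ) + 1) / ((d : ℝ) + 1)) ^ β ≤ q := by
        apply Real.rpow_le_rpow (by positivity) _ hβ.le
        have : (dn p x : ℝ) ≤ ρ := by exact_mod_cast hφρ x hxO hφx
        gcongr
      have hw' : w x ≤ C * q := hw.trans (mul_le_mul_of_nonneg_left hle hC)
      have := hφ0 x hxO
      nlinarith
  have hφs : 0 ≤ ∑ x ∈ hO.toFinset, φ x :=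
    Finset.sum_nonneg (fun x hx => hφ0 x (by simpa using hx))
  calc ∑ x ∈ S, |fL O φ χ u x| ≤ 100 * A * (C0 + 1) / s ^ 2 * ∑ x ∈ S', u x := hsum
    _ ≤ 100 * A * (C0 + 1) / s ^ 2 * (D * (s : ℝ) ^ 2 * (C * q * ∑ x ∈ hO.toFinset, φ x)) := by
        apply mul_le_mul_of_nonneg_left _ (by positivity)
        exact h2.trans (mul_le_mul_of_nonneg_left h3 (by positivity))
    _ = 100 * A * D * C * (C0 + 1) * q * ∑ x ∈ hO.toFinset, φ x := by
        field_simp
    _ ≤ _ := by
        have : 100 * A * D * C ≤ 100 * A * D * (C + 1) := by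
          apply mul_le_mul_of_nonneg_left _ (by positivity)
          linarith
        gcongr

end Vale.Agent.P155.H904
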