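import Vale.Agent.P155.H904.PT1

/-!
# P155, potential theory for the sweep: energy of a mean of bumps (PT2)
-/

namespace Vale.Agent.P155.H904

open Finset Vale.Agent.P155 Vale.Agent.P155.G45

theorem sum_rpow_le {γ : ℝ} (hγ : 0 < γ) (hγ1 : γ ≤ 1 / 2) (m : ℕ) :
    ∑ j ∈ range m, ((j : ℝ) + 1) ^ (-γ) ≤ 2 * (m : ℝ) ^ (1 - γ) := by
  induction m with
  | zero => simp [Real.zero_rpow (by linarith : 1 - γ ≠ 0)]
  | succ m ih =>
    rw [Finset.sum_range_succ]
    have hm : (0 : ℝ) < (m : ℝ) + 1 := by positivity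
    have h1 : (m : ℝ) = ((m : ℝ) + 1) * (1 + (-1 / ((m : ℝ) + 1))) := by field_simp; ring
    have hb : (1 + (-1 / ((m : ℝ) + 1))) ^ (1 - γ) ≤ 1 + (1 - γ) * (-1 / ((m : ℝ) + 1)) := by
      apply rpow_one_add_le_one_add_mul_self
      · rw [le_div_iff₀ hm]; have : (0 : ℝ) ≤ m := by positivity
        linarith
      · linarith
      · linarith
    have hnn : (0 : ℝ) ≤ 1 + (-1 / ((m : ℝ) + 1)) := by
      have : (1 : ℝ) / ((m : ℝ) + 1) ≤ 1 := by
        rw [div_le_one hm]; have : (0 : ℝ) ≤ m := by positivity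
        linarith
      have e : (-1 : ℝ) / ((m : ℝ) + 1) = - (1 / ((m : ℝ) + 1)) := by ring
      rw [e]; linarith
    have h2 : (m : ℝ) ^ (1 - γ) ≤ ((m : ℝ) + 1) ^ (1 - γ) * (1 + (1 - γ) * (-1 / ((m : ℝ) + 1))) := by
      calc (m : ℝ) ^ (1 - γ) = (((m : ℝ) + 1) * (1 + (-1 / ((m : ℝ) + 1)))) ^ (1 - γ) := by rw [← h1]
        _ = ((m : ℝ) + 1) ^ (1 - γ) * (1 + (-1 / ((m : ℝ) + 1))) ^ (1 - γ) :=
            Real.mul_rpow hm.le hnn
        _ ≤ _ := mul_le_mul_of_nonneg_left hb (by positivity)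
    have h3 : ((m : ℝ) + 1) ^ (1 - γ) = ((m : ℝ) + 1) * ((m : ℝ) + 1) ^ (-γ) := by
      rw [← Real.rpow_one_add' hm.le (by linarith)]
      congr 1
    have h4 : ((m : ℝ) + 1) ^ (1 - γ) * (1 + (1 - γ) * (-1 / ((m : ℝ) + 1))) =
        ((m : ℝ) + 1) ^ (1 - γ) - (1 - γ) * ((m : ℝ) + 1) ^ (-γ) := by
      rw [h3]; field_simp; ring
    have hp : 0 < ((m : ℝ) + 1) ^ (-γ) := by positivity
    push_cast
    nlinarith

theorem sum_dist_le {γ : ℝ} (hγ : 0 < γ) (hγ1 : γ ≤ 1 / 2) (m : ℕ) (i : Fin m) :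
    ∑ k : Fin m, ((((i : ℤ) - (k : ℤ)).natAbs : ℝ) + 1) ^ (-γ) ≤ 4 * (m : ℝ) ^ (1 - γ) := by
  classical
  set f : ℕ → ℝ := fun j => ((j : ℝ) + 1) ^ (-γ) with hf
  have hf0 : ∀ j, 0 ≤ f j := fun j => by positivity
  have h1 : ∑ k : Fin m, f ((i : ℤ) - (k : ℤ)).natAbs =
      ∑ k ∈ range m, f ((i : ℤ) - (k : ℤ)).natAbs :=
    Fin.sum_univ_eq_sum_range (fun k => f ((i : ℤ) - (k : ℤ)).natAbs) m
  have h2 : ∑ k ∈ range m, f ((i : ℤ) - (k : ℤ)).natAbs ≤
      ∑ j ∈ range m, f j + ∑ j ∈ range m, f j := by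
    rw [← Finset.sum_filter_add_sum_filter_not (range m) (fun k => k ≤ (i : ℕ))]
    apply add_le_add
    · rw [← Finset.sum_image (f := f) (g := fun k : ℕ => ((i : ℤ) - (k : ℤ)).natAbs)]
      · apply Finset.sum_le_sum_of_subset_of_nonneg
        · intro j hj
          rw [Finset.mem_image] at hj
          obtain ⟨k, hk, rfl⟩ := hj
          rw [Finset.mem_filter, Finset.mem_range] at hk
          rw [Finset.mem_range]
          have := i.2
          omega
        · intro j _ _; exact hf0 j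
      · intro a ha b hb hab
        simp only [Finset.coe_filter, Finset.mem_range, Set.mem_ofPred_eq] at ha hb
        simp only at hab
        omega
    · rw [← Finset.sum_image (f := f) (g := fun k : ℕ => ((i : ℤ) - (k : ℤ)).natAbs)]
      · apply Finset.sum_le_sum_of_subset_of_nonneg
        · intro j hj
          rw [Finset.mem_image] at hj
          obtain ⟨k, hk, rfl⟩ := hj
          rw [Finset.mem_filter, Finset.mem_range] at hk
          rw [Finset.mem_range]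
          have := i.2
          omega
        · intro j _ _; exact hf0 j
      · intro a ha b hb hab
        simp only [Finset.coe_filter, Finset.mem_range, Set.mem_ofPred_eq] at ha hb
        simp only at hab
        omega
  have h3 := sum_rpow_le hγ hγ1 m
  calc _ = ∑ k : Fin m, f ((i : ℤ) - (k : ℤ)).natAbs := rfl
    _ ≤ ∑ j ∈ range m, f j + ∑ j ∈ range m, f j := h1 ▸ h2
    _ ≤ 2 * (m : ℝ) ^ (1 - γ) + 2 * (m : ℝ) ^ (1 - γ) := add_le_add h3 h3
    _ = _ := by ring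

/-- potential of one bump attached to a point off `O` -/
theorem bump_pot {C β : ℝ} (hβ : 0 < β) (hC : 0 ≤ C) (hSD : SupDecay C β) (hOut : OutDecay C β)
    {γ : ℝ} (hγ : 0 < γ) (hγβ : γ ≤ β) :
    ∃ D : ℝ, 0 < D ∧ ∀ (O : Set Pt), O.Finite → CPr O → ∀ (p : Pt) (κ : ℕ) (B : ℝ)
      (b u : Pt → ℝ), p ∉ O → 1 ≤ κ → 0 ≤ B → (∀ x, 0 ≤ b x) → (∀ x, b x ≤ B / (κ : ℝ) ^ 2) →
      (∀ x, b x ≠ 0 → dn p x ≤ κ) → IsGreen O b u →
      ∀ x, u x ≤ D * B ∧ u x ≤ D * B * (((κ : ℝ) + 1) / ((dn p x : ℝ) + 1)) ^ γ := by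
  classical
  obtain ⟨D, hD, hv⟩ := visits_potential hβ hC hSD
  refine ⟨(C + 1) * D, by positivity, ?_⟩
  intro O hO hCP p κ B b u hp hκ hB hb0 hbB hbs hu x
  have hκ0 : (0 : ℝ) < κ := by exact_mod_cast hκ
  have hu0 := green_nonneg hO hu (fun y _ => hb0 y)
  -- global bound
  have hglob : ∀ y, u y ≤ D * B := by
    obtain ⟨v, hv'⟩ := exists_green hO (fun y => if b y ≠ 0 then (1 : ℝ) else 0)
    have h1 := hv O hO hCP κ hκ (fun y => if b y ≠ 0 then (1 : ℝ) else 0) v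
      (fun y => by split_ifs <;> norm_num) (fun y => by split_ifs <;> norm_num)
      (fun y hy => by
        have hne : b y ≠ 0 := by
          by_contra h
          simp [h] at hy
        have h2 := hbs y hne
        have h3 := dF_le (O := O) (x := y) hp
        rw [dn_comm] at h3
        omega) hv'
    have h4 := green_le_super hO hu (w := fun y => B / (κ : ℝ) ^ 2 * v y)
      (fun y hy => by
        rw [lap_smul]
        have h5 := hv'.eq y hy
        have h6 : - (B / (κ : ℝ) ^ 2 * lap v y) = B / (κ : ℝ) ^ 2 *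
            (if b y ≠ 0 then (1 : ℝ) else 0) := by rw [← h5]; ring
        rw [h6]
        split_ifs with h
        · rw [mul_one]; exact hbB y
        · rw [not_not] at h
          rw [h]; simp)
      (fun y hy => by
        show (0 : ℝ) ≤ B / (κ : ℝ) ^ 2 * v y
        rw [hv'.off y hy]; simp)
    intro y
    calc u y ≤ B / (κ : ℝ) ^ 2 * v y := h4 y
      _ ≤ B / (κ : ℝ) ^ 2 * (D * (κ : ℝ) ^ 2) := mul_le_mul_of_nonneg_left (h1 y) (by positivity)
      _ = D * B := by field_simp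
  refine ⟨(hglob x).trans (by nlinarith [mul_nonneg (mul_nonneg hC hD.le) hB]), ?_⟩
  rcases Nat.lt_or_ge κ (dn p x) with hlt | hge
  · have h1 := hOut O p κ (D * B) u hO (fun r => hCP p hp r) hu.off
      (fun y hy hyd => by
        have : b y = 0 := by
          by_contra hne
          have := hbs y hne
          omega
        have h2 := hu.eq y hy
        rw [this] at h2
        linarith)
      (fun y _ => by rw [abs_of_nonneg (hu0 y)]; exact hglob y) x hlt
    rw [abs_of_nonneg (hu0 x)] at h1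
    have hr : ((κ : ℝ) + 1) / ((dn p x : ℝ) + 1) ≤ 1 := by
      rw [div_le_one (by positivity)]
      have : (κ : ℝ) ≤ dn p x := by exact_mod_cast hlt.le
      linarith
    have h2 : (((κ : ℝ) + 1) / ((dn p x : ℝ) + 1)) ^ β ≤ (((κ : ℝ) + 1) / ((dn p x : ℝ) + 1)) ^ γ :=
      Real.rpow_le_rpow_of_exponent_ge (by positivity) hr hγβ
    calc u x ≤ C * (((κ : ℝ) + 1) / ((dn p x : ℝ) + 1)) ^ β * (D * B) := h1
      _ ≤ (C + 1) * (((κ : ℝ) + 1) / ((dn p x : ℝ) + 1)) ^ γ * (D * B) := by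
          gcongr
          linarith
      _ = _ := by ring
  · have h1 : (1 : ℝ) ≤ (((κ : ℝ) + 1) / ((dn p x : ℝ) + 1)) ^ γ := by
      apply Real.one_le_rpow _ hγ.le
      rw [le_div_iff₀ (by positivity)]
      have : (dn p x : ℝ) ≤ κ := by exact_mod_cast hge
      linarith
    calc u x ≤ D * B := hglob x
      _ = 1 * D * B * 1 := by ring
      _ ≤ (C + 1) * D * B * (((κ : ℝ) + 1) / ((dn p x : ℝ) + 1)) ^ γ := by
          gcongr
          linarith

/-- **PT2.** Energy of the mean of `m` bumps of radius `κ` attached to points off `O` at mutual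
distances `≥ |i - k| ρ`. -/
theorem pt2 : ∃ γ : ℝ, 0 < γ ∧ γ ≤ 1 / 2 ∧ ∃ K : ℝ, 0 < K ∧
    ∀ (O : Set Pt), O.Finite → CPr O → ∀ (m κ ρ : ℕ) (B : ℝ) (p : Fin m → Pt)
      (b : Fin m → Pt → ℝ) (φ u : Pt → ℝ), 1 ≤ m → 1 ≤ ρ → ρ ≤ κ → 0 ≤ B →
      (∀ i, p i ∉ O) → (∀ i k : Fin m, ((i : ℤ) - (k : ℤ)).natAbs * ρ ≤ dn (p i) (p k)) →
      (∀ i x, 0 ≤ b i x) → (∀ i x, b i x ≤ B / (κ : ℝ) ^ 2) →
      (∀ i x, b i x ≠ 0 → dn (p i) x ≤ κ) → (∀ x, φ x = (m : ℝ)⁻¹ * ∑ i, b i x) →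
      IsGreen O φ u → pair φ u ≤ K * B ^ 2 * ((κ : ℝ) / ((ρ : ℝ) * m)) ^ γ := by
  classical
  obtain ⟨β, hβ, hSD, hOut⟩ := G1.decay
  set γ : ℝ := min β (1 / 2) with hγ
  have hγ0 : 0 < γ := lt_min hβ (by norm_num)
  have hγ1 : γ ≤ 1 / 2 := min_le_right _ _
  obtain ⟨D, hD, hpot⟩ := bump_pot hβ (by norm_num) hSD hOut hγ0 (min_le_left _ _)
  refine ⟨γ, hγ0, hγ1, 36 * D * 8 ^ γ, by positivity, ?_⟩
  intro O hO hCP m κ ρ B p b φ u hm hρ hρκ hB hp hsep hb0 hbB hbs hφ hu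
  have hm0 : (0 : ℝ) < m := by exact_mod_cast hm
  have hρ0 : (0 : ℝ) < ρ := by exact_mod_cast hρ
  have hκ : 1 ≤ κ := hρ.trans hρκ
  have hκ0 : (0 : ℝ) < κ := by exact_mod_cast hκ
  choose v hv using fun i => exists_green hO (b i)
  -- `u` is the mean of the `v i`
  have huv : ∀ x, u x = (m : ℝ)⁻¹ * ∑ i, v i x := by
    have h1 : IsGreen O φ (fun x => (m : ℝ)⁻¹ * ∑ i, v i x) :=
      { off := fun x hx => by simp [(hv _).off x hx]
        eq := fun x hx => by
          rw [hφ x]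
          have : - lap (fun x => (m : ℝ)⁻¹ * ∑ i, v i x) x = (m : ℝ)⁻¹ * ∑ i, (- lap (v i) x) := by
            unfold lap
            simp only [Finset.sum_neg_distrib, Finset.sum_add_distrib, Finset.sum_sub_distrib,
              ← Finset.mul_sum]
            ring
          rw [this]
          congr 1
          exact Finset.sum_congr rfl (fun i _ => (hv i).eq x hx) }
    exact fun x => congrFun (green_unique hO hu h1) x
  -- pairing as a finite sum
  have hpair : pair φ u = ∑ x ∈ hO.toFinset, φ x * u x := by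
    unfold pair
    apply finsum_eq_sum_of_support_subset
    intro x hx
    rw [Function.mem_support] at hx
    rw [Finset.mem_coe, Set.Finite.mem_toFinset]
    by_contra h
    exact hx (by rw [hu.off x h, mul_zero])
  -- pointwise bound of `v i` on the support of `b k`
  have hvi : ∀ (i k : Fin m) (x : Pt), b k x ≠ 0 → v i x ≤ D * B * (8 * κ / ρ) ^ γ *
      (((((i : ℤ) - (k : ℤ)).natAbs : ℝ) + 1) ^ (-γ)) := by
    intro i k x hx
    obtain ⟨hp1, hp2⟩ := hpot O hO hCP (p i) κ B (b i) (v i) (hp i) hκ hB (hb0 i) (hbB i) (hbs i)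
      (hv i) x
    set n : ℕ := ((i : ℤ) - (k : ℤ)).natAbs with hn
    have e : ((n : ℝ) + 1) ^ (-γ) = (((n : ℝ) + 1)⁻¹) ^ γ := by
      rw [Real.rpow_neg (by positivity), Real.inv_rpow (by positivity)]
    rw [e, mul_assoc (D * B), ← Real.mul_rpow (by positivity) (by positivity)]
    have hn0 : (0 : ℝ) ≤ n := by positivity
    have hκρ : (ρ : ℝ) ≤ κ := by exact_mod_cast hρκ
    have hκ1 : (1 : ℝ) ≤ κ := by exact_mod_cast hκ
    rcases le_total ((ρ : ℝ) * ((n : ℝ) + 1)) (8 * κ) with h9 | h9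
    · refine hp1.trans ?_
      have h1 : (1 : ℝ) ≤ (8 * κ / ρ * ((n : ℝ) + 1)⁻¹) ^ γ := by
        apply Real.one_le_rpow _ hγ0.le
        rw [← div_eq_mul_inv, div_div, le_div_iff₀ (by positivity), one_mul]
        exact h9
      calc D * B = D * B * 1 := (mul_one _).symm
        _ ≤ _ := mul_le_mul_of_nonneg_left h1 (by positivity)
    · refine hp2.trans ?_
      apply mul_le_mul_of_nonneg_left _ (by positivity)
      apply Real.rpow_le_rpow (by positivity) _ hγ0.le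
      have h1 := hbs k x hx
      have h2 : n * ρ ≤ dn (p i) (p k) := hsep i k
      have h3 := dn_tri (p i) x (p k)
      rw [dn_comm x (p k)] at h3
      have h4 : n * ρ ≤ dn (p i) x + κ := by omega
      have h4' : (n : ℝ) * ρ ≤ dn (p i) x + κ := by exact_mod_cast h4
      have hd : 0 < (n : ℝ) * ρ - κ := by nlinarith
      rw [← div_eq_mul_inv, div_div]
      calc ((κ : ℝ) + 1) / ((dn (p i) x : ℝ) + 1) ≤ 2 * κ / ((n : ℝ) * ρ - κ) := by
            apply div_le_div₀ (by positivity) (by linarith) hd (by linarith)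
        _ ≤ 8 * κ / (ρ * ((n : ℝ) + 1)) := by
            rw [div_le_div_iff₀ hd (by positivity)]
            have : ρ * ((n : ℝ) + 1) ≤ 4 * ((n : ℝ) * ρ - κ) := by nlinarith
            nlinarith
  -- the mass of `b k`
  have hmass : ∀ k, ∑ x ∈ hO.toFinset, b k x ≤ 9 * B := by
    intro k
    calc ∑ x ∈ hO.toFinset, b k x ≤ ∑ x ∈ box (p k) κ, b k x := by
          calc ∑ x ∈ hO.toFinset, b k x = ∑ x ∈ hO.toFinset.filter (fun x => b k x ≠ 0), b k x := by
                rw [Finset.sum_filter_ne_zero]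
            _ ≤ _ := by
                apply Finset.sum_le_sum_of_subset_of_nonneg
                · intro x hx
                  rw [mem_box]
                  exact hbs k x (Finset.mem_filter.1 hx).2
                · intro x _ _; exact hb0 k x
      _ ≤ ∑ x ∈ box (p k) κ, B / (κ : ℝ) ^ 2 := Finset.sum_le_sum (fun x _ => hbB k x)
      _ = ((2 * κ + 1 : ℕ) : ℝ) ^ 2 * (B / (κ : ℝ) ^ 2) := by
          rw [Finset.sum_const, card_box, nsmul_eq_mul]; push_cast; ring
      _ ≤ (3 * (κ : ℝ)) ^ 2 * (B / (κ : ℝ) ^ 2) := by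
          have hκ1 : (1 : ℝ) ≤ κ := by exact_mod_cast hκ
          apply mul_le_mul_of_nonneg_right _ (by positivity)
          push_cast
          nlinarith
      _ = 9 * B := by field_simp; ring
  set Q : ℝ := D * B * (8 * κ / ρ) ^ γ with hQ
  have hQ0 : 0 ≤ Q := by positivity
  -- inner sums
  have hik : ∀ i k : Fin m, ∑ x ∈ hO.toFinset, b k x * v i x ≤
      9 * B * (Q * ((((i : ℤ) - (k : ℤ)).natAbs : ℝ) + 1) ^ (-γ)) := by
    intro i k
    calc ∑ x ∈ hO.toFinset, b k x * v i x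
        ≤ ∑ x ∈ hO.toFinset, b k x * (Q * ((((i : ℤ) - (k : ℤ)).natAbs : ℝ) + 1) ^ (-γ)) := by
          apply Finset.sum_le_sum
          intro x _
          by_cases h : b k x = 0
          · rw [h]; simp
          · exact mul_le_mul_of_nonneg_left (hvi i k x h) (hb0 k x)
      _ = (∑ x ∈ hO.toFinset, b k x) * (Q * ((((i : ℤ) - (k : ℤ)).natAbs : ℝ) + 1) ^ (-γ)) := by
          rw [Finset.sum_mul]
      _ ≤ _ := mul_le_mul_of_nonneg_right (hmass k) (by positivity)
  have hexp : ∑ x ∈ hO.toFinset, φ x * u x =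
      (m : ℝ)⁻¹ ^ 2 * ∑ i, ∑ k, ∑ x ∈ hO.toFinset, b k x * v i x := by
    have h1 : ∀ x, φ x * u x = (m : ℝ)⁻¹ ^ 2 * ∑ i, ∑ k, b k x * v i x := by
      intro x
      have h2 : ∑ i, ∑ k, b k x * v i x = (∑ k, b k x) * ∑ i, v i x := by
        rw [Finset.sum_mul_sum, Finset.sum_comm]
      rw [hφ x, huv x, h2]
      ring
    rw [Finset.sum_congr rfl (fun x _ => h1 x), ← Finset.mul_sum, Finset.sum_comm]
    congr 1
    apply Finset.sum_congr rfl
    intro i _
    rw [Finset.sum_comm]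
  rw [hpair, hexp]
  have hsum : ∑ i, ∑ k, ∑ x ∈ hO.toFinset, b k x * v i x ≤
      (m : ℝ) * (9 * B * Q * (4 * (m : ℝ) ^ (1 - γ))) := by
    calc ∑ i, ∑ k, ∑ x ∈ hO.toFinset, b k x * v i x
        ≤ ∑ i : Fin m, ∑ k : Fin m, 9 * B * (Q * ((((i : ℤ) - (k : ℤ)).natAbs : ℝ) + 1) ^ (-γ)) :=
          Finset.sum_le_sum (fun i _ => Finset.sum_le_sum (fun k _ => hik i k))
      _ ≤ ∑ i : Fin m, 9 * B * Q * (4 * (m : ℝ) ^ (1 - γ)) := by
          apply Finset.sum_le_sum
          intro i _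
          calc ∑ k : Fin m, 9 * B * (Q * ((((i : ℤ) - (k : ℤ)).natAbs : ℝ) + 1) ^ (-γ))
              = 9 * B * Q * ∑ k : Fin m, ((((i : ℤ) - (k : ℤ)).natAbs : ℝ) + 1) ^ (-γ) := by
                rw [Finset.mul_sum]
                exact Finset.sum_congr rfl (fun k _ => by ring)
            _ ≤ _ := mul_le_mul_of_nonneg_left (sum_dist_le hγ0 hγ1 m i) (by positivity)
      _ = _ := by rw [Finset.sum_const, Finset.card_univ, Fintype.card_fin, nsmul_eq_mul]
  have hpw : (m : ℝ) ^ (1 - γ) = m * (m : ℝ) ^ (-γ) := by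
    rw [← Real.rpow_one_add' hm0.le (by linarith)]
    congr 1
  calc (m : ℝ)⁻¹ ^ 2 * ∑ i, ∑ k, ∑ x ∈ hO.toFinset, b k x * v i x
      ≤ (m : ℝ)⁻¹ ^ 2 * ((m : ℝ) * (9 * B * Q * (4 * (m : ℝ) ^ (1 - γ)))) :=
        mul_le_mul_of_nonneg_left hsum (by positivity)
    _ = 36 * B * Q * (m : ℝ) ^ (-γ) := by rw [hpw]; field_simp; ring
    _ = 36 * D * 8 ^ γ * B ^ 2 * ((κ : ℝ) / ((ρ : ℝ) * m)) ^ γ := by
        rw [hQ, Real.rpow_neg hm0.le, mul_div_assoc, Real.mul_rpow (by norm_num) (by positivity),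
          ← div_div, Real.div_rpow (by positivity) hm0.le]
        ring
    _ ≤ _ := le_rfl

end Vale.Agent.P155.H904
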