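import Vale.Agent.P155.H904.PT2
import Vale.Agent.P155.H12.MassBd
import Vale.Agent.P155.J.Height
import Vale.Agent.P155.G45.SkelG

/-!
# P155, potential theory for the sweep: totals, linearity, sup and mass bounds of the layer function
-/

namespace Vale.Agent.P155.H904

open Finset Vale.Agent.P155 Vale.Agent.P155.G45 Vale.Agent.P155.J Vale.Agent.P155.H12

/-- the part of `O ∩ box p d` which is connected to `A` inside `O ∩ box p d` -/
def reach (O : Set Pt) (p : Pt) (d : ℕ) (A : Set Pt) : Set Pt :=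
  {x | ∃ y ∈ A, y ∈ O ∧ dn p y ≤ d ∧
    Relation.ReflTransGen (fun a b => Adj a b ∧ b ∈ O ∧ dn p b ≤ d) y x}

theorem isNb_reach (O : Set Pt) (p : Pt) (d : ℕ) (A : Set Pt) : IsNb O p d (reach O p d A) := by
  have h : ∀ x ∈ reach O p d A, x ∈ O ∧ dn p x ≤ d := by
    rintro x ⟨y, _, hyO, hyd, hr⟩
    induction hr with
    | refl => exact ⟨hyO, hyd⟩
    | tail _ h _ => exact ⟨h.2.1, h.2.2⟩
  refine ⟨fun x hx => (h x hx).1, fun x hx => (h x hx).2, ?_⟩
  rintro x ⟨y, hyA, hyO, hyd, hr⟩ z hz hxz hzd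
  exact ⟨y, hyA, hyO, hyd, hr.tail ⟨hxz, hz, hzd⟩⟩

theorem mem_reach {O : Set Pt} {p : Pt} {d : ℕ} {A : Set Pt} {x : Pt} (hx : x ∈ A) (hO : x ∈ O)
    (hd : dn p x ≤ d) : x ∈ reach O p d A := ⟨x, hx, hO, hd, Relation.ReflTransGen.refl⟩

theorem lap_eq_adj {w : Pt → ℝ} {x : Pt} : lap w x = w (x.1 + 1, x.2) + w (x.1 - 1, x.2) +
    w (x.1, x.2 + 1) + w (x.1, x.2 - 1) - 4 * w x := rfl

/-- total mass of the layer function -/
theorem fL_total {O : Set Pt} (hO : O.Finite) {s : ℕ} (hs : 1 ≤ s) {C0 : ℝ} {φ u χ : Pt → ℝ}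
    (hχ : IsCut O s C0 χ) (hu : IsGreen O φ u) {S : Finset Pt} (hS : O ⊆ (S : Set Pt)) :
    ∑ x ∈ S, fL O φ χ u x = ∑ x ∈ hO.toFinset, φ x := by
  classical
  have hOq : ∃ q, q ∉ O := exists_notMem hO
  have hSO : hO.toFinset ⊆ S := by
    intro x hx
    rw [Set.Finite.mem_toFinset] at hx
    exact_mod_cast hS hx
  have hoff : ∀ x, x ∉ O → fL O φ χ u x = 0 := by
    intro x hx
    by_contra h
    exact hx (fL_supp hOq hs hχ hu h).1
  have h1 : ∑ x ∈ S, fL O φ χ u x = ∑ᶠ x, fL O φ χ u x := by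
    symm
    apply finsum_eq_sum_of_support_subset
    intro x hx
    rw [Function.mem_support] at hx
    by_contra h
    exact hx (hoff x (fun h' => h (hS h')))
  have hfs1 : (Function.support (fun x => if x ∈ O then φ x else 0)).Finite := by
    apply hO.subset
    intro x hx
    rw [Function.mem_support] at hx
    by_contra h
    exact hx (if_neg h)
  have hfsu : FS (fun y => χ y * u y) := by
    apply hO.subset
    intro x hx
    rw [Function.mem_support] at hx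
    by_contra h
    exact hx (by rw [hu.off x h, mul_zero])
  have h2 : ∑ᶠ x, fL O φ χ u x = ∑ᶠ x, (if x ∈ O then φ x else 0) +
      ∑ᶠ x, lap (fun y => χ y * u y) x := finsum_add_distrib hfs1 (fs_lap hfsu)
  have h3 : ∑ᶠ x, lap (fun y => χ y * u y) x = 0 := by
    have h4 := finsum_lap hfsu (fun _ => (1 : ℝ))
    simp only [mul_one, lap_const, mul_zero, finsum_zero] at h4
    exact h4
  have h5 : ∑ᶠ x, (if x ∈ O then φ x else 0) = ∑ x ∈ hO.toFinset, φ x := by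
    rw [finsum_eq_sum_of_support_subset (s := hO.toFinset)]
    · apply Finset.sum_congr rfl
      intro x hx
      rw [Set.Finite.mem_toFinset] at hx
      rw [if_pos hx]
    · intro x hx
      rw [Function.mem_support] at hx
      rw [Finset.mem_coe, Set.Finite.mem_toFinset]
      by_contra h
      exact hx (if_neg h)
  rw [h1, h2, h3, h5, add_zero]

/-- linearity of the layer function: means -/
theorem fL_mean {O : Set Pt} {χ : Pt → ℝ} {m : ℕ} (b v : Fin m → Pt → ℝ) (x : Pt) :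
    fL O (fun y => (m : ℝ)⁻¹ * ∑ i, b i y) χ (fun y => (m : ℝ)⁻¹ * ∑ i, v i y) x =
      (m : ℝ)⁻¹ * ∑ i, fL O (b i) χ (v i) x := by
  classical
  unfold fL
  rw [Finset.sum_add_distrib, mul_add]
  congr 1
  · by_cases hx : x ∈ O
    · simp [hx]
    · simp [hx]
  · unfold lap
    simp only [Finset.sum_add_distrib, Finset.sum_sub_distrib, ← Finset.mul_sum]
    ring

/-- **PT1**: the neighbourhood `N` of a point `p ∉ O` carries the mass of the layer function up to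
`C ((ρ + 1) / (d + 1)) ^ β`. -/
theorem pt1 : ∃ β : ℝ, 0 < β ∧ ∃ K : ℝ, 0 < K ∧
    ∀ (O : Set Pt) (hO : O.Finite), CPr O → ∀ (p : Pt) (N : Set Pt) (ρ d s : ℕ)
      (C0 : ℝ) (φ u χ : Pt → ℝ), p ∉ O → IsNb O p d N → 1 ≤ s → s ≤ ρ → 3 * ρ ≤ d →
      IsCut O s C0 χ → IsGreen O φ u → (∀ x ∈ O, 0 ≤ φ x) → (∀ x ∈ O, φ x ≠ 0 → dn p x ≤ ρ) →
      (∀ x ∈ O, φ x ≠ 0 → x ∈ N) →
      (∀ S : Finset Pt, (∀ x ∈ S, x ∉ N) → ∑ x ∈ S, |fL O φ χ u x| ≤
        K * (C0 + 1) * (((ρ : ℝ) + 1) / ((d : ℝ) + 1)) ^ β * ∑ x ∈ hO.toFinset, φ x) ∧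
      (∀ S : Finset Pt, N ⊆ (S : Set Pt) → |∑ x ∈ S, fL O φ χ u x - ∑ x ∈ hO.toFinset, φ x| ≤
        K * (C0 + 1) * (((ρ : ℝ) + 1) / ((d : ℝ) + 1)) ^ β * ∑ x ∈ hO.toFinset, φ x) := by
  classical
  obtain ⟨β, hβ, hSD, hOut⟩ := G1.decay
  obtain ⟨K, hK, h⟩ := pt1_out hβ (by norm_num) hSD
  refine ⟨β, hβ, K, hK, ?_⟩
  intro O hO hCP p N ρ d s C0 φ u χ hp hN hs hsρ hρd hχ hu hφ0 hφρ hφN
  have h1 := h O hO hCP p N ρ d s C0 φ u χ hp hN hs hsρ hρd hχ hu hφ0 hφρ hφN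
  refine ⟨h1, fun S hS => ?_⟩
  have h2 := fL_total hO hs hχ hu (S := S ∪ hO.toFinset) (by
    intro x hx
    simp [hx])
  have h3 : ∑ x ∈ S ∪ hO.toFinset, fL O φ χ u x = ∑ x ∈ S, fL O φ χ u x +
      ∑ x ∈ hO.toFinset \ S, fL O φ χ u x := by
    rw [← Finset.union_sdiff_self_eq_union, Finset.sum_union Finset.disjoint_sdiff]
  rw [h3] at h2
  have h4 : ∑ x ∈ S, fL O φ χ u x - ∑ x ∈ hO.toFinset, φ x =
      - ∑ x ∈ hO.toFinset \ S, fL O φ χ u x := by linarith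
  rw [h4, abs_neg]
  refine (Finset.abs_sum_le_sum_abs _ _).trans (h1 _ (fun x hx hxN => ?_))
  exact (Finset.mem_sdiff.1 hx).2 (by exact_mod_cast hS hxN)

/-- total and local masses and pointwise bound of the layer function for bounded densities -/
theorem pt_mass : ∃ γ : ℝ, 0 < γ ∧ γ ≤ 1 ∧ ∀ C0 : ℝ, ∃ M : ℝ, 0 ≤ M ∧
      ∀ (R : ℕ) (O : Set Pt) (s : ℕ) (χ φ u : Pt → ℝ), 1 ≤ R →
      O ⊆ (box (0, 0) R : Set Pt) → CPr O → 1 ≤ s → s ≤ R → IsCut O s C0 χ → IsGreen O φ u →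
      (∀ y, |φ y| ≤ C0 / (R : ℝ) ^ 2) →
      ∑ x ∈ box (0, 0) R, |fL O φ χ u x| ≤ M ∧
      (∀ (p : Pt) (ρ : ℕ), s ≤ ρ → ρ ≤ R →
        ∑ x ∈ box p ρ, |fL O φ χ u x| ≤ M * ((ρ : ℝ) / R) ^ γ) ∧
      (∀ x, |fL O φ χ u x| ≤ M * (((s : ℝ) / R) ^ γ / (s : ℝ) ^ 2)) := by
  classical
  obtain ⟨β, hβ, hSD, hOut⟩ := G1.decay
  obtain ⟨γ1, hγ1, hγ11, hm⟩ := mass_bounds hβ (by norm_num) hSD hOut
  obtain ⟨D, hD, hgd⟩ := green_decay hβ (by norm_num) hSD
  obtain ⟨A, hA, hfl⟩ := fL_bound hβ (by norm_num) hSD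
  set γ2 := min 1 (β / 2) with hγ2
  have hγ20 : 0 < γ2 := lt_min one_pos (by positivity)
  set γ := min γ1 γ2 with hγ
  have hγ0 : 0 < γ := lt_min hγ1 hγ20
  have hγ1' : γ ≤ 1 := (min_le_left _ _).trans hγ11
  refine ⟨γ, hγ0, hγ1', fun C0' => ?_⟩
  set C0 := max C0' 0 with hC0d
  have hC0 : 0 ≤ C0 := le_max_right _ _
  obtain ⟨M1, hM10, hM⟩ := hm C0'
  set M2 := 100 * A * (C0 + 1) * (2 * D * C0 + C0) + C0 with hM2
  have hM20 : 0 ≤ M2 := by positivity
  refine ⟨M1 + M2, by positivity, ?_⟩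
  intro R O s χ φ u hR hOR hCP hs hsR hχ hu hφ
  have hC0e : C0 = C0' := max_eq_left (cut_C0_nonneg hχ)
  obtain ⟨h1, h2⟩ := hM R O s χ φ u hR hOR hCP hs hχ hu hφ
  have hR0 : (0 : ℝ) < R := by exact_mod_cast hR
  have hs0 : (0 : ℝ) < s := by exact_mod_cast hs
  refine ⟨h1.trans (by linarith), fun p ρ hsρ hρR => ?_, fun x => ?_⟩
  · refine (h2 p ρ hsρ hρR).trans ?_
    have hρ0 : (0 : ℝ) < ρ := by
      have : 0 < ρ := by omega
      exact_mod_cast this
    have hr : (ρ : ℝ) / R ≤ 1 := by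
      rw [div_le_one hR0]; exact_mod_cast hρR
    have h3 : ((ρ : ℝ) / R) ^ γ1 ≤ ((ρ : ℝ) / R) ^ γ :=
      Real.rpow_le_rpow_of_exponent_ge (by positivity) hr (min_le_left _ _)
    calc M1 * ((ρ : ℝ) / R) ^ γ1 ≤ M1 * ((ρ : ℝ) / R) ^ γ := mul_le_mul_of_nonneg_left h3 hM10
      _ ≤ _ := mul_le_mul_of_nonneg_right (by linarith) (by positivity)
  · have hsr : (s : ℝ) / R ≤ 1 := by
      rw [div_le_one hR0]; exact_mod_cast hsR
    have hsr0 : 0 < (s : ℝ) / R := by positivity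
    set q := ((s : ℝ) / R) ^ γ / (s : ℝ) ^ 2 with hq
    have hq0 : 0 ≤ q := by positivity
    -- `R⁻² ≤ q`
    have hR2 : 1 / (R : ℝ) ^ 2 ≤ q := by
      have h3 : ((s : ℝ) / R) ^ (2 : ℝ) ≤ ((s : ℝ) / R) ^ γ :=
        Real.rpow_le_rpow_of_exponent_ge hsr0 hsr (by linarith)
      rw [show (2 : ℝ) = ((2 : ℕ) : ℝ) by norm_num, Real.rpow_natCast] at h3
      calc 1 / (R : ℝ) ^ 2 = ((s : ℝ) / R) ^ 2 / (s : ℝ) ^ 2 := by field_simp
        _ ≤ q := by rw [hq]; gcongr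
    have hOq : ∃ y, y ∉ O := exists_notMem ((box (0, 0) R).finite_toSet.subset hOR)
    have hOf : O.Finite := (box (0, 0) R).finite_toSet.subset hOR
    by_cases h0 : fL O φ χ u x = 0
    · rw [h0, abs_zero]; positivity
    obtain ⟨hxO, hx2⟩ := fL_supp hOq hs hχ hu h0
    have hsum : M2 * q ≤ (M1 + M2) * q := mul_le_mul_of_nonneg_right (by linarith) hq0
    refine le_trans ?_ hsum
    rcases Nat.lt_or_ge (dF O x) s with hlt | hge
    · rw [fL_below hOq hχ hxO hlt]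
      calc |φ x| ≤ C0' / (R : ℝ) ^ 2 := hφ x
        _ = C0 * (1 / (R : ℝ) ^ 2) := by rw [hC0e]; ring
        _ ≤ C0 * q := mul_le_mul_of_nonneg_left hR2 hC0
        _ ≤ M2 * q := by
            apply mul_le_mul_of_nonneg_right _ hq0
            have : 0 ≤ 100 * A * (C0 + 1) * (2 * D * C0 + C0) := by positivity
            linarith
    · set c := C0 / (R : ℝ) ^ 2 with hc
      have hc0 : 0 ≤ c := by positivity
      obtain ⟨ub, hub⟩ := exists_green hOf (fun _ => c)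
      have hub0 := green_nonneg hOf hub (fun _ _ => hc0)
      have hdom : ∀ y, |u y| ≤ ub y := abs_green_le hOf hu hub
        (fun y _ => (hφ y).trans_eq (by rw [hc, hC0e]))
      have h3 := hfl O s C0' χ φ u ub c x hOq hs hχ hu hge hc0 hdom
        (fun y hy => hub.eq y (mem_of_lt_dF (lt_of_lt_of_le hy hge)))
        (fun y _ => (hφ y).trans_eq (by rw [hc, hC0e]))
      have hubx : ub x ≤ C0 * (D * ((dF O x : ℝ) / R) ^ γ2) := by
        obtain ⟨u1, hu1⟩ := exists_green hOf (fun _ => 1 / (R : ℝ) ^ 2)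
        have h4 := hgd R O (0, 0) (fun _ => 1 / (R : ℝ) ^ 2) u1 hR
          (fun y hy => mem_box.1 (by exact_mod_cast hOR hy)) hCP hu1
          (fun y => by rw [abs_of_nonneg (by positivity)]) x
        have h5 : ub = fun y => C0 * u1 y := by
          apply green_unique hOf hub
          exact { off := fun y hy => by rw [hu1.off y hy, mul_zero]
                  eq := fun y hy => by
                    rw [lap_smul, hc]
                    have := hu1.eq y hy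
                    linear_combination C0 * this }
        rw [h5]
        exact mul_le_mul_of_nonneg_left ((le_abs_self _).trans h4) hC0
      have hdle : ((dF O x : ℝ) / R) ^ γ2 ≤ 2 * ((s : ℝ) / R) ^ γ := by
        calc ((dF O x : ℝ) / R) ^ γ2 ≤ (2 * ((s : ℝ) / R)) ^ γ2 := by
              apply Real.rpow_le_rpow (by positivity) _ hγ20.le
              have : (dF O x : ℝ) ≤ 2 * s := by exact_mod_cast hx2
              rw [← mul_div_assoc]
              gcongr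
          _ = 2 ^ γ2 * ((s : ℝ) / R) ^ γ2 := Real.mul_rpow (by norm_num) hsr0.le
          _ ≤ 2 * ((s : ℝ) / R) ^ γ := by
              apply mul_le_mul _ _ (by positivity) (by norm_num)
              · calc (2 : ℝ) ^ γ2 ≤ 2 ^ (1 : ℝ) :=
                    Real.rpow_le_rpow_of_exponent_le (by norm_num) (min_le_left _ _)
                  _ = 2 := Real.rpow_one _
              · exact Real.rpow_le_rpow_of_exponent_ge hsr0 hsr (min_le_right _ _)
      calc |fL O φ χ u x| ≤ 100 * A * (C0' + 1) * (ub x / s ^ 2 + c) := h3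
        _ = 100 * A * (C0 + 1) * (ub x / s ^ 2 + C0 * (1 / (R : ℝ) ^ 2)) := by rw [hc, hC0e]; ring
        _ ≤ 100 * A * (C0 + 1) * (2 * D * C0 * q + C0 * q) := by
            apply mul_le_mul_of_nonneg_left _ (by positivity)
            apply add_le_add
            · calc ub x / (s : ℝ) ^ 2 ≤ C0 * (D * (2 * ((s : ℝ) / R) ^ γ)) / (s : ℝ) ^ 2 := by
                    gcongr
                    exact hubx.trans (by gcongr)
                _ = 2 * D * C0 * q := by rw [hq]; ring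
            · exact mul_le_mul_of_nonneg_left hR2 hC0
        _ ≤ M2 * q := by rw [hM2]; nlinarith [mul_nonneg hC0 hq0]

end Vale.Agent.P155.H904
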