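import Vale.Agent.P155.H904.SumU

/-!
# P155 block I: choice of parameters, trivial bound
-/

namespace Vale.Agent.P155.H904

open Vale.Agent.P155 Finset Skel

theorem Lg_le {ε : ℝ} (hε : 0 < ε) : ∃ K : ℝ, 1 ≤ K ∧ ∀ R : ℕ, 1 ≤ R → Lg R ≤ K * (R : ℝ) ^ ε := by
  refine ⟨4 + 1 / ε, by have : 0 < 1 / ε := by positivity
                        linarith, ?_⟩
  intro R hR
  have hR' : (1 : ℝ) ≤ R := by exact_mod_cast hR
  have h1 : Real.log ((R : ℝ) + 2) ≤ 2 + Real.log R := by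
    have h2 : (R : ℝ) + 2 ≤ Real.exp 2 * R := by
      have := Real.add_one_le_exp (2 : ℝ)
      nlinarith
    calc Real.log ((R : ℝ) + 2) ≤ Real.log (Real.exp 2 * R) := Real.log_le_log (by linarith) h2
      _ = 2 + Real.log R := by
        rw [Real.log_mul (Real.exp_pos 2).ne' (by linarith), Real.log_exp]
  have h3 := Real.log_le_rpow_div (by linarith : (0 : ℝ) ≤ R) hε
  have h4 : 1 ≤ (R : ℝ) ^ ε := Real.one_le_rpow hR' hε.le
  unfold Lg
  have h5 : (R : ℝ) ^ ε / ε = (1 / ε) * (R : ℝ) ^ ε := by ring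
  rw [h5] at h3
  have h6 : 0 ≤ 1 / ε := by positivity
  nlinarith

/-- the parameters -/
noncomputable def pr (θ : ℝ) (R : ℕ) : ℕ := ⌈(R : ℝ) ^ (1 - 3 * θ)⌉₊
noncomputable def pL (θ : ℝ) (R : ℕ) : ℕ := ⌈(R : ℝ) ^ (1 - 2 * θ)⌉₊
noncomputable def pd (θ : ℝ) (R : ℕ) : ℕ := pr θ R + 2 + 2 * pL θ R
noncomputable def pρ (θ : ℝ) (R : ℕ) : ℕ := 6 * pd θ R + 22

theorem params {θ : ℝ} (h0 : 0 < θ) (h1 : θ ≤ 1 / 8) {R : ℕ} (hR : 1 ≤ R) :
    (pr θ R : ℝ) ≤ 2 * (R : ℝ) ^ (1 - 3 * θ) ∧ (R : ℝ) ^ (1 - 3 * θ) ≤ pr θ R ∧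
    (R : ℝ) ^ (1 - 2 * θ) ≤ pL θ R ∧ (pL θ R : ℝ) ≤ 2 * R ∧
    (pρ θ R : ℝ) ≤ 100 * (R : ℝ) ^ (1 - 2 * θ) := by
  have hR' : (1 : ℝ) ≤ R := by exact_mod_cast hR
  set x := (R : ℝ) ^ (1 - 3 * θ) with hx
  set y := (R : ℝ) ^ (1 - 2 * θ) with hy
  have x1 : 1 ≤ x := Real.one_le_rpow hR' (by linarith)
  have y1 : 1 ≤ y := Real.one_le_rpow hR' (by linarith)
  have xy : x ≤ y := Real.rpow_le_rpow_of_exponent_le hR' (by linarith)
  have yR : y ≤ R := by
    calc y ≤ (R : ℝ) ^ (1 : ℝ) := Real.rpow_le_rpow_of_exponent_le hR' (by linarith)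
      _ = R := Real.rpow_one _
  have r1 : (pr θ R : ℝ) ≤ x + 1 := (Nat.ceil_lt_add_one (by positivity)).le
  have r2 : x ≤ pr θ R := Nat.le_ceil _
  have L1 : (pL θ R : ℝ) ≤ y + 1 := (Nat.ceil_lt_add_one (by positivity)).le
  have L2 : y ≤ pL θ R := Nat.le_ceil _
  refine ⟨by linarith, r2, L2, by linarith, ?_⟩
  unfold pρ pd
  push_cast
  linarith

theorem params_large {θ : ℝ} (h0 : 0 < θ) (h1 : θ ≤ 1 / 8) {C0 : ℝ} (hC0 : 1 ≤ C0) :
    ∃ R0 : ℕ, ∀ R : ℕ, 1 ≤ R → R0 ≤ R → 2 * (pr θ R + 2) + 1 ≤ pL θ R ∧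
      12 * C0 * (pρ θ R : ℝ) < R := by
  refine ⟨⌈(1201 * C0) ^ (1 / θ)⌉₊, ?_⟩
  intro R hR hR0
  have hR' : (1 : ℝ) ≤ R := by exact_mod_cast hR
  have hRpos : (0 : ℝ) < R := by linarith
  obtain ⟨p1, _, p3, _, p5⟩ := params h0 h1 hR
  have hbig : 1201 * C0 ≤ (R : ℝ) ^ θ := by
    have h2 : (1201 * C0) ^ (1 / θ) ≤ (R : ℝ) := (Nat.le_ceil _).trans (by exact_mod_cast hR0)
    have h3 := Real.rpow_le_rpow (by positivity) h2 h0.le
    rwa [← Real.rpow_mul (by positivity), one_div_mul_cancel h0.ne', Real.rpow_one] at h3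
  have e1 : (R : ℝ) ^ (1 - 2 * θ) = (R : ℝ) ^ θ * (R : ℝ) ^ (1 - 3 * θ) := by
    rw [← Real.rpow_add hRpos]; ring_nf
  have x1 : 1 ≤ (R : ℝ) ^ (1 - 3 * θ) := Real.one_le_rpow hR' (by linarith)
  constructor
  · have : (2 * (pr θ R + 2) + 1 : ℝ) ≤ pL θ R := by
      refine le_trans ?_ p3
      rw [e1]
      nlinarith
    exact_mod_cast this
  · have e2 : (R : ℝ) = (R : ℝ) ^ (2 * θ) * (R : ℝ) ^ (1 - 2 * θ) := by
      rw [← Real.rpow_add hRpos]
      simp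
    have e3 : (R : ℝ) ^ θ ≤ (R : ℝ) ^ (2 * θ) :=
      Real.rpow_le_rpow_of_exponent_le hR' (by linarith)
    have y1 : 0 < (R : ℝ) ^ (1 - 2 * θ) := by positivity
    calc 12 * C0 * (pρ θ R : ℝ) ≤ 12 * C0 * (100 * (R : ℝ) ^ (1 - 2 * θ)) := by
          apply mul_le_mul_of_nonneg_left p5 (by positivity)
      _ = 1200 * C0 * (R : ℝ) ^ (1 - 2 * θ) := by ring
      _ < (R : ℝ) ^ (2 * θ) * (R : ℝ) ^ (1 - 2 * θ) := by
          apply mul_lt_mul_of_pos_right _ y1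
          linarith
      _ = R := e2.symm

/-- the gain factor -/
theorem gain_le {θ β : ℝ} (h0 : 0 < θ) (h1 : θ ≤ 1 / 8) (hβ : 0 < β) {R : ℕ} (hR : 1 ≤ R) :
    (3 * ((pr θ R : ℝ) + 2) / ((pL θ R : ℝ) + 1)) ^ β * (2 + Real.log (pL θ R)) ≤
      2 * (12 : ℝ) ^ β * (R : ℝ) ^ (-(θ * β)) * Lg R := by
  have hR' : (1 : ℝ) ≤ R := by exact_mod_cast hR
  have hRpos : (0 : ℝ) < R := by linarith
  obtain ⟨p1, p2, p3, p4, p5⟩ := params h0 h1 hR
  have x1 : 1 ≤ (R : ℝ) ^ (1 - 3 * θ) := Real.one_le_rpow hR' (by linarith)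
  have y1 : 1 ≤ (R : ℝ) ^ (1 - 2 * θ) := Real.one_le_rpow hR' (by linarith)
  have e1 : (R : ℝ) ^ (1 - 3 * θ) = (R : ℝ) ^ (-θ) * (R : ℝ) ^ (1 - 2 * θ) := by
    rw [← Real.rpow_add hRpos]; ring_nf
  have h2 : 3 * ((pr θ R : ℝ) + 2) / ((pL θ R : ℝ) + 1) ≤ 12 * (R : ℝ) ^ (-θ) := by
    rw [div_le_iff₀ (by positivity)]
    calc 3 * ((pr θ R : ℝ) + 2) ≤ 12 * (R : ℝ) ^ (1 - 3 * θ) := by linarith
      _ = 12 * (R : ℝ) ^ (-θ) * (R : ℝ) ^ (1 - 2 * θ) := by rw [e1]; ring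
      _ ≤ 12 * (R : ℝ) ^ (-θ) * ((pL θ R : ℝ) + 1) := by
        apply mul_le_mul_of_nonneg_left (by linarith) (by positivity)
  have h3 : (3 * ((pr θ R : ℝ) + 2) / ((pL θ R : ℝ) + 1)) ^ β ≤ (12 : ℝ) ^ β *
      (R : ℝ) ^ (-(θ * β)) := by
    refine (Real.rpow_le_rpow (by positivity) h2 hβ.le).trans (le_of_eq ?_)
    rw [Real.mul_rpow (by norm_num) (by positivity), ← Real.rpow_mul hRpos.le, neg_mul]
  have h4 : 2 + Real.log (pL θ R) ≤ 2 * Lg R := by
    have hL1 : (1 : ℝ) ≤ pL θ R := by linarith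
    have h5 : Real.log (pL θ R) ≤ Real.log 2 + Real.log ((R : ℝ) + 2) := by
      rw [← Real.log_mul (by norm_num) (by positivity)]
      apply Real.log_le_log (by linarith)
      linarith
    have := Real.log_two_lt_d9
    have h6 : 0 ≤ Real.log ((R : ℝ) + 2) := Real.log_nonneg (by linarith)
    unfold Lg
    linarith
  have h7 : 0 ≤ 2 + Real.log (pL θ R) := by
    have hL1 : (1 : ℝ) ≤ pL θ R := by linarith
    have := Real.log_nonneg hL1
    linarith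
  calc _ ≤ ((12 : ℝ) ^ β * (R : ℝ) ^ (-(θ * β))) * (2 * Lg R) :=
        mul_le_mul h3 h4 h7 (by positivity)
    _ = _ := by ring

/-- **Trivial bound** (for small `R`). -/
theorem trivial_bound {T : Temp} {R : ℕ} (hFits : Fits T R) {ψ : Pt → ℝ}
    (hψ : ∀ f, f ∉ T.faceSet → ψ f = 0) {B : ℝ} (hB : ∀ f, |ψ f| ≤ B) :
    Ex T.V (fun ω => (hf ω (lap ψ)) ^ 2) ≤
      ((2 * (R : ℝ) + 3) ^ 2 * (8 * B * (2 * R + 5))) ^ 2 := by
  have hB0 : 0 ≤ B := (abs_nonneg _).trans (hB (0, 0))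
  have key : ∀ ω ∈ DD T.V, (hf ω (lap ψ)) ^ 2 ≤
      ((2 * (R : ℝ) + 3) ^ 2 * (8 * B * (2 * R + 5))) ^ 2 := by
    intro ω hω
    apply sq_le_sq'
    all_goals
      have hsum : hf ω (lap ψ) = ∑ x ∈ box (0, 0) (R + 1), lap ψ x * (h ω x : ℝ) := by
        unfold hf
        apply finsum_eq_sum_of_support_subset
        intro x hx
        rw [Function.mem_support] at hx
        have hl : lap ψ x ≠ 0 := fun h => hx (by rw [h, zero_mul])
        rw [mem_coe, G45.mem_box]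
        by_contra hc
        apply hl
        have hz : ∀ y, dn x y ≤ 1 → ψ y = 0 := by
          intro y hy
          apply hψ
          intro hyf
          have h1 : dn (0, 0) y ≤ R := G45.mem_box.1 (by exact_mod_cast hFits hyf)
          have h2 := dn_tri (0, 0) y x
          rw [dn_comm y x] at h2
          omega
        unfold lap
        rw [hz x (by rw [dn_self]; omega), hz _ (dn_adj (adj_r x)), hz _ (dn_adj (adj_l x)),
          hz _ (dn_adj (adj_u x)), hz _ (dn_adj (adj_d x))]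
        ring
      have habs : |hf ω (lap ψ)| ≤ (2 * (R : ℝ) + 3) ^ 2 * (8 * B * (2 * R + 5)) := by
        rw [hsum]
        refine (abs_sum_le_sum_abs _ _).trans ?_
        have h1 : ∀ x ∈ box (0, 0) (R + 1), |lap ψ x * (h ω x : ℝ)| ≤ 8 * B * (2 * R + 5) := by
          intro x _
          rw [abs_mul]
          apply mul_le_mul _ _ (abs_nonneg _) (by positivity)
          · unfold lap
            have b1 := hB (x.1 + 1, x.2)
            have b2 := hB (x.1 - 1, x.2)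
            have b3 := hB (x.1, x.2 + 1)
            have b4 := hB (x.1, x.2 - 1)
            have b5 := hB x
            rw [abs_le] at *
            constructor <;> linarith
          · have := J.abs_h_le hFits hω x
            exact_mod_cast this
        refine (sum_le_sum h1).trans ?_
        rw [sum_const, G45.card_box, nsmul_eq_mul]
        push_cast
        apply mul_le_mul_of_nonneg_right _ (by positivity)
        apply le_of_eq
        ring
      have := abs_le.1 habs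
      first | exact this.1 | exact this.2
  by_cases hne : (DD T.V).card = 0
  · have h0 : Ex T.V (fun ω => (hf ω (lap ψ)) ^ 2) = 0 := by
      unfold Ex
      rw [hne]
      simp
    rw [h0]
    positivity
  · unfold Ex
    rw [smul_eq_mul]
    have hpos : (0 : ℝ) < (DD T.V).card := by exact_mod_cast Nat.pos_of_ne_zero hne
    rw [inv_mul_le_iff₀ hpos]
    refine (sum_le_sum key).trans ?_
    rw [sum_const, nsmul_eq_mul]

end Vale.Agent.P155.H904
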