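import Vale.Agent.P155.H904.Gain

/-!
# P155 block I: rows of the inverse Kasteleyn matrix of a Temperleyan graph
-/

namespace Vale.Agent.P155.H904

open Vale.Agent.P155 Finset

/-- the geometric facts about a Temperleyan graph used in block I -/
structure TGeo (T : Temp) : Prop where
  fin : T.cells.Finite
  cin : Conn T.cells
  cout : Conn T.cellsᶜ
  v0 : ∃ f ∈ T.cells, Corner f (T.γ.c T.i0)
  row : ∀ b b', Black b → Black b' → b ∈ T.V → b' ∈ T.V →
    ∑ w ∈ nbrs b', Kinv T.V b w * K w b' = if b' = b then 1 else 0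

theorem mem_closed_iff (T : Temp) (v : Pt) : v ∈ T.closedVerts ↔
    ∃ f ∈ T.cells, 2 * f.1 ≤ v.1 ∧ v.1 ≤ 2 * f.1 + 2 ∧ 2 * f.2 ≤ v.2 ∧ v.2 ≤ 2 * f.2 + 2 := Iff.rfl

theorem closed_finite {T : Temp} (h : T.cells.Finite) : T.closedVerts.Finite := by
  obtain ⟨M, hM⟩ := exists_box_of_finite h
  apply Set.Finite.subset (s := (Set.Icc (-(2 * M + 2 : ℤ)) (2 * M + 2)) ×ˢ
    (Set.Icc (-(2 * M + 2 : ℤ)) (2 * M + 2)))
  · exact (Set.finite_Icc _ _).prod (Set.finite_Icc _ _)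
  · rintro v ⟨f, hf, h1, h2, h3, h4⟩
    have := hM f hf
    simp only [abs_le] at this
    simp only [Set.mem_prod, Set.mem_Icc]
    omega

theorem mem_V_iff {T : Temp} (h : T.cells.Finite) (v : Pt) :
    v ∈ T.V ↔ v ∈ T.closedVerts ∧ v ≠ T.v0 := by
  have hf : (T.closedVerts \ {T.v0}).Finite := (closed_finite h).subset Set.sdiff_subset
  unfold Temp.V
  rw [dif_pos hf, Set.Finite.mem_toFinset]
  simp

/-- the white point between the cells `f` and `f + (1,0)` -/
def wx (f : Pt) : Pt := (2 * f.1 + 2, 2 * f.2 + 1)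
/-- the white point between the cells `f` and `f + (0,1)` -/
def wy (f : Pt) : Pt := (2 * f.1 + 1, 2 * f.2 + 2)
/-- the fine point of a coarse vertex -/
def dbl (v : Pt) : Pt := (2 * v.1, 2 * v.2)
/-- the centre of a cell -/
def ctr (f : Pt) : Pt := (2 * f.1 + 1, 2 * f.2 + 1)

theorem wx_mem {T : Temp} (h : T.cells.Finite) (f : Pt) :
    wx f ∈ T.V ↔ f ∈ T.cells ∨ (f.1 + 1, f.2) ∈ T.cells := by
  rw [mem_V_iff h, mem_closed_iff]
  constructor
  · rintro ⟨⟨c, hc, h1, h2, h3, h4⟩, -⟩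
    simp only [wx] at h1 h2 h3 h4
    have : c = f ∨ c = (f.1 + 1, f.2) := by
      by_cases h5 : c.1 = f.1
      · left; ext <;> omega
      · right; ext <;> simp only <;> omega
    rcases this with rfl | rfl
    · exact Or.inl hc
    · exact Or.inr hc
  · intro hh
    refine ⟨?_, ?_⟩
    · rcases hh with hh | hh
      · exact ⟨_, hh, by simp only [wx]; omega⟩
      · exact ⟨_, hh, by simp only [wx]; omega⟩
    · intro hc
      have := congrArg Prod.snd hc
      simp only [wx, Temp.v0] at this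
      omega

theorem wy_mem {T : Temp} (h : T.cells.Finite) (f : Pt) :
    wy f ∈ T.V ↔ f ∈ T.cells ∨ (f.1, f.2 + 1) ∈ T.cells := by
  rw [mem_V_iff h, mem_closed_iff]
  constructor
  · rintro ⟨⟨c, hc, h1, h2, h3, h4⟩, -⟩
    simp only [wy] at h1 h2 h3 h4
    have : c = f ∨ c = (f.1, f.2 + 1) := by
      by_cases h5 : c.2 = f.2
      · left; ext <;> omega
      · right; ext <;> simp only <;> omega
    rcases this with rfl | rfl
    · exact Or.inl hc
    · exact Or.inr hc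
  · intro hh
    refine ⟨?_, ?_⟩
    · rcases hh with hh | hh
      · exact ⟨_, hh, by simp only [wy]; omega⟩
      · exact ⟨_, hh, by simp only [wy]; omega⟩
    · intro hc
      have := congrArg Prod.fst hc
      simp only [wy, Temp.v0] at this
      omega

theorem Kinv_off {V : Finset Pt} {b w : Pt} (h : w ∉ V) : Kinv V b w = 0 := by
  unfold Kinv
  split_ifs <;> rfl

/-- the dual form of a row -/
noncomputable def rx (T : Temp) (b : Pt) (f : Pt) : ℝ := Kinv T.V b (wx f)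
noncomputable def ry (T : Temp) (b : Pt) (f : Pt) : ℝ := Kinv T.V b (wy f)

theorem carr_row {T : Temp} (h : T.cells.Finite) (b : Pt) : Carr T.cells (rx T b) (ry T b) := by
  constructor
  · intro f h1 h2
    apply Kinv_off
    rw [wx_mem h]
    tauto
  · intro f h1 h2
    apply Kinv_off
    rw [wy_mem h]
    tauto

theorem sum_nbrs (F : Pt → ℝ) (v : Pt) : ∑ w ∈ nbrs v, F w =
    F (v.1 + 1, v.2) + F (v.1 - 1, v.2) + F (v.1, v.2 + 1) + F (v.1, v.2 - 1) := by
  unfold nbrs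
  rw [sum_insert, sum_insert, sum_insert, sum_singleton]
  · ring
  · simp; omega
  · simp
  · simp; omega

theorem sg_even {y : ℤ} (h : Even y) : sg y = 1 := if_pos h
theorem sg_odd {y : ℤ} (h : ¬ Even y) : sg y = -1 := if_neg h

theorem K_right (w : Pt) : K w (w.1 + 1, w.2) = 1 := if_pos rfl
theorem K_left (w : Pt) : K w (w.1 - 1, w.2) = -1 := by
  unfold K
  rw [if_neg (by simp; omega), if_pos rfl]
theorem K_up (w : Pt) : K w (w.1, w.2 + 1) = sg w.2 := by
  unfold K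
  rw [if_neg (by simp), if_neg (by simp), if_pos rfl]
theorem K_down (w : Pt) : K w (w.1, w.2 - 1) = - sg w.2 := by
  unfold K
  rw [if_neg (by simp), if_neg (by simp), if_neg (by simp; omega), if_pos rfl]

/-- the row sum at a black point -/
theorem row_sum (T : Temp) (b b' : Pt) : ∑ w ∈ nbrs b', Kinv T.V b w * K w b' =
    - Kinv T.V b (b'.1 + 1, b'.2) + Kinv T.V b (b'.1 - 1, b'.2)
    - sg (b'.2 + 1) * Kinv T.V b (b'.1, b'.2 + 1) + sg (b'.2 - 1) * Kinv T.V b (b'.1, b'.2 - 1) := by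
  rw [sum_nbrs]
  have e1 := K_left (b'.1 + 1, b'.2)
  have e2 := K_right (b'.1 - 1, b'.2)
  have e3 := K_down (b'.1, b'.2 + 1)
  have e4 := K_up (b'.1, b'.2 - 1)
  simp only [add_sub_cancel_right, sub_add_cancel] at e1 e2 e3 e4
  have : ((b'.1, b'.2) : Pt) = b' := rfl
  rw [this] at e1 e2 e3 e4
  rw [e1, e2, e3, e4]
  ring

theorem curl_row {T : Temp} (b v : Pt) :
    curl (rx T b) (ry T b) v = - ∑ w ∈ nbrs (dbl v), Kinv T.V b w * K w (dbl v) := by
  rw [row_sum]
  have h1 : sg ((dbl v).2 + 1) = -1 := sg_odd (by simp [dbl])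
  have h2 : sg ((dbl v).2 - 1) = -1 := sg_odd (by simp [dbl])
  rw [h1, h2]
  unfold curl rx ry wx wy dbl
  have e1 : ((2 * (v.1 - 1) + 2, 2 * (v.2 - 1) + 1) : Pt) = (2 * v.1, 2 * v.2 - 1) := by
    ext <;> simp only <;> ring
  have e2 : ((2 * v.1 + 1, 2 * (v.2 - 1) + 2) : Pt) = (2 * v.1 + 1, 2 * v.2) := by
    ext <;> simp only <;> ring
  have e3 : ((2 * (v.1 - 1) + 1, 2 * (v.2 - 1) + 2) : Pt) = (2 * v.1 - 1, 2 * v.2) := by
    ext <;> simp only <;> ring
  have e4 : ((2 * (v.1 - 1) + 2, 2 * v.2 + 1) : Pt) = (2 * v.1, 2 * v.2 + 1) := by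
    ext <;> simp only <;> ring
  simp only [e1, e2, e3, e4]
  ring

theorem coc_row {T : Temp} (b f : Pt) :
    coc (rx T b) (ry T b) f = - ∑ w ∈ nbrs (ctr f), Kinv T.V b w * K w (ctr f) := by
  rw [row_sum]
  have h1 : sg ((ctr f).2 + 1) = 1 := sg_even (by simp [ctr])
  have h2 : sg ((ctr f).2 - 1) = 1 := sg_even (by simp [ctr])
  rw [h1, h2]
  unfold coc rx ry wx wy ctr
  have e1 : ((2 * f.1 + 1 + 1, 2 * f.2 + 1) : Pt) = (2 * f.1 + 2, 2 * f.2 + 1) := by
    ext <;> simp only <;> ring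
  have e2 : ((2 * f.1 + 1 - 1, 2 * f.2 + 1) : Pt) = (2 * (f.1 - 1) + 2, 2 * f.2 + 1) := by
    ext <;> simp only <;> ring
  have e3 : ((2 * f.1 + 1, 2 * f.2 + 1 + 1) : Pt) = (2 * f.1 + 1, 2 * f.2 + 2) := by
    ext <;> simp only <;> ring
  have e4 : ((2 * f.1 + 1, 2 * f.2 + 1 - 1) : Pt) = (2 * f.1 + 1, 2 * (f.2 - 1) + 2) := by
    ext <;> simp only <;> ring
  simp only [e1, e2, e3, e4]
  ring

theorem black_dbl (v : Pt) : Black (dbl v) := by
  simp only [Black, dbl]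
  exact ⟨v.1 + v.2, by ring⟩

theorem black_ctr (f : Pt) : Black (ctr f) := by
  simp only [Black, ctr]
  exact ⟨f.1 + f.2 + 1, by ring⟩

theorem ctr_mem {T : Temp} (h : T.cells.Finite) {f : Pt} (hf : f ∈ T.cells) : ctr f ∈ T.V := by
  rw [mem_V_iff h, mem_closed_iff]
  refine ⟨⟨f, hf, by simp only [ctr]; omega⟩, ?_⟩
  intro hc
  have := congrArg Prod.fst hc
  simp only [ctr, Temp.v0] at this
  omega

theorem v0_eq (T : Temp) : T.v0 = dbl (T.γ.c T.i0) := rfl

theorem dbl_inj {u v : Pt} (h : dbl u = dbl v) : u = v := by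
  simp only [dbl, Prod.mk.injEq] at h
  ext <;> omega

/-- the row sum at an even point off the graph (other than `v0`) vanishes -/
theorem row_off {T : Temp} (h : T.cells.Finite) (b : Pt) {v : Pt} (hv : dbl v ∉ T.V)
    (hv0 : v ≠ T.γ.c T.i0) : ∑ w ∈ nbrs (dbl v), Kinv T.V b w * K w (dbl v) = 0 := by
  have hcl : dbl v ∉ T.closedVerts := by
    intro hc
    apply hv
    rw [mem_V_iff h]
    exact ⟨hc, fun he => hv0 (dbl_inj he)⟩
  apply sum_eq_zero
  intro w hw
  rw [Kinv_off, zero_mul]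
  rw [mem_V_iff h]
  rintro ⟨hc, -⟩
  apply hcl
  rw [mem_closed_iff] at hc ⊢
  obtain ⟨f, hf, h1, h2, h3, h4⟩ := hc
  refine ⟨f, hf, ?_⟩
  simp only [nbrs, dbl, mem_insert, mem_singleton] at hw
  simp only [dbl]
  rcases hw with rfl | rfl | rfl | rfl <;> simp only at h1 h2 h3 h4 <;> omega

theorem curl_row_eq {T : Temp} (g : TGeo T) {b : Pt} (hb : Black b) (hbV : b ∈ T.V) {v : Pt}
    (hv : v ≠ T.γ.c T.i0) : curl (rx T b) (ry T b) v = if dbl v = b then -1 else 0 := by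
  rw [curl_row]
  by_cases h : dbl v ∈ T.V
  · rw [g.row b (dbl v) hb (black_dbl v) hbV h]
    split_ifs <;> simp
  · rw [row_off g.fin b h hv]
    have : dbl v ≠ b := by rintro rfl; exact h hbV
    simp [this]

theorem coc_row_eq {T : Temp} (g : TGeo T) {b : Pt} (hb : Black b) (hbV : b ∈ T.V) {f : Pt}
    (hf : f ∈ T.cells) : coc (rx T b) (ry T b) f = if ctr f = b then -1 else 0 := by
  rw [coc_row, g.row b (ctr f) hb (black_ctr f) hbV (ctr_mem g.fin hf)]
  split_ifs <;> simp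

/-- unpinched -/
def Unp (T : Temp) (b : Pt) (O : Set Pt) : Prop :=
  (∃ f, b = ctr f) ∨ ∃ v, b = dbl v ∧ Relation.ReflTransGen (St T.cells O) v (T.γ.c T.i0)

theorem dbl_ne_ctr (u v : Pt) : dbl u ≠ ctr v := by
  intro h
  have := congrArg Prod.fst h
  simp only [dbl, ctr] at this
  omega

/-- the potential of the row of `b` near `x` -/
theorem exists_pot {T : Temp} (g : TGeo T) {b : Pt} (hb : Black b) (hbV : b ∈ T.V) {O : Set Pt}
    (hO : O ⊆ T.cells) (hfar : ∀ f ∈ O, b ≠ ctr f) (hunp : Unp T b O) :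
    ∃ σ : Pt → ℝ, (∀ f, f ∉ T.cells → σ f = 0) ∧
      (∀ f : Pt, (f ∈ O ∨ (f.1 + 1, f.2) ∈ O) → σ (f.1 + 1, f.2) - σ f = rx T b f) ∧
      (∀ f : Pt, (f ∈ O ∨ (f.1, f.2 + 1) ∈ O) → σ (f.1, f.2 + 1) - σ f = ry T b f) ∧
      ∀ f ∈ O, lap σ f = 0 := by
  have main : ∃ (px py : Pt → ℝ) (M : ℕ), Bdd px M ∧ Bdd py M ∧
      (∀ f, px f ≠ 0 → Ok' T.cells O f (f.1 + 1, f.2)) ∧
      (∀ f, py f ≠ 0 → Ok' T.cells O f (f.1, f.2 + 1)) ∧
      ∀ u, u ≠ T.γ.c T.i0 → curl px py u = if dbl u = b then -1 else 0 := by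
    rcases hunp with ⟨f, rfl⟩ | ⟨v, rfl, hpath⟩
    · refine ⟨fun _ => 0, fun _ => 0, 0, Bdd.zero, Bdd.zero, ?_, ?_, ?_⟩
      · intro f h; simp at h
      · intro f h; simp at h
      · intro u _
        simp [curl, dbl_ne_ctr]
    · obtain ⟨px, py, M, h1, h2, h3, h4, h5⟩ := uflow_of_path hpath
      refine ⟨px, py, M, h1, h2, h3, h4, ?_⟩
      intro u hu
      rw [h5 u]
      unfold dt
      rw [if_neg hu]
      by_cases huv : u = v
      · simp [huv]
      · have : dbl u ≠ dbl v := fun h => huv (dbl_inj h)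
        simp [huv, this]
  obtain ⟨px, py, M, h1, h2, h3, h4, h5⟩ := main
  obtain ⟨σ, s1, s2, s3⟩ := exists_sigma g.fin g.cout (carr_row g.fin b) h1 h2 h3 h4
    (v0 := T.γ.c T.i0) (by
      intro v hv
      rw [h5 v hv, curl_row_eq g hb hbV hv])
  refine ⟨σ, s1, s2, s3, ?_⟩
  intro f hf
  rw [lap_of_sigma s2 s3 hf, coc_row_eq g hb hbV (hO hf), if_neg]
  exact fun h => hfar f hf h.symm

/-- `x` is a cell of the polygon next to the white point `w` -/
def CellAt (T : Temp) (x w : Pt) : Prop :=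
  x ∈ T.cells ∧ (w = wx x ∨ w = wx (x.1 - 1, x.2) ∨ w = wy x ∨ w = wy (x.1, x.2 - 1))

theorem exists_cellAt {T : Temp} (h : T.cells.Finite) {w : Pt} (hw : White w) (hwV : w ∈ T.V) :
    ∃ x, CellAt T x w := by
  rw [mem_V_iff h, mem_closed_iff] at hwV
  obtain ⟨⟨f, hf, h1, h2, h3, h4⟩, -⟩ := hwV
  refine ⟨f, hf, ?_⟩
  unfold White at hw
  obtain ⟨k, hk⟩ := hw
  have : w = wx f ∨ w = wx (f.1 - 1, f.2) ∨ w = wy f ∨ w = wy (f.1, f.2 - 1) := by
    simp only [wx, wy]
    by_cases c1 : w.1 = 2 * f.1 + 2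
    · left; ext <;> simp only <;> omega
    by_cases c2 : w.1 = 2 * f.1
    · right; left; ext <;> simp only <;> omega
    by_cases c3 : w.2 = 2 * f.2 + 2
    · right; right; left; ext <;> simp only <;> omega
    right; right; right; ext <;> simp only <;> omega
  exact this

theorem CellAt.dn_le {T : Temp} {x w : Pt} (h : CellAt T x w) : dn (ctr x) w ≤ 1 := by
  rw [dn_le_iff]
  rcases h.2 with rfl | rfl | rfl | rfl <;> simp only [ctr, wx, wy, abs_le] <;> omega

/-- even black neighbours of a white point are corners of the cells next to it -/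
theorem CellAt.corner {T : Temp} {x w v : Pt} (h : CellAt T x w) (hv : Adj w (dbl v)) :
    Corner x v := by
  have hv' := adj_cases hv
  simp only [dbl, Prod.mk.injEq] at hv'
  unfold Corner
  rcases h.2 with rfl | rfl | rfl | rfl <;> simp only [wx, wy] at hv' <;> omega

end Vale.Agent.P155.H904
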