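import Vale.Agent.P155.H904.Form

/-!
# P155 block I: the potential of a row of the inverse Kasteleyn matrix off a path
-/

namespace Vale.Agent.P155.H904

open Vale.Agent.P155 Finset

/-- the four ways of being adjacent -/
theorem adj_cases {a b : Pt} (h : Adj a b) : b = (a.1 + 1, a.2) ∨ b = (a.1 - 1, a.2) ∨
    b = (a.1, a.2 + 1) ∨ b = (a.1, a.2 - 1) := by
  have := mem_nbrs.2 h
  simpa [nbrs] using this

theorem adj_r (a : Pt) : Adj a (a.1 + 1, a.2) := mem_nbrs.1 (by simp [nbrs])
theorem adj_l (a : Pt) : Adj a (a.1 - 1, a.2) := mem_nbrs.1 (by simp [nbrs])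
theorem adj_u (a : Pt) : Adj a (a.1, a.2 + 1) := mem_nbrs.1 (by simp [nbrs])
theorem adj_d (a : Pt) : Adj a (a.1, a.2 - 1) := mem_nbrs.1 (by simp [nbrs])

theorem adj_symm {a b : Pt} (h : Adj a b) : Adj b a := by
  unfold Adj at *
  rw [abs_sub_comm b.1, abs_sub_comm b.2]
  exact h

/-- connectedness of a set of cells -/
def Conn (S : Set Pt) : Prop :=
  ∀ f ∈ S, ∀ g ∈ S, Relation.ReflTransGen (fun a b => Adj a b ∧ b ∈ S) f g

/-- a form carried by the edges of the cells of `D` -/
structure Carr (D : Set Pt) (ax ay : Pt → ℝ) : Prop where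
  x : ∀ f : Pt, f ∉ D → (f.1 + 1, f.2) ∉ D → ax f = 0
  y : ∀ f : Pt, f ∉ D → (f.1, f.2 + 1) ∉ D → ay f = 0

theorem exists_box_of_finite {D : Set Pt} (hD : D.Finite) :
    ∃ M : ℕ, ∀ f ∈ D, |f.1| ≤ M ∧ |f.2| ≤ M := by
  refine ⟨hD.toFinset.sup (fun f => max f.1.natAbs f.2.natAbs), ?_⟩
  intro f hf
  have h := Finset.le_sup (f := fun f : Pt => max f.1.natAbs f.2.natAbs) (hD.mem_toFinset.2 hf)
  rw [Int.abs_eq_natAbs, Int.abs_eq_natAbs]
  constructor <;> omega

theorem Carr.bdd {D : Set Pt} {ax ay : Pt → ℝ} (h : Carr D ax ay) (hD : D.Finite) :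
    ∃ M, Bdd ax M ∧ Bdd ay M ∧ ∀ f ∈ D, |f.1| ≤ M ∧ |f.2| ≤ M := by
  obtain ⟨M, hM⟩ := exists_box_of_finite hD
  refine ⟨M + 1, ?_, ?_, ?_⟩
  · intro f hf
    have : f ∈ D ∨ (f.1 + 1, f.2) ∈ D := by
      by_contra hc
      push Not at hc
      exact hf (h.x f hc.1 hc.2)
    push_cast
    rcases this with h' | h'
    · have := hM _ h'
      omega
    · have := hM _ h'
      simp only [abs_le] at *
      omega
  · intro f hf
    have : f ∈ D ∨ (f.1, f.2 + 1) ∈ D := by
      by_contra hc
      push Not at hc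
      exact hf (h.y f hc.1 hc.2)
    push_cast
    rcases this with h' | h'
    · have := hM _ h'
      omega
    · have := hM _ h'
      simp only [abs_le] at *
      omega
  · intro f hf
    have := hM f hf
    push_cast
    omega

/-- The potential: `θ = (ax, ay)` is a form carried by `D`; `p` is a form carried by edges of `D`
not touching cells of `O`, with the same curl as `θ` off `v0`. Then `θ - p = dσ`, `σ = 0` off `D`. -/
theorem exists_sigma {D O : Set Pt} (hD : D.Finite) (hout : Conn Dᶜ) {ax ay px py : Pt → ℝ}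
    (hc : Carr D ax ay) {M : ℕ} (hpx : Bdd px M) (hpy : Bdd py M)
    (hpx' : ∀ f : Pt, px f ≠ 0 → Ok' D O f (f.1 + 1, f.2))
    (hpy' : ∀ f : Pt, py f ≠ 0 → Ok' D O f (f.1, f.2 + 1)) {v0 : Pt}
    (hcurl : ∀ v, v ≠ v0 → curl ax ay v = curl px py v) :
    ∃ σ : Pt → ℝ, (∀ f, f ∉ D → σ f = 0) ∧
      (∀ f : Pt, (f ∈ O ∨ (f.1 + 1, f.2) ∈ O) → σ (f.1 + 1, f.2) - σ f = ax f) ∧
      (∀ f : Pt, (f ∈ O ∨ (f.1, f.2 + 1) ∈ O) → σ (f.1, f.2 + 1) - σ f = ay f) := by
  obtain ⟨M', hax, hay, hDM⟩ := hc.bdd hD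
  have hbx : Bdd (fun f => ax f - px f) (max M M') :=
    (hax.mono (le_max_right _ _)).sub (hpx.mono (le_max_left _ _))
  have hby : Bdd (fun f => ay f - py f) (max M M') :=
    (hay.mono (le_max_right _ _)).sub (hpy.mono (le_max_left _ _))
  have hc0 : ∀ v, curl (fun f => ax f - px f) (fun f => ay f - py f) v = 0 := by
    apply curl_zero_of_ne hbx hby (v0 := v0)
    intro v hv
    have := hcurl v hv
    unfold curl at *
    linarith
  set σ := potl (max M M') (fun f => ax f - px f) with hσ
  have sx : ∀ f : Pt, σ (f.1 + 1, f.2) - σ f = ax f - px f := fun f => potl_x hbx f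
  have sy : ∀ f : Pt, σ (f.1, f.2 + 1) - σ f = ay f - py f := fun f => potl_y hby hc0 f
  have zx : ∀ f : Pt, f ∉ D → (f.1 + 1, f.2) ∉ D → σ (f.1 + 1, f.2) = σ f := by
    intro f h1 h2
    have e1 := hc.x f h1 h2
    have e2 : px f = 0 := by
      by_contra h
      rcases (hpx' f h).1 with h' | h'
      · exact h1 h'
      · exact h2 h'
    have := sx f
    rw [e1, e2] at this
    linarith
  have zy : ∀ f : Pt, f ∉ D → (f.1, f.2 + 1) ∉ D → σ (f.1, f.2 + 1) = σ f := by
    intro f h1 h2
    have e1 := hc.y f h1 h2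
    have e2 : py f = 0 := by
      by_contra h
      rcases (hpy' f h).1 with h' | h'
      · exact h1 h'
      · exact h2 h'
    have := sy f
    rw [e1, e2] at this
    linarith
  refine ⟨σ, ?_, ?_, ?_⟩
  · intro f hf
    -- a cell far to the left
    have hg : ((-(max M M' : ℕ) - 1, 0) : Pt) ∉ D := by
      intro h
      have := (hDM _ h).1
      rw [abs_le] at this
      have h2 : ((M' : ℕ) : ℤ) ≤ (max M M' : ℕ) := by exact_mod_cast le_max_right _ _
      simp only at this
      omega
    have hzero : σ ((-(max M M' : ℕ) - 1, 0) : Pt) = 0 := potl_left (by simp)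
    have hpath := hout f hf _ hg
    rw [← hzero]
    induction hpath using Relation.ReflTransGen.head_induction_on with
    | refl => rfl
    | @head a b hab _ ih =>
      obtain ⟨hadj, hb⟩ := hab
      rw [← ih hb]
      rcases adj_cases hadj with h | h | h | h
      · subst h; exact (zx _ hf hb).symm
      · subst h
        have := zx _ hb (by simpa using hf)
        simpa using this
      · subst h; exact (zy _ hf hb).symm
      · subst h
        have := zy _ hb (by simpa using hf)
        simpa using this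
  · intro f hf
    rw [sx f]
    have : px f = 0 := by
      by_contra h
      have := (hpx' f h).2
      rcases hf with h' | h'
      · exact this.1 h'
      · exact this.2 h'
    rw [this, sub_zero]
  · intro f hf
    rw [sy f]
    have : py f = 0 := by
      by_contra h
      have := (hpy' f h).2
      rcases hf with h' | h'
      · exact this.1 h'
      · exact this.2 h'
    rw [this, sub_zero]

/-- co-closed at `f` -/
def coc (ax ay : Pt → ℝ) (f : Pt) : ℝ := ax f - ax (f.1 - 1, f.2) + ay f - ay (f.1, f.2 - 1)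

theorem lap_of_sigma {O : Set Pt} {ax ay σ : Pt → ℝ}
    (hx : ∀ f : Pt, (f ∈ O ∨ (f.1 + 1, f.2) ∈ O) → σ (f.1 + 1, f.2) - σ f = ax f)
    (hy : ∀ f : Pt, (f ∈ O ∨ (f.1, f.2 + 1) ∈ O) → σ (f.1, f.2 + 1) - σ f = ay f)
    {f : Pt} (hf : f ∈ O) : lap σ f = coc ax ay f := by
  have e1 := hx f (Or.inl hf)
  have e2 := hx (f.1 - 1, f.2) (Or.inr (by simpa using hf))
  have e3 := hy f (Or.inl hf)
  have e4 := hy (f.1, f.2 - 1) (Or.inr (by simpa using hf))
  simp only [sub_add_cancel] at e2 e4
  unfold lap coc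
  have : ((f.1, f.2) : Pt) = f := rfl
  rw [this] at e2 e4
  linarith

/-! ## The two cross-cut lemma -/

/-- `v` is a corner of the cell `f` -/
def Corner (f v : Pt) : Prop := (v.1 = f.1 ∨ v.1 = f.1 + 1) ∧ (v.2 = f.2 ∨ v.2 = f.2 + 1)

/-- the component of `x` in `D ∩ box x d` -/
def Oc (D : Set Pt) (x : Pt) (d : ℕ) : Set Pt :=
  {f | Relation.ReflTransGen (fun a c => Adj a c ∧ c ∈ D ∧ dn x c ≤ d) x f}

theorem Oc.self (D : Set Pt) (x : Pt) (d : ℕ) : x ∈ Oc D x d := Relation.ReflTransGen.refl

theorem Oc.sub {D : Set Pt} {x : Pt} {d : ℕ} (hx : x ∈ D) {f : Pt} (hf : f ∈ Oc D x d) :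
    f ∈ D ∧ dn x f ≤ d := by
  rcases Relation.ReflTransGen.cases_tail hf with h | ⟨c, _, h⟩
  · rw [h, dn_self]; exact ⟨hx, Nat.zero_le _⟩
  · exact h.2

theorem Oc.step {D : Set Pt} {x : Pt} {d : ℕ} {f g : Pt} (hf : f ∈ Oc D x d) (h : Adj f g)
    (hg : g ∈ D) (hd : dn x g ≤ d) : g ∈ Oc D x d :=
  Relation.ReflTransGen.tail hf ⟨h, hg, hd⟩

/-- the corners of one cell of `D` are connected by edges of the cell -/
theorem corner_conn_one {D O' : Set Pt} {f : Pt} (hf : f ∈ D)
    (hO' : ∀ g : Pt, dn f g ≤ 1 → g ∉ O') {v u : Pt} (hv : Corner f v) (hu : Corner f u) :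
    Relation.ReflTransGen (St D O') v u := by
  have hself : f ∉ O' := hO' f (by rw [dn_self]; omega)
  have hd : (f.1, f.2 - 1) ∉ O' := hO' _ (by rw [dn_le_iff]; simp)
  have hup : (f.1, f.2 + 1) ∉ O' := hO' _ (by rw [dn_le_iff]; simp)
  have hl : (f.1 - 1, f.2) ∉ O' := hO' _ (by rw [dn_le_iff]; simp)
  have hr : (f.1 + 1, f.2) ∉ O' := hO' _ (by rw [dn_le_iff]; simp)
  have b1 : St D O' (f.1, f.2) (f.1 + 1, f.2) := St.r _ _ ⟨Or.inr hf, hd, hself⟩
  have b2 : St D O' (f.1 + 1, f.2) (f.1, f.2) := St.l _ _ ⟨Or.inr hf, hd, hself⟩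
  have t1 : St D O' (f.1, f.2 + 1) (f.1 + 1, f.2 + 1) :=
    St.r _ _ ⟨Or.inl (by simpa using hf), by simpa using hself, hup⟩
  have t2 : St D O' (f.1 + 1, f.2 + 1) (f.1, f.2 + 1) :=
    St.l _ _ ⟨Or.inl (by simpa using hf), by simpa using hself, hup⟩
  have l1 : St D O' (f.1, f.2) (f.1, f.2 + 1) := St.u _ _ ⟨Or.inr hf, hl, hself⟩
  have l2 : St D O' (f.1, f.2 + 1) (f.1, f.2) := St.d _ _ ⟨Or.inr hf, hl, hself⟩
  have r1 : St D O' (f.1 + 1, f.2) (f.1 + 1, f.2 + 1) :=
    St.u _ _ ⟨Or.inl (by simpa using hf), by simpa using hself, hr⟩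
  have r2 : St D O' (f.1 + 1, f.2 + 1) (f.1 + 1, f.2) :=
    St.d _ _ ⟨Or.inl (by simpa using hf), by simpa using hself, hr⟩
  obtain ⟨v1, v2⟩ := v
  obtain ⟨u1, u2⟩ := u
  -- all corners are connected to the lower left corner, in both directions
  have tov : ∀ v : Pt, Corner f v → Relation.ReflTransGen (St D O') v (f.1, f.2) := by
    rintro ⟨v1, v2⟩ ⟨h1, h2⟩
    simp only at h1 h2
    rcases h1 with rfl | rfl <;> rcases h2 with rfl | rfl
    · exact .refl
    · exact .single l2
    · exact .single b2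
    · exact (Relation.ReflTransGen.single r2).trans (.single b2)
  have frv : ∀ v : Pt, Corner f v → Relation.ReflTransGen (St D O') (f.1, f.2) v := by
    rintro ⟨v1, v2⟩ ⟨h1, h2⟩
    simp only at h1 h2
    rcases h1 with rfl | rfl <;> rcases h2 with rfl | rfl
    · exact .refl
    · exact .single l1
    · exact .single b1
    · exact (Relation.ReflTransGen.single b1).trans (.single r1)
  exact (tov _ hv).trans (frv _ hu)

/-- adjacent cells share a corner -/
theorem exists_common_corner {f g : Pt} (h : Adj f g) : ∃ v, Corner f v ∧ Corner g v := by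
  rcases adj_cases h with h | h | h | h
  · exact ⟨(f.1 + 1, f.2), by simp [Corner], by subst h; simp [Corner]⟩
  · exact ⟨(f.1, f.2), by simp [Corner], by subst h; simp [Corner]⟩
  · exact ⟨(f.1, f.2 + 1), by simp [Corner], by subst h; simp [Corner]⟩
  · exact ⟨(f.1, f.2), by simp [Corner], by subst h; simp [Corner]⟩

/-- corners of cells of a connected piece are connected off a far piece -/
theorem corner_conn {D O' : Set Pt} {P : Pt → Prop} (hP : ∀ f, P f → f ∈ D ∧
    ∀ g : Pt, dn f g ≤ 1 → g ∉ O') {x f : Pt} (hx : P x)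
    (h : Relation.ReflTransGen (fun a c => Adj a c ∧ P c) x f) {v u : Pt} (hv : Corner x v)
    (hu : Corner f u) : Relation.ReflTransGen (St D O') v u := by
  induction h using Relation.ReflTransGen.head_induction_on generalizing v with
  | refl => exact corner_conn_one (hP _ hx).1 (hP _ hx).2 hv hu
  | @head a b hab _ ih =>
    obtain ⟨c, hc1, hc2⟩ := exists_common_corner hab.1
    exact (corner_conn_one (hP _ hx).1 (hP _ hx).2 hv hc1).trans (ih hab.2 hc2)

/-- corners of two cells of the same component `Oc` are connected off a far set -/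
theorem corner_conn_Oc {D O' : Set Pt} {x : Pt} {d : ℕ} (hx : x ∈ D)
    (hfar : ∀ f ∈ Oc D x d, ∀ g : Pt, dn f g ≤ 1 → g ∉ O') {f v u : Pt} (hf : f ∈ Oc D x d)
    (hv : Corner x v) (hu : Corner f u) : Relation.ReflTransGen (St D O') v u := by
  have key : ∀ f ∈ Oc D x d, Relation.ReflTransGen (fun a c => Adj a c ∧ c ∈ Oc D x d) x f := by
    intro f hf
    induction hf with
    | refl => exact .refl
    | @tail b c h1 h2 ih => exact ih.tail ⟨h2.1, Relation.ReflTransGen.tail h1 h2⟩
  exact corner_conn (P := fun f => f ∈ Oc D x d) (fun f hf => ⟨(Oc.sub hx hf).1, hfar f hf⟩)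
    (Oc.self D x d) (key f hf) hv hu

theorem St.symm {D O : Set Pt} {v u : Pt} (h : St D O v u) : St D O u v := by
  cases h with
  | r i j h => exact .l i j h
  | l i j h => exact .r i j h
  | u i j h => exact .d i j h
  | d i j h => exact .u i j h

theorem St.path_symm {D O : Set Pt} {v u : Pt} (h : Relation.ReflTransGen (St D O) v u) :
    Relation.ReflTransGen (St D O) u v := by
  induction h with
  | refl => exact .refl
  | tail _ h2 ih => exact (Relation.ReflTransGen.single h2.symm).trans ih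

/-- a step which is not a step off `S ∪ S'` ends at a corner of a cell of `S` or of `S'` -/
theorem St.cases_mem {D S S' : Set Pt} {v u : Pt} (h : St D ∅ v u) :
    St D (S ∪ S') v u ∨ (∃ f ∈ S, Corner f u) ∨ (∃ f ∈ S', Corner f u) := by
  by_cases hno : St D (S ∪ S') v u
  · exact Or.inl hno
  · right
    have key : ∀ f g : Pt, Ok' D ∅ f g → Corner f u → Corner g u → ¬ Ok' D (S ∪ S') f g →
        (∃ f ∈ S, Corner f u) ∨ (∃ f ∈ S', Corner f u) := by
      intro f g h1 h2 h3 h4
      by_contra hcon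
      push Not at hcon
      apply h4
      refine ⟨h1.1, ?_, ?_⟩
      · rintro (h | h)
        · exact hcon.1 f h h2
        · exact hcon.2 f h h2
      · rintro (h | h)
        · exact hcon.1 g h h3
        · exact hcon.2 g h h3
    cases h with
    | r i j h =>
      exact key _ _ h (by simp [Corner]) (by simp [Corner]) (fun h' => hno (.r i j h'))
    | l i j h =>
      exact key _ _ h (by simp [Corner]) (by simp [Corner]) (fun h' => hno (.l i j h'))
    | u i j h =>
      exact key _ _ h (by simp [Corner]) (by simp [Corner]) (fun h' => hno (.u i j h'))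
    | d i j h =>
      exact key _ _ h (by simp [Corner]) (by simp [Corner]) (fun h' => hno (.d i j h'))

theorem St.mono {D O O' : Set Pt} (hO : O' ⊆ O) {v u : Pt} (h : St D O v u) : St D O' v u := by
  have key : ∀ f g : Pt, Ok' D O f g → Ok' D O' f g := fun f g h =>
    ⟨h.1, fun h' => h.2.1 (hO h'), fun h' => h.2.2 (hO h')⟩
  cases h with
  | r i j h => exact .r i j (key _ _ h)
  | l i j h => exact .l i j (key _ _ h)
  | u i j h => exact .u i j (key _ _ h)
  | d i j h => exact .d i j (key _ _ h)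

theorem St.path_mono {D O O' : Set Pt} (hO : O' ⊆ O) {v u : Pt}
    (h : Relation.ReflTransGen (St D O) v u) : Relation.ReflTransGen (St D O') v u :=
  Relation.ReflTransGen.mono (fun _ _ h => St.mono hO h) _ _ h

/-- **Two cross-cuts.** For two far cells `x, x'` with components `S, S'`, and corners `b` of `x`,
`b'` of `x'`: `b'` is connected to `v0` off `S` or `b` is connected to `v0` off `S'`. -/
theorem two_cross {D : Set Pt} {x x' : Pt} {d d' : ℕ} (hx : x ∈ D) (hx' : x' ∈ D)
    (hfar : d + d' + 1 < dn x x') {b b' v0 : Pt} (hb : Corner x b) (hb' : Corner x' b')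
    (hpath : Relation.ReflTransGen (St D ∅) b' v0) :
    Relation.ReflTransGen (St D (Oc D x d)) b' v0 ∨
      Relation.ReflTransGen (St D (Oc D x' d')) b v0 := by
  set S := Oc D x d with hS
  set S' := Oc D x' d' with hS'
  have far1 : ∀ f ∈ S, ∀ g : Pt, dn f g ≤ 1 → g ∉ S' := by
    intro f hf g hg hg'
    have h1 := (Oc.sub hx hf).2
    have h2 := (Oc.sub hx' hg').2
    have h3 := dn_tri x f g
    have h4 := dn_tri x g x'
    rw [dn_comm g x'] at h4
    omega
  have far2 : ∀ f ∈ S', ∀ g : Pt, dn f g ≤ 1 → g ∉ S := by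
    intro f hf g hg hg'
    exact far1 g hg' f (by rw [dn_comm]; exact hg) hf
  have claim : ∀ v, Relation.ReflTransGen (St D ∅) v v0 →
      Relation.ReflTransGen (St D (S ∪ S')) v v0 ∨
      (∀ f ∈ S, ∀ u, Corner f u → Relation.ReflTransGen (St D S') u v0) ∨
      (∀ f ∈ S', ∀ u, Corner f u → Relation.ReflTransGen (St D S) u v0) := by
    intro v hv
    induction hv using Relation.ReflTransGen.head_induction_on with
    | refl => exact Or.inl .refl
    | @head v w hvw _ ih =>
      rcases ih with ih | ih | ih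
      · rcases hvw.cases_mem (S := S) (S' := S') with h | ⟨f, hf, hc⟩ | ⟨f, hf, hc⟩
        · exact Or.inl (Relation.ReflTransGen.head h ih)
        · refine Or.inr (Or.inl ?_)
          intro g hg u hu
          have h1 := corner_conn_Oc hx far1 hg hb hu
          have h2 := corner_conn_Oc hx far1 hf hb hc
          have h3 := St.path_mono (O' := S') Set.subset_union_right ih
          exact ((St.path_symm h1).trans h2).trans h3
        · refine Or.inr (Or.inr ?_)
          intro g hg u hu
          have h1 := corner_conn_Oc hx' far2 hg hb' hu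
          have h2 := corner_conn_Oc hx' far2 hf hb' hc
          have h3 := St.path_mono (O' := S) Set.subset_union_left ih
          exact ((St.path_symm h1).trans h2).trans h3
      · exact Or.inr (Or.inl ih)
      · exact Or.inr (Or.inr ih)
  rcases claim b' hpath with h | h | h
  · exact Or.inl (St.path_mono Set.subset_union_left h)
  · exact Or.inr (h x (Oc.self D x d) b hb)
  · exact Or.inl (h x' (Oc.self D x' d') b' hb')

/-- corners of cells of a connected `D` are connected by edges of `D` -/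
theorem path_of_conn {D : Set Pt} (hD : Conn D) {f g v u : Pt} (hf : f ∈ D) (hg : g ∈ D)
    (hv : Corner f v) (hu : Corner g u) : Relation.ReflTransGen (St D ∅) v u :=
  corner_conn (P := fun f => f ∈ D) (fun _ hf => ⟨hf, fun _ _ h => h.elim⟩) hf
    (hD f hf g hg) hv hu

end Vale.Agent.P155.H904
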