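import Vale.Agent.P155.E.Cov
import Vale.Agent.P155.E1.Small
import Vale.Agent.P155.J.Height

/-!
# P155 block I: the variance of `h(Δψ)` in terms of the inverse Kasteleyn matrix
-/

namespace Vale.Agent.P155.H904

open Vale.Agent.P155 Finset Skel

/-- white end of the edge `e = (f, o)`; `o = false`: `{f, f + e₂}`, `o = true`: `{f, f + e₁}` -/
def eW (e : Pt × Bool) : Pt := if e.2 then E.hW e.1 else E.vW e.1
/-- black end of the edge -/
def eB (e : Pt × Bool) : Pt := if e.2 then E.hB e.1 else E.vB e.1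
/-- backward differences -/
def pX (ψ : Pt → ℝ) (f : Pt) : ℝ := ψ f - ψ (f.1 - 1, f.2)
def pY (ψ : Pt → ℝ) (f : Pt) : ℝ := ψ f - ψ (f.1, f.2 - 1)
/-- coefficient of the edge -/
noncomputable def eC (ψ : Pt → ℝ) (e : Pt × Bool) : ℝ :=
  if e.2 then E.ss e.1 * pY ψ e.1 else - (E.ss e.1 * pX ψ e.1)

theorem eW_white (e : Pt × Bool) : White (eW e) := by
  unfold eW; split_ifs
  · exact E.hW_white _
  · exact E.vW_white _

theorem e_adj (e : Pt × Bool) : Adj (eW e) (eB e) := by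
  unfold eW eB; split_ifs
  · exact E.h_adj _
  · exact E.v_adj _

theorem eB_black (e : Pt × Bool) : Black (eB e) := by
  have h1 := eW_white e
  have h2 := mem_nbrs.2 (e_adj e)
  simp only [nbrs, mem_insert, mem_singleton] at h2
  unfold White at h1
  unfold Black
  rw [Int.odd_iff] at h1
  rw [Int.even_iff]
  rcases h2 with h | h | h | h <;> rw [h] <;> simp only <;> omega

theorem e_cases (e : Pt × Bool) :
    (e.2 = false ∧ ((eW e = e.1 ∧ eB e = (e.1.1, e.1.2 + 1)) ∨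
      (eW e = (e.1.1, e.1.2 + 1) ∧ eB e = e.1))) ∨
    (e.2 = true ∧ ((eW e = e.1 ∧ eB e = (e.1.1 + 1, e.1.2)) ∨
      (eW e = (e.1.1 + 1, e.1.2) ∧ eB e = e.1))) := by
  obtain ⟨f, o⟩ := e
  cases o
  · left
    refine ⟨rfl, ?_⟩
    have := E.vW_cases f
    simpa [eW, eB] using this
  · right
    refine ⟨rfl, ?_⟩
    have := E.hW_cases f
    simpa [eW, eB] using this

theorem e_inj {e e' : Pt × Bool} (h1 : eW e = eW e') (h2 : eB e = eB e') : e = e' := by
  obtain ⟨⟨x, y⟩, o⟩ := e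
  obtain ⟨⟨x', y'⟩, o'⟩ := e'
  have c1 := e_cases ((x, y), o)
  have c2 := e_cases ((x', y'), o')
  simp only at c1 c2
  rw [h1, h2] at c1
  rcases c1 with ⟨rfl, ⟨a1, a2⟩ | ⟨a1, a2⟩⟩ | ⟨rfl, ⟨a1, a2⟩ | ⟨a1, a2⟩⟩ <;>
    rcases c2 with ⟨rfl, ⟨b1, b2⟩ | ⟨b1, b2⟩⟩ | ⟨rfl, ⟨b1, b2⟩ | ⟨b1, b2⟩⟩ <;>
    (rw [a1] at b1; rw [a2] at b2; simp only [Prod.mk.injEq] at b1 b2 ⊢; first | omega | simp; omega)

theorem abs_ss (f : Pt) : |E.ss f| = 1 := by
  unfold E.ss; split_ifs <;> simp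

theorem abs_eC (ψ : Pt → ℝ) (e : Pt × Bool) : |eC ψ e| = if e.2 then |pY ψ e.1| else |pX ψ e.1| := by
  unfold eC
  split_ifs
  · rw [abs_mul, abs_ss, one_mul]
  · rw [abs_neg, abs_mul, abs_ss, one_mul]

theorem sbp {ψ : Pt → ℝ} (hψ : J.FS ψ) (w : Pt → ℝ) :
    ∑ᶠ x, lap ψ x * w x = - ∑ᶠ x : Pt, (pX ψ x * (w x - w (x.1 - 1, x.2)) +
      pY ψ x * (w x - w (x.1, x.2 - 1))) := by
  have hX : J.FS (pX ψ) := by
    have : pX ψ = fun x => ψ x - ψ (J.tr (-1) 0 x) := by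
      funext x; simp [pX, J.tr, sub_eq_add_neg]
    rw [this]
    exact hψ.sub (hψ.comp_equiv _)
  have hY : J.FS (pY ψ) := by
    have : pY ψ = fun x => ψ x - ψ (J.tr 0 (-1) x) := by
      funext x; simp [pY, J.tr, sub_eq_add_neg]
    rw [this]
    exact hψ.sub (hψ.comp_equiv _)
  have e1 : ∀ x, lap ψ x * w x = (pX ψ (J.tr 1 0 x) * w x + pY ψ (J.tr 0 1 x) * w x) -
      (pX ψ x * w x + pY ψ x * w x) := by
    intro x
    simp only [lap, pX, pY, J.tr, Equiv.coe_fn_mk, add_zero, add_sub_cancel_right]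
    ring
  have e2 : ∀ x : Pt, (pX ψ x * (w x - w (x.1 - 1, x.2)) + pY ψ x * (w x - w (x.1, x.2 - 1))) =
      (pX ψ x * w x + pY ψ x * w x) -
      (pX ψ x * w ((J.tr 1 0).symm x) + pY ψ x * w ((J.tr 0 1).symm x)) := by
    intro x
    simp only [J.tr, Equiv.coe_fn_symm_mk, sub_zero]
    ring
  rw [finsum_congr e1, finsum_congr e2]
  have fX : ∀ g : Pt → ℝ, (Function.support (fun x => pX ψ x * g x)).Finite := hX.mul_right
  have fY : ∀ g : Pt → ℝ, (Function.support (fun x => pY ψ x * g x)).Finite := hY.mul_right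
  have fX' : (Function.support (fun x => pX ψ (J.tr 1 0 x) * w x)).Finite :=
    (hX.comp_equiv _).mul_right w
  have fY' : (Function.support (fun x => pY ψ (J.tr 0 1 x) * w x)).Finite :=
    (hY.comp_equiv _).mul_right w
  rw [finsum_sub_distrib, finsum_sub_distrib, finsum_add_distrib, finsum_add_distrib,
    finsum_add_distrib, J.finsum_shift, J.finsum_shift]
  · ring
  · exact fX _
  · exact fY _
  · exact fX _
  · exact fY _
  · exact fX'
  · exact fY'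
  · exact ((fX _).union (fY _)).subset (Function.support_add _ _)
  · exact ((fX _).union (fY _)).subset (Function.support_add _ _)
  · exact (fX'.union fY').subset (Function.support_add _ _)
  · exact ((fX _).union (fY _)).subset (Function.support_add _ _)

/-- `h(Δψ)` as a sum over edges -/
theorem hf_lap_eq {V : Finset Pt} {ω : Conf} (hω : ω ∈ DD V) {ψ : Pt → ℝ} (hψ : J.FS ψ)
    {F : Finset Pt} (hF : ∀ f, f ∉ F → pX ψ f = 0 ∧ pY ψ f = 0) :
    hf ω (lap ψ) = ∑ e ∈ F ×ˢ (univ : Finset Bool),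
      eC ψ e * (E.ind (eW e) (eB e) ω.1 - E.ind (eW e) (eB e) ω.2) := by
  obtain ⟨hm1, hm2⟩ := J.PM_of_DD hω
  unfold hf
  rw [sbp hψ (fun x => (h ω x : ℝ)), sum_product]
  have e1 : ∀ f : Pt, (pX ψ f * ((h ω f : ℝ) - h ω (f.1 - 1, f.2)) +
      pY ψ f * ((h ω f : ℝ) - h ω (f.1, f.2 - 1))) =
      - ∑ o : Bool, eC ψ (f, o) * (E.ind (eW (f, o)) (eB (f, o)) ω.1 -
        E.ind (eW (f, o)) (eB (f, o)) ω.2) := by
    intro f
    obtain ⟨i1, i2⟩ := E1.e_incr V ω hω f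
    rw [i1, i2, Fintype.sum_bool]
    simp only [eC, eW, eB, if_true, Bool.false_eq_true, if_false]
    rw [← E.iv_eq hm1, ← E.iv_eq hm2, ← E.ih_eq hm1, ← E.ih_eq hm2]
    ring
  rw [finsum_congr e1, finsum_eq_sum_of_support_subset (s := F)]
  · rw [sum_neg_distrib, neg_neg]
  · intro f hf
    by_contra hc
    obtain ⟨h1, h2⟩ := hF f hc
    apply hf
    simp [eC, h1, h2]

theorem ind_zero {V : Finset Pt} {m : Pt → Pt} (hm : IsPM V m) {w b : Pt} (hwb : Adj w b)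
    (h : ¬ (w ∈ V ∧ b ∈ V)) : E.ind w b m = 0 := by
  classical
  rw [E.ind_def, if_neg]
  intro hc
  apply h
  have hne : w ≠ b := E1.adj_ne hwb
  have hw : w ∈ V := by
    by_contra hw
    rw [hm.off w hw] at hc
    exact hne hc
  refine ⟨hw, ?_⟩
  rw [← hc]
  exact E1.pm_mem' hm hw

/-- second moment of the difference of two independent copies -/
theorem Ex_diff_sq {V : Finset Pt} (hV : (PM V).Nonempty) (S : (Pt → Pt) → ℝ) :
    Ex V (fun ω => (S ω.1 - S ω.2) ^ 2) = 2 * (Ex1 V (fun m => S m * S m) - Ex1 V S * Ex1 V S) := by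
  have h := E.cov_prod hV hV 1 1 S S S S
  have h0 : J.avg (PM V ×ˢ PM V) (fun p : (Pt → Pt) × (Pt → Pt) => 1 * (S p.1 - S p.2)) = 0 := by
    rw [J.avg_mul_left, J.avg_sub (PM V ×ˢ PM V) (fun p : (Pt → Pt) × (Pt → Pt) => S p.1)
      (fun p => S p.2), E1.avg_prod_fst hV S, E1.avg_prod_snd hV S]
    ring
  rw [h0] at h
  have h1 : Ex V (fun ω => (S ω.1 - S ω.2) ^ 2) =
      J.avg (PM V ×ˢ PM V) (fun p : (Pt → Pt) × (Pt → Pt) => (1 * (S p.1 - S p.2)) *
        (1 * (S p.1 - S p.2))) := by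
    unfold Ex DD J.avg
    congr 1
    apply sum_congr rfl
    intro p _
    ring
  rw [h1, E1.Ex1_eq_avg, E1.Ex1_eq_avg]
  linarith

theorem Ex1_sum' {V : Finset Pt} {ι : Type*} (I : Finset ι) (g : ι → (Pt → Pt) → ℝ) :
    Ex1 V (fun m => ∑ i ∈ I, g i m) = ∑ i ∈ I, Ex1 V (g i) := by
  unfold Ex1
  rw [sum_comm, mul_sum]

theorem Ex1_mul' {V : Finset Pt} (c : ℝ) (g : (Pt → Pt) → ℝ) :
    Ex1 V (fun m => c * g m) = c * Ex1 V g := by
  unfold Ex1
  rw [← mul_sum]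
  ring

open Classical in
/-- **Variance of `h(Δψ)`.** -/
theorem var_eq (h1 : A_one) (h2 : A_two) {T : Temp} (hsub : Sub T T.V) {ψ : Pt → ℝ}
    (hψ : J.FS ψ) {F : Finset Pt} (hF : ∀ f, f ∉ F → pX ψ f = 0 ∧ pY ψ f = 0) :
    Ex T.V (fun ω => (hf ω (lap ψ)) ^ 2) =
      2 * ∑ e ∈ (F ×ˢ (univ : Finset Bool)).filter (fun e => eW e ∈ T.V ∧ eB e ∈ T.V),
        ∑ e' ∈ (F ×ˢ (univ : Finset Bool)).filter (fun e => eW e ∈ T.V ∧ eB e ∈ T.V),
          eC ψ e * eC ψ e' * E.eCov (Kinv T.V) (eW e) (eB e) (eW e') (eB e') := by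
  set I := (F ×ˢ (univ : Finset Bool)).filter (fun e => eW e ∈ T.V ∧ eB e ∈ T.V) with hI
  set S : (Pt → Pt) → ℝ := fun m => ∑ e ∈ I, eC ψ e * E.ind (eW e) (eB e) m with hS
  have hne : (PM T.V).Nonempty := by
    obtain ⟨m, hm, _⟩ := hsub
    exact ⟨m, hm⟩
  have e1 : ∀ ω ∈ DD T.V, (hf ω (lap ψ)) ^ 2 = (S ω.1 - S ω.2) ^ 2 := by
    intro ω hω
    obtain ⟨hm1, hm2⟩ := J.PM_of_DD hω
    rw [hf_lap_eq hω hψ hF]
    congr 1
    simp only [hS]
    rw [← sum_sub_distrib]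
    symm
    have : ∑ e ∈ I, (eC ψ e * E.ind (eW e) (eB e) ω.1 - eC ψ e * E.ind (eW e) (eB e) ω.2) =
        ∑ e ∈ I, eC ψ e * (E.ind (eW e) (eB e) ω.1 - E.ind (eW e) (eB e) ω.2) :=
      sum_congr rfl (fun e _ => by ring)
    rw [this]
    apply sum_subset (filter_subset _ _)
    intro e he hne'
    have hn : ¬ (eW e ∈ T.V ∧ eB e ∈ T.V) := fun hc => hne' (mem_filter.2 ⟨he, hc⟩)
    rw [ind_zero hm1 (e_adj e) hn, ind_zero hm2 (e_adj e) hn]
    ring
  have e2 : Ex T.V (fun ω => (hf ω (lap ψ)) ^ 2) = Ex T.V (fun ω => (S ω.1 - S ω.2) ^ 2) := by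
    unfold Ex
    rw [sum_congr rfl e1]
  rw [e2, Ex_diff_sq hne]
  congr 1
  have e3 : Ex1 T.V (fun m => S m * S m) = ∑ e ∈ I, ∑ e' ∈ I, eC ψ e * eC ψ e' *
      Ex1 T.V (fun m => E.ind (eW e) (eB e) m * E.ind (eW e') (eB e') m) := by
    have : (fun m => S m * S m) = fun m => ∑ e ∈ I, ∑ e' ∈ I, (eC ψ e * eC ψ e') *
        (E.ind (eW e) (eB e) m * E.ind (eW e') (eB e') m) := by
      funext m
      simp only [hS]
      rw [sum_mul_sum]
      apply sum_congr rfl; intro e _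
      apply sum_congr rfl; intro e' _
      ring
    rw [this, Ex1_sum']
    apply sum_congr rfl; intro e _
    rw [Ex1_sum']
    apply sum_congr rfl; intro e' _
    rw [Ex1_mul']
  have e4 : Ex1 T.V S * Ex1 T.V S = ∑ e ∈ I, ∑ e' ∈ I, eC ψ e * eC ψ e' *
      (Ex1 T.V (E.ind (eW e) (eB e)) * Ex1 T.V (E.ind (eW e') (eB e'))) := by
    have : Ex1 T.V S = ∑ e ∈ I, eC ψ e * Ex1 T.V (E.ind (eW e) (eB e)) := by
      simp only [hS]
      rw [Ex1_sum']
      apply sum_congr rfl; intro e _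
      exact Ex1_mul' _ _
    rw [this, sum_mul_sum]
    apply sum_congr rfl; intro e _
    apply sum_congr rfl; intro e' _
    ring
  rw [e3, e4, ← sum_sub_distrib]
  apply sum_congr rfl; intro e he
  rw [← sum_sub_distrib]
  apply sum_congr rfl; intro e' he'
  have he2 := (mem_filter.1 he).2
  have he2' := (mem_filter.1 he').2
  rw [← mul_sub, E.cov_ind h1 h2 hsub he2.1 he2.2 he2'.1 he2'.2 (eW_white e) (eW_white e')
    (e_adj e) (e_adj e')]

theorem abs_K_le (w b : Pt) : |K w b| ≤ 1 := by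
  unfold K sg
  split_ifs <;> simp

open Classical in
/-- **Variance bound.** -/
theorem var_le (h1 : A_one) (h2 : A_two) {T : Temp} (hsub : Sub T T.V)
    (hK1 : ∀ w b, White w → Black b → w ∈ T.V → b ∈ T.V → |Kinv T.V b w| ≤ 1) {ψ : Pt → ℝ}
    (hψ : J.FS ψ) {F : Finset Pt} (hF : ∀ f, f ∉ F → pX ψ f = 0 ∧ pY ψ f = 0) :
    Ex T.V (fun ω => (hf ω (lap ψ)) ^ 2) ≤
      2 * ∑ e ∈ (F ×ˢ (univ : Finset Bool)).filter (fun e => eW e ∈ T.V ∧ eB e ∈ T.V),
        eC ψ e ^ 2 +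
      2 * ∑ e ∈ (F ×ˢ (univ : Finset Bool)).filter (fun e => eW e ∈ T.V ∧ eB e ∈ T.V),
        ∑ e' ∈ (F ×ˢ (univ : Finset Bool)).filter (fun e => eW e ∈ T.V ∧ eB e ∈ T.V),
          |eC ψ e| * |eC ψ e'| * (|Kinv T.V (eB e) (eW e')| * |Kinv T.V (eB e') (eW e)|) := by
  rw [var_eq h1 h2 hsub hψ hF]
  set I := (F ×ˢ (univ : Finset Bool)).filter (fun e => eW e ∈ T.V ∧ eB e ∈ T.V) with hI
  rw [← mul_add]
  apply mul_le_mul_of_nonneg_left _ (by norm_num)
  have key : ∀ e ∈ I, ∀ e' ∈ I, eC ψ e * eC ψ e' *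
      E.eCov (Kinv T.V) (eW e) (eB e) (eW e') (eB e') ≤ (if e = e' then eC ψ e ^ 2 else 0) +
      |eC ψ e| * |eC ψ e'| * (|Kinv T.V (eB e) (eW e')| * |Kinv T.V (eB e') (eW e)|) := by
    intro e he e' he'
    have he2 := (mem_filter.1 he).2
    unfold E.eCov
    have hb : |K (eW e) (eB e) * K (eW e') (eB e') * Kinv T.V (eB e) (eW e') *
        Kinv T.V (eB e') (eW e)| ≤ |Kinv T.V (eB e) (eW e')| * |Kinv T.V (eB e') (eW e)| := by
      rw [abs_mul, abs_mul, abs_mul]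
      have a1 := abs_K_le (eW e) (eB e)
      have a2 := abs_K_le (eW e') (eB e')
      have a3 : |K (eW e) (eB e)| * |K (eW e') (eB e')| ≤ 1 := by
        nlinarith [abs_nonneg (K (eW e) (eB e)), abs_nonneg (K (eW e') (eB e'))]
      rw [mul_assoc (|K (eW e) (eB e)| * |K (eW e') (eB e')|)]
      exact mul_le_of_le_one_left (by positivity) a3
    have hb2 : eC ψ e * eC ψ e' * -(K (eW e) (eB e) * K (eW e') (eB e') *
        Kinv T.V (eB e) (eW e') * Kinv T.V (eB e') (eW e)) ≤ |eC ψ e| * |eC ψ e'| *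
        (|Kinv T.V (eB e) (eW e')| * |Kinv T.V (eB e') (eW e)|) := by
      refine (le_abs_self _).trans ?_
      rw [abs_mul, abs_mul, abs_neg]
      exact mul_le_mul_of_nonneg_left hb (by positivity)
    have hd : eC ψ e * eC ψ e' * (if eW e = eW e' ∧ eB e = eB e' then
        K (eW e) (eB e) * Kinv T.V (eB e) (eW e) else 0) ≤ if e = e' then eC ψ e ^ 2 else 0 := by
      by_cases hee : e = e'
      · subst hee
        simp only [and_self, if_true]
        have a1 := abs_K_le (eW e) (eB e)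
        have a2 := hK1 (eW e) (eB e) (eW_white e) (eB_black e) he2.1 he2.2
        have a3 : K (eW e) (eB e) * Kinv T.V (eB e) (eW e) ≤ 1 := by
          refine (le_abs_self _).trans ?_
          rw [abs_mul]
          nlinarith [abs_nonneg (K (eW e) (eB e)), abs_nonneg (Kinv T.V (eB e) (eW e))]
        nlinarith [sq_nonneg (eC ψ e)]
      · rw [if_neg hee, if_neg, mul_zero]
        rintro ⟨h3, h4⟩
        exact hee (e_inj h3 h4)
    have : eC ψ e * eC ψ e' * ((if eW e = eW e' ∧ eB e = eB e' then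
        K (eW e) (eB e) * Kinv T.V (eB e) (eW e) else 0) -
        K (eW e) (eB e) * K (eW e') (eB e') * Kinv T.V (eB e) (eW e') * Kinv T.V (eB e') (eW e)) =
        eC ψ e * eC ψ e' * (if eW e = eW e' ∧ eB e = eB e' then
        K (eW e) (eB e) * Kinv T.V (eB e) (eW e) else 0) +
        eC ψ e * eC ψ e' * -(K (eW e) (eB e) * K (eW e') (eB e') * Kinv T.V (eB e) (eW e') *
          Kinv T.V (eB e') (eW e)) := by ring
    rw [this]
    exact add_le_add hd hb2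
  calc ∑ e ∈ I, ∑ e' ∈ I, eC ψ e * eC ψ e' *
      E.eCov (Kinv T.V) (eW e) (eB e) (eW e') (eB e')
      ≤ ∑ e ∈ I, ∑ e' ∈ I, ((if e = e' then eC ψ e ^ 2 else 0) + |eC ψ e| * |eC ψ e'| *
        (|Kinv T.V (eB e) (eW e')| * |Kinv T.V (eB e') (eW e)|)) :=
        sum_le_sum (fun e he => sum_le_sum (fun e' he' => key e he e' he'))
    _ = _ := by
      simp only [sum_add_distrib]
      congr 1
      apply sum_congr rfl
      intro e he
      rw [sum_ite_eq, if_pos he]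

end Vale.Agent.P155.H904
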