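import Vale.Agent.P155.H904.KGain
import Vale.Agent.P155.H904.Var
import Vale.Agent.P155.G45.Mass

/-!
# P155 block I: pointwise bounds of the covariance kernel and the double sum
-/

namespace Vale.Agent.P155.H904

open Vale.Agent.P155 Finset Skel

/-! ## The plane profile -/

theorem dn_sub_zero (b w : Pt) : dn (b - w) 0 = dn b w := by
  obtain ⟨⟨h1, h2, h3, h4⟩, h5⟩ := dn_spec (b - w) 0
  obtain ⟨⟨k1, k2, k3, k4⟩, k5⟩ := dn_spec b w
  simp only [Prod.fst_sub, Prod.snd_sub, Prod.fst_zero, Prod.snd_zero, sub_zero, zero_sub] at *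
  omega

theorem dn_sq_le (z : Pt) : (dn z 0 : ℝ) ^ 2 ≤ nsq z := by
  obtain ⟨-, h5⟩ := dn_spec z 0
  simp only [Prod.fst_zero, Prod.snd_zero, sub_zero, zero_sub] at h5
  unfold nsq
  have key : ∀ a b : ℤ, ((dn z 0 : ℤ) = a ∨ (dn z 0 : ℤ) = -a) → (dn z 0 : ℝ) ^ 2 ≤
      (a : ℝ) ^ 2 + (b : ℝ) ^ 2 := by
    intro a b h
    have : ((dn z 0 : ℕ) : ℝ) = ((dn z 0 : ℤ) : ℝ) := by norm_cast
    rw [this]
    rcases h with h | h <;> rw [h] <;> push_cast <;> nlinarith [sq_nonneg (b : ℝ)]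
  rcases h5 with h | h | h | h
  · exact key z.1 z.2 (Or.inl h)
  · exact key z.1 z.2 (Or.inr h)
  · rw [add_comm]; exact key z.2 z.1 (Or.inl h)
  · rw [add_comm]; exact key z.2 z.1 (Or.inr h)

theorem abs_coord_le (z : Pt) : |(z.1 : ℝ)| ≤ dn z 0 ∧ |(z.2 : ℝ)| ≤ dn z 0 := by
  obtain ⟨⟨h1, h2, h3, h4⟩, -⟩ := dn_spec z 0
  simp only [Prod.fst_zero, Prod.snd_zero, sub_zero, zero_sub] at h1 h2 h3 h4
  have a1 : (z.1 : ℝ) ≤ ((dn z 0 : ℤ) : ℝ) := by exact_mod_cast h1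
  have a2 : -(z.1 : ℝ) ≤ ((dn z 0 : ℤ) : ℝ) := by exact_mod_cast h2
  have a3 : (z.2 : ℝ) ≤ ((dn z 0 : ℤ) : ℝ) := by exact_mod_cast h3
  have a4 : -(z.2 : ℝ) ≤ ((dn z 0 : ℤ) : ℝ) := by exact_mod_cast h4
  push_cast at a1 a2 a3 a4
  exact ⟨abs_le.2 ⟨by linarith, a1⟩, abs_le.2 ⟨by linarith, a3⟩⟩

/-- the plane profile decays -/
theorem plane_bound {A : Pt → ℝ} (hA : IsPlane A) : ∃ C : ℝ, 0 ≤ C ∧
    ∀ z : Pt, Odd (z.1 + z.2) → |A z| ≤ C / (1 + dn z 0) := by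
  obtain ⟨C, hC⟩ := hA.asymp
  refine ⟨2 * (1 + |C|), by positivity, ?_⟩
  intro z hz
  have h1 := hC z hz
  have hpos : 1 ≤ dn z 0 := by
    by_contra h0
    have h0 : dn z 0 = 0 := by omega
    obtain ⟨⟨k1, k2, k3, k4⟩, -⟩ := dn_spec z 0
    simp only [Prod.fst_zero, Prod.snd_zero, sub_zero, zero_sub] at k1 k2 k3 k4
    obtain ⟨k, hk⟩ := hz
    omega
  have hn : (1 : ℝ) ≤ dn z 0 := by exact_mod_cast hpos
  have hsq := dn_sq_le z
  have hnsq : 0 < nsq z := by nlinarith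
  have h2 : |Alead z| ≤ 1 / dn z 0 := by
    unfold Alead
    rw [abs_div, abs_of_pos (by positivity : 0 < Real.pi * nsq z)]
    have h3 : |if Odd z.1 then (z.1 : ℝ) else (z.2 : ℝ)| ≤ dn z 0 := by
      split_ifs
      · exact (abs_coord_le z).1
      · exact (abs_coord_le z).2
    rw [div_le_div_iff₀ (by positivity) (by linarith)]
    have hpi : (1 : ℝ) ≤ Real.pi := by linarith [Real.pi_gt_three]
    calc |if Odd z.1 then (z.1 : ℝ) else (z.2 : ℝ)| * (dn z 0 : ℝ) ≤ (dn z 0 : ℝ) * (dn z 0 : ℝ) :=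
          mul_le_mul_of_nonneg_right h3 (by positivity)
      _ = (dn z 0 : ℝ) ^ 2 := by ring
      _ ≤ nsq z := hsq
      _ ≤ 1 * (Real.pi * nsq z) := by nlinarith
  have h4 : C / nsq z ≤ |C| / dn z 0 := by
    calc C / nsq z ≤ |C| / nsq z := div_le_div_of_nonneg_right (le_abs_self C) hnsq.le
      _ ≤ |C| / dn z 0 := div_le_div_of_nonneg_left (abs_nonneg C) (by linarith) (by nlinarith)
  have h5 : |A z| ≤ (1 + |C|) / dn z 0 := by
    have : |A z| ≤ |A z - Alead z| + |Alead z| := by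
      have := abs_add_le (A z - Alead z) (Alead z)
      simpa using this
    calc |A z| ≤ |A z - Alead z| + |Alead z| := this
      _ ≤ |C| / dn z 0 + 1 / dn z 0 := add_le_add (h1.trans h4) h2
      _ = (1 + |C|) / dn z 0 := by ring
  refine h5.trans ?_
  rw [div_le_div_iff₀ (by linarith) (by positivity)]
  nlinarith [abs_nonneg C]

theorem abs_Kp' (A : Pt → ℝ) (b w : Pt) : |Kp A b w| = |A (b - w)| := by
  unfold Kp sg
  split_ifs <;> simp [abs_mul]

/-- uniform bound of the inverse Kasteleyn matrix -/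
def KUnif (T : Temp) (C : ℝ) : Prop := ∀ w b, White w → Black b → w ∈ T.V → b ∈ T.V →
  |Kinv T.V b w| ≤ C / (1 + min (dn b w : ℝ) (dF T.faceSet w))

theorem kbounds (hp : B_plane) (hd : B_dom) : ∃ C : ℝ, 0 ≤ C ∧ ∀ T : Temp,
    KUnif T C ∧ KFar T C ∧ ∀ w b, White w → Black b → w ∈ T.V → b ∈ T.V → |Kinv T.V b w| ≤ 1 := by
  obtain ⟨A, hA⟩ := hp
  obtain ⟨C1, hC1, h1⟩ := plane_bound hA
  obtain ⟨C2, h2⟩ := hd A hA
  refine ⟨C1 + |C2|, by positivity, fun T => ⟨?_, ?_, fun w b hw hb hwV hbV =>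
    (h2 T w b hw hb hwV hbV).1⟩⟩
  · intro w b hw hb hwV hbV
    obtain ⟨_, k2, k3⟩ := h2 T w b hw hb hwV hbV
    set n := dn b w with hn
    set m := dF T.faceSet w with hm
    have hmin : min (n : ℝ) (m : ℝ) ≤ n := min_le_left _ _
    have hmin' : min (n : ℝ) (m : ℝ) ≤ m := min_le_right _ _
    have hmin0 : 0 ≤ min (n : ℝ) (m : ℝ) := le_min (by positivity) (by positivity)
    have hC2 : C2 / (1 + (m : ℝ)) ≤ |C2| / (1 + min (n : ℝ) (m : ℝ)) := by
      calc C2 / (1 + (m : ℝ)) ≤ |C2| / (1 + (m : ℝ)) :=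
            div_le_div_of_nonneg_right (le_abs_self _) (by positivity)
        _ ≤ _ := div_le_div_of_nonneg_left (abs_nonneg _) (by positivity) (by linarith)
    by_cases h : 2 * n ≤ m
    · have a1 := k2 h
      have a2 : |Kp A b w| ≤ C1 / (1 + min (n : ℝ) (m : ℝ)) := by
        rw [abs_Kp']
        have hodd : Odd ((b - w).1 + (b - w).2) := by
          unfold White at hw
          unfold Black at hb
          simp only [Prod.fst_sub, Prod.snd_sub]
          rw [Int.odd_iff] at *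
          rw [Int.even_iff] at hb
          omega
        have := h1 (b - w) hodd
        rw [dn_sub_zero] at this
        refine this.trans ?_
        exact div_le_div_of_nonneg_left hC1 (by positivity) (by linarith)
      have a3 : |Kinv T.V b w| ≤ |Kinv T.V b w - Kp A b w| + |Kp A b w| := by
        have := abs_add_le (Kinv T.V b w - Kp A b w) (Kp A b w)
        simpa using this
      calc |Kinv T.V b w| ≤ _ := a3
        _ ≤ |C2| / (1 + min (n : ℝ) (m : ℝ)) + C1 / (1 + min (n : ℝ) (m : ℝ)) :=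
          add_le_add (a1.trans hC2) a2
        _ = _ := by ring
    · have a1 := k3 (by omega)
      refine (a1.trans hC2).trans ?_
      apply div_le_div_of_nonneg_right _ (by positivity)
      linarith
  · intro w b hw hb hwV hbV hfar
    refine ((h2 T w b hw hb hwV hbV).2.2 hfar).trans ?_
    apply div_le_div_of_nonneg_right _ (by positivity)
    linarith [le_abs_self C2]

/-! ## Faces and edges -/

theorem dn_eW (e : Pt × Bool) : dn e.1 (eW e) ≤ 1 := by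
  rw [dn_le_iff]
  rcases e_cases e with ⟨_, ⟨h, _⟩ | ⟨h, _⟩⟩ | ⟨_, ⟨h, _⟩ | ⟨h, _⟩⟩ <;> rw [h] <;> simp

theorem dn_eB (e : Pt × Bool) : dn e.1 (eB e) ≤ 1 := by
  rw [dn_le_iff]
  rcases e_cases e with ⟨_, ⟨_, h⟩ | ⟨_, h⟩⟩ | ⟨_, ⟨_, h⟩ | ⟨_, h⟩⟩ <;> rw [h] <;> simp

theorem faceSet_ne (T : Temp) (hfin : T.cells.Finite) : ∃ y, y ∉ T.faceSet := by
  obtain ⟨c0, hc0⟩ := exists_not_mem_of_finite hfin
  exact ⟨(2 * c0.1, 2 * c0.2), by rw [mem_faceSet_iff]; simpa using hc0⟩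

/-- pointwise bound of one factor in terms of the faces -/
theorem one_factor {T : Temp} (hfin : T.cells.Finite) {C : ℝ} (hC : 0 ≤ C) (hK : KUnif T C)
    {e e' : Pt × Bool} (h1 : eW e' ∈ T.V) (h2 : eB e ∈ T.V) :
    |Kinv T.V (eB e) (eW e')| ≤ 3 * C / (1 + min (dn e.1 e'.1 : ℝ) (dF T.faceSet e'.1)) := by
  have hne := faceSet_ne T hfin
  refine (hK (eW e') (eB e) (eW_white e') (eB_black e) h1 h2).trans ?_
  have a1 := dn_eB e
  have a2 := dn_eW e'
  have a3 := dn_tri e.1 (eB e) e'.1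
  have a4 := dn_tri (eB e) (eW e') e'.1
  rw [dn_comm (eW e') e'.1] at a4
  have a5 := dF_lip hne e'.1 (eW e')
  have b1 : (dn e.1 e'.1 : ℝ) ≤ dn (eB e) (eW e') + 2 := by exact_mod_cast (by omega)
  have b2 : (dF T.faceSet e'.1 : ℝ) ≤ dF T.faceSet (eW e') + 2 := by exact_mod_cast (by omega)
  set x := (dn (eB e) (eW e') : ℝ)
  set y := (dF T.faceSet (eW e') : ℝ)
  set x' := (dn e.1 e'.1 : ℝ)
  set y' := (dF T.faceSet e'.1 : ℝ)
  have hx : 0 ≤ x := by positivity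
  have hy : 0 ≤ y := by positivity
  have hx' : 0 ≤ x' := by positivity
  have hy' : 0 ≤ y' := by positivity
  have hm : min x' y' ≤ min x y + 2 := by
    rw [← min_add_add_right]
    exact min_le_min b1 b2
  have hm0 : 0 ≤ min x y := le_min hx hy
  have hm0' : 0 ≤ min x' y' := le_min hx' hy'
  rw [div_le_div_iff₀ (by linarith) (by linarith)]
  nlinarith

/-- pointwise bound of the product of the two cross entries in terms of the faces -/
theorem two_factors {T : Temp} (hfin : T.cells.Finite) {C : ℝ} (hC : 0 ≤ C) (hK : KUnif T C)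
    {e e' : Pt × Bool} (h1 : eW e ∈ T.V) (h2 : eB e ∈ T.V) (h3 : eW e' ∈ T.V) (h4 : eB e' ∈ T.V) :
    |Kinv T.V (eB e) (eW e')| * |Kinv T.V (eB e') (eW e)| ≤
      36 * C ^ 2 * (1 / (1 + (dn e.1 e'.1 : ℝ)) ^ 2) ∨
    ((dF T.faceSet e.1 < dn e.1 e'.1 ∨ dF T.faceSet e'.1 < dn e.1 e'.1) ∧
      |Kinv T.V (eB e) (eW e')| * |Kinv T.V (eB e') (eW e)| ≤
      36 * C ^ 2 * (1 / ((1 + (dF T.faceSet e.1 : ℝ)) * (1 + (dF T.faceSet e'.1 : ℝ))))) := by
  have hne := faceSet_ne T hfin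
  have k1 := one_factor hfin hC hK h3 h2
  have k2 := one_factor hfin hC hK h1 h4
  rw [dn_comm e'.1 e.1] at k2
  have l1 := dF_lip hne e.1 e'.1
  have l2 := dF_lip hne e'.1 e.1
  rw [dn_comm e'.1 e.1] at l2
  have hprod : |Kinv T.V (eB e) (eW e')| * |Kinv T.V (eB e') (eW e)| ≤
      (3 * C / (1 + min (dn e.1 e'.1 : ℝ) (dF T.faceSet e'.1))) *
      (3 * C / (1 + min (dn e.1 e'.1 : ℝ) (dF T.faceSet e.1))) :=
    mul_le_mul k1 k2 (abs_nonneg _) (by positivity)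
  by_cases hcase : dF T.faceSet e.1 < dn e.1 e'.1 ∨ dF T.faceSet e'.1 < dn e.1 e'.1
  · right
    refine ⟨hcase, hprod.trans ?_⟩
    have m1 : (1 + (dF T.faceSet e'.1 : ℝ)) / 2 ≤ 1 + min (dn e.1 e'.1 : ℝ) (dF T.faceSet e'.1) := by
      rcases min_cases (dn e.1 e'.1 : ℝ) (dF T.faceSet e'.1 : ℝ) with ⟨h, _⟩ | ⟨h, _⟩
      · rw [h]
        have : dF T.faceSet e'.1 ≤ 2 * dn e.1 e'.1 := by omega
        have : (dF T.faceSet e'.1 : ℝ) ≤ 2 * dn e.1 e'.1 := by exact_mod_cast this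
        linarith
      · rw [h]
        have : (0 : ℝ) ≤ dF T.faceSet e'.1 := by positivity
        linarith
    have m2 : (1 + (dF T.faceSet e.1 : ℝ)) / 2 ≤ 1 + min (dn e.1 e'.1 : ℝ) (dF T.faceSet e.1) := by
      rcases min_cases (dn e.1 e'.1 : ℝ) (dF T.faceSet e.1 : ℝ) with ⟨h, _⟩ | ⟨h, _⟩
      · rw [h]
        have : dF T.faceSet e.1 ≤ 2 * dn e.1 e'.1 := by omega
        have : (dF T.faceSet e.1 : ℝ) ≤ 2 * dn e.1 e'.1 := by exact_mod_cast this
        linarith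
      · rw [h]
        have : (0 : ℝ) ≤ dF T.faceSet e.1 := by positivity
        linarith
    calc _ ≤ (3 * C / ((1 + (dF T.faceSet e'.1 : ℝ)) / 2)) *
          (3 * C / ((1 + (dF T.faceSet e.1 : ℝ)) / 2)) := by
          apply mul_le_mul _ _ (by positivity) (by positivity)
          · exact div_le_div_of_nonneg_left (by positivity) (by positivity) m1
          · exact div_le_div_of_nonneg_left (by positivity) (by positivity) m2
      _ = _ := by field_simp; ring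
  · left
    push Not at hcase
    have e1 : min (dn e.1 e'.1 : ℝ) (dF T.faceSet e'.1) = dn e.1 e'.1 :=
      min_eq_left (by exact_mod_cast hcase.2)
    have e2 : min (dn e.1 e'.1 : ℝ) (dF T.faceSet e.1) = dn e.1 e'.1 :=
      min_eq_left (by exact_mod_cast hcase.1)
    rw [e1, e2] at hprod
    refine hprod.trans ?_
    have : 3 * C / (1 + (dn e.1 e'.1 : ℝ)) * (3 * C / (1 + (dn e.1 e'.1 : ℝ))) =
        9 * C ^ 2 * (1 / (1 + (dn e.1 e'.1 : ℝ)) ^ 2) := by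
      field_simp; ring
    rw [this]
    apply mul_le_mul_of_nonneg_right _ (by positivity)
    nlinarith [sq_nonneg C]

/-- far pairs near the boundary gain -/
theorem two_factors_far {T : Temp} (g : TGeo T) {CK : ℝ} (hCK : 0 ≤ CK) (hK : KFar T CK)
    {β C : ℝ} (hdec : G45.SupDecay C β) (hβ : 0 < β) (hC : 0 ≤ C) {e e' : Pt × Bool}
    (h1 : eW e ∈ T.V) (h2 : eB e ∈ T.V) (h3 : eW e' ∈ T.V) (h4 : eB e' ∈ T.V) {r L d : ℕ}
    (hr : dF T.faceSet e.1 ≤ r) (hr' : dF T.faceSet e'.1 ≤ r) (hL : 2 * (r + 2) + 1 ≤ L)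
    (hd : (r + 2) + 2 * L ≤ d) (hfar : 6 * d + 22 ≤ dn e.1 e'.1) :
    |Kinv T.V (eB e) (eW e')| * |Kinv T.V (eB e') (eW e)| ≤
      480 * C * CK ^ 2 * ((3 * ((r : ℝ) + 2) / ((L : ℝ) + 1)) ^ β * (2 + Real.log L)) *
      (1 / ((1 + (dF T.faceSet e.1 : ℝ)) * (1 + (dF T.faceSet e'.1 : ℝ)))) := by
  have hne := faceSet_ne T g.fin
  have a1 := dn_eW e
  have a2 := dn_eW e'
  have a3 := dn_tri e.1 (eW e) e'.1
  have a4 := dn_tri (eW e) (eW e') e'.1
  rw [dn_comm (eW e') e'.1] at a4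
  have b1 := dF_lip hne (eW e) e.1
  have b2 := dF_lip hne (eW e') e'.1
  rw [dn_comm (eW e) e.1] at b1
  rw [dn_comm (eW e') e'.1] at b2
  have b3 := dF_lip hne e.1 (eW e)
  have b4 := dF_lip hne e'.1 (eW e')
  have key := kpair_gain g hCK hK hdec hβ hC (eW_white e) (eW_white e') (eB_black e) (eB_black e')
    h1 h3 h2 h4 (e_adj e) (e_adj e') (r := r + 2) (L := L) (d := d) (by omega) (by omega) hL hd
    (by omega)
  refine key.trans ?_
  have hlog : 0 ≤ Real.log L := Real.log_nonneg (by exact_mod_cast (by omega : 1 ≤ L))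
  have c1 : (1 + (dF T.faceSet e.1 : ℝ)) ≤ 2 * (1 + (dF T.faceSet (eW e) : ℝ)) := by
    have : 1 + dF T.faceSet e.1 ≤ 2 * (1 + dF T.faceSet (eW e)) := by omega
    exact_mod_cast this
  have c2 : (1 + (dF T.faceSet e'.1 : ℝ)) ≤ 2 * (1 + (dF T.faceSet (eW e') : ℝ)) := by
    have : 1 + dF T.faceSet e'.1 ≤ 2 * (1 + dF T.faceSet (eW e')) := by omega
    exact_mod_cast this
  have c3 : 1 / ((1 + (dF T.faceSet (eW e) : ℝ)) * (1 + (dF T.faceSet (eW e') : ℝ))) ≤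
      4 * (1 / ((1 + (dF T.faceSet e.1 : ℝ)) * (1 + (dF T.faceSet e'.1 : ℝ)))) := by
    rw [mul_one_div, div_le_div_iff₀ (by positivity) (by positivity)]
    have := mul_le_mul c1 c2 (by positivity) (by positivity)
    linarith
  push_cast
  calc 120 * C * CK ^ 2 / ((1 + (dF T.faceSet (eW e) : ℝ)) * (1 + (dF T.faceSet (eW e') : ℝ))) *
        (3 * ((r : ℝ) + 2) / ((L : ℝ) + 1)) ^ β * (2 + Real.log L)
      = 120 * C * CK ^ 2 * ((3 * ((r : ℝ) + 2) / ((L : ℝ) + 1)) ^ β * (2 + Real.log L)) *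
        (1 / ((1 + (dF T.faceSet (eW e) : ℝ)) * (1 + (dF T.faceSet (eW e') : ℝ)))) := by ring
    _ ≤ 120 * C * CK ^ 2 * ((3 * ((r : ℝ) + 2) / ((L : ℝ) + 1)) ^ β * (2 + Real.log L)) *
        (4 * (1 / ((1 + (dF T.faceSet e.1 : ℝ)) * (1 + (dF T.faceSet e'.1 : ℝ))))) := by
        apply mul_le_mul_of_nonneg_left c3 (by positivity)
    _ = _ := by ring

end Vale.Agent.P155.H904
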