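import Vale.Agent.P155.H904.GradU
import Vale.Agent.P155.G45.SkelG

/-!
# P155 block I: sums of Green potentials over the layers
-/

namespace Vale.Agent.P155.H904

open Vale.Agent.P155 Finset Skel

/-- `2 + log (R + 2)` -/
noncomputable def Lg (R : ℕ) : ℝ := 2 + Real.log ((R : ℝ) + 2)

theorem two_le_Lg (R : ℕ) : 2 ≤ Lg R := by
  unfold Lg
  have : 0 ≤ Real.log ((R : ℝ) + 2) := Real.log_nonneg (by
    have : (0 : ℝ) ≤ R := by positivity
    linarith)
  linarith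

theorem log2_le (m R : ℕ) (hm : 1 ≤ m) (hR : m ≤ 4 * (R + 2)) :
    ((Nat.log 2 m + 1 : ℕ) : ℝ) ≤ 4 * Lg R := by
  have h1 : (2 : ℝ) ^ (Nat.log 2 m) ≤ 4 * ((R : ℝ) + 2) := by
    have h := Nat.pow_log_le_self 2 (by omega : m ≠ 0)
    have : ((2 ^ Nat.log 2 m : ℕ) : ℝ) ≤ ((4 * (R + 2) : ℕ) : ℝ) := by exact_mod_cast h.trans hR
    push_cast at this
    exact this
  have h2 := Real.log_le_log (by positivity) h1
  rw [Real.log_pow, Real.log_mul (by norm_num) (by positivity)] at h2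
  have h3 : (1 : ℝ) / 2 ≤ Real.log 2 := by linarith [Real.log_two_gt_d9]
  have h4 : Real.log 4 ≤ 2 := by
    have : (4 : ℝ) = 2 ^ 2 := by norm_num
    rw [this, Real.log_pow]
    have := Real.log_two_lt_d9
    push_cast
    linarith
  have h5 : (Nat.log 2 m : ℝ) * (1 / 2) ≤ (Nat.log 2 m : ℝ) * Real.log 2 :=
    mul_le_mul_of_nonneg_left h3 (by positivity)
  have h6 : 0 ≤ Real.log ((R : ℝ) + 2) := Real.log_nonneg (by
    have : (0 : ℝ) ≤ R := by positivity
    linarith)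
  unfold Lg
  push_cast
  linarith

/-- the standing geometric facts about the face set -/
structure FGeo (T : Temp) (R : ℕ) : Prop where
  fin : T.faceSet.Finite
  cp : G45.CPr T.faceSet
  box : ∀ f, f ∈ T.faceSet → dn (0, 0) f ≤ R

theorem fgeo {T : Temp} {R : ℕ} (hFits : Fits T R) (hcp : L_cp) (hsub : Sub T T.V) :
    FGeo T R where
  fin := (Vale.Agent.P155.box (0, 0) R).finite_toSet.subset hFits
  cp := by
    obtain ⟨m, hm, _⟩ := hsub
    have h := hcp T 0 (m, m) (by unfold DD; exact mem_product.2 ⟨hm, hm⟩)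
    have e : Ok T 0 (m, m) = T.faceSet := by simp [Ok]
    rw [e] at h
    exact h
  box := fun f hf => G45.mem_box.1 (by exact_mod_cast hFits hf)

theorem dF_le_box {T : Temp} {R : ℕ} (h : FGeo T R) {f : Pt} (hf : dn (0, 0) f ≤ R + 2) :
    dF T.faceSet f ≤ 2 * R + 3 := by
  have hne : ((R : ℤ) + 1, 0) ∉ T.faceSet := by
    intro hc
    have := (dn_spec (0, 0) ((R : ℤ) + 1, 0)).1.2.1
    have := h.box _ hc
    simp only at *
    omega
  have h1 := dF_le (x := f) hne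
  have h2 : dn f ((R : ℤ) + 1, 0) ≤ 2 * R + 3 := by
    rw [dn_le_iff] at hf ⊢
    simp only [abs_le] at *
    push_cast at *
    omega
  omega

open Classical in
/-- **Sums of `nb U / D²`.** -/
theorem sum_nbU {C β : ℝ} (hβ : 0 < β) (hC : 0 ≤ C) (hSD : G45.SupDecay C β)
    (hOut : G45.OutDecay C β) :
    ∃ γ > (0 : ℝ), γ ≤ 1 ∧ ∃ K : ℝ, 0 ≤ K ∧ ∀ (T : Temp) (R : ℕ) (C0 : ℝ) (Φ U : Pt → ℝ), 1 ≤ R →
      FGeo T R → 0 ≤ C0 → (∀ y, 0 ≤ Φ y ∧ Φ y ≤ C0 / (R : ℝ) ^ 2) → IsGreen T.faceSet Φ U →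
      ∀ (p : Pt) (ρ : ℕ) (S : Finset Pt), (∀ x ∈ S, dn p x ≤ ρ ∧ dF T.faceSet x ≤ ρ) →
      (∀ x ∈ S, dn (0, 0) x ≤ R + 1) →
      ∑ f ∈ S, nb U f / dD T f ^ 2 ≤ K * C0 * Lg R * (((ρ : ℝ) + 2) / R) ^ γ := by
  obtain ⟨γ, hγ, hγ1, _, D, hD, hV⟩ := G45.visits_box' hβ hC hSD hOut
  refine ⟨γ, hγ, hγ1, 36 * D, by positivity, ?_⟩
  intro T R C0 Φ U hR hT hC0 hΦ hU p ρ S hS hS0
  have hne := G45.exists_notMem hT.fin
  have hU0 : ∀ x, 0 ≤ U x := G45.green_nonneg hT.fin hU (fun x _ => (hΦ x).1)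
  set S' := S ∪ S.image (fun f : Pt => (f.1 - 1, f.2)) ∪ S.image (fun f : Pt => (f.1, f.2 - 1))
    with hS'
  have hS'1 : ∀ x ∈ S', ∃ f ∈ S, dn f x ≤ 1 := by
    intro x hx
    simp only [hS', mem_union, mem_image] at hx
    rcases hx with (hx | ⟨f, hf, rfl⟩) | ⟨f, hf, rfl⟩
    · exact ⟨x, hx, by rw [dn_self]; omega⟩
    · exact ⟨f, hf, by rw [dn_le_iff]; simp⟩
    · exact ⟨f, hf, by rw [dn_le_iff]; simp⟩
  have hS'2 : ∀ x ∈ S', dn p x ≤ ρ + 1 ∧ dF T.faceSet x ≤ ρ + 1 ∧ dn (0, 0) x ≤ R + 2 := by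
    intro x hx
    obtain ⟨f, hf, hfx⟩ := hS'1 x hx
    obtain ⟨a1, a2⟩ := hS f hf
    have a3 := hS0 f hf
    have b1 := dn_tri p f x
    have b2 := dn_tri (0, 0) f x
    have b3 := dF_lip hne x f
    rw [dn_comm x f] at b3
    omega
  have e1 := sum_nb (S := S) (U := U) (D := dD T) hU0 (one_le_dD T)
    (fun f => dD_shift T hne (by rw [dn_le_iff]; simp))
    (fun f => dD_shift T hne (by rw [dn_le_iff]; simp)) (S' := S')
    (fun x hx => by simp only [hS', mem_union]; exact Or.inl (Or.inl hx))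
    (fun f hf => by
      simp only [hS', mem_union, mem_image]
      exact Or.inl (Or.inr ⟨f, hf, rfl⟩))
    (fun f hf => by
      simp only [hS', mem_union, mem_image]
      exact Or.inr ⟨f, hf, rfl⟩)
  refine e1.trans ?_
  -- dyadic sum
  set Dm : ℕ := min (ρ + 2) (2 * R + 4) with hDm
  have hDm1 : 1 ≤ Dm := by omega
  set J := Nat.log 2 Dm + 1 with hJ
  have hRpos : (0 : ℝ) < R := by exact_mod_cast hR
  set B : ℝ := D * C0 * (((ρ : ℝ) + 2) / R) ^ γ with hB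
  have hB0 : 0 ≤ B := by positivity
  have e2 : ∑ x ∈ S', U x / dD T x ^ 2 ≤ B * J := by
    apply dyadic_sum (dd := fun x => dF T.faceSet x) (fun x => rfl) hU0
    · intro x hx
      obtain ⟨a1, a2, a3⟩ := hS'2 x hx
      have a4 := dF_le_box hT a3
      have : 1 + dF T.faceSet x ≤ Dm := by omega
      exact lt_of_le_of_lt this (Nat.lt_pow_succ_log_self (by norm_num) _)
    · intro j hj
      have hj' : j ≤ Nat.log 2 Dm := by omega
      have hpow : 2 ^ j ≤ ρ + 2 := by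
        calc 2 ^ j ≤ 2 ^ Nat.log 2 Dm := Nat.pow_le_pow_right (by norm_num) hj'
          _ ≤ Dm := Nat.pow_log_le_self 2 (by omega)
          _ ≤ ρ + 2 := min_le_left _ _
      have := hV T.faceSet hT.fin hT.cp R (0, 0) hR (fun x hx => hT.box x hx) Φ U C0 hC0 hU
        (fun x _ => (hΦ x).1) (fun x _ => (hΦ x).2) p (2 ^ j) (ρ + 2)
        (Nat.one_le_two_pow) hpow (S'.filter (fun x => dF T.faceSet x ≤ 2 * 2 ^ j))
        (fun x hx => by have := (hS'2 x (mem_filter.1 hx).1).1; omega)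
        (fun x hx => (mem_filter.1 hx).2)
      push_cast at this
      refine this.trans (le_of_eq ?_)
      rw [hB]
      ring
  have e3 : (J : ℝ) ≤ 4 * Lg R := log2_le Dm R hDm1 (by omega)
  calc 9 * ∑ g ∈ S', U g / dD T g ^ 2 ≤ 9 * (B * J) := by linarith
    _ ≤ 9 * (B * (4 * Lg R)) := by
      have := mul_le_mul_of_nonneg_left e3 hB0
      linarith
    _ = 36 * D * C0 * Lg R * (((ρ : ℝ) + 2) / R) ^ γ := by rw [hB]; ring

/-- **Gradient of a Green potential near the boundary.** -/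
theorem grad_green {C β : ℝ} (hβ : 0 < β) (hC : 0 ≤ C) (hSD : G45.SupDecay C β) :
    ∃ K : ℝ, 1 ≤ K ∧ ∀ (O : Set Pt) (φ Φ u U : Pt → ℝ) (f : Pt), O.Finite →
      (∀ y, |φ y| ≤ Φ y) → IsGreen O φ u → IsGreen O Φ U →
      (∀ y, dn f y < dF O f → Φ y = 0) →
      |pX u f| ≤ K * nb U f / (1 + (dF O f : ℝ)) ∧ |pY u f| ≤ K * nb U f / (1 + (dF O f : ℝ)) := by
  obtain ⟨K, hK, h⟩ := grad_le_value hβ hC hSD
  refine ⟨2 * K, by linarith, ?_⟩
  intro O φ Φ u U f hO hφ hu hU hz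
  have hΦ0 : ∀ y, 0 ≤ Φ y := fun y => (abs_nonneg _).trans (hφ y)
  have hU0 : ∀ y, 0 ≤ U y := G45.green_nonneg hO hU (fun y _ => hΦ0 y)
  have huU : ∀ y, |u y| ≤ U y := G45.abs_green_le hO hu hU (fun y _ => hφ y)
  have hne := G45.exists_notMem hO
  have hnb : U f ≤ nb U f ∧ U (f.1 - 1, f.2) ≤ nb U f ∧ U (f.1, f.2 - 1) ≤ nb U f := by
    unfold nb
    have := hU0 f
    have := hU0 (f.1 - 1, f.2)
    have := hU0 (f.1, f.2 - 1)
    refine ⟨by linarith, by linarith, by linarith⟩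
  by_cases hf : f ∈ O
  · have hn := dF_pos hne hf
    have hn' : (1 : ℝ) ≤ dF O f := by exact_mod_cast hn
    have hl : ∀ y, dn f y < dF O f → lap u y = 0 ∧ lap U y = 0 := by
      intro y hy
      have hyO := G45.mem_of_lt_dF hy
      have h1 := hz y hy
      have h2 : φ y = 0 := by
        have := hφ y
        rw [h1] at this
        exact abs_nonpos_iff.1 this
      have h3 := hu.eq y hyO
      have h4 := hU.eq y hyO
      rw [h2] at h3
      rw [h1] at h4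
      exact ⟨by linarith, by linarith⟩
    have hconv : K * U f / (dF O f : ℝ) ≤ 2 * K * nb U f / (1 + (dF O f : ℝ)) := by
      rw [div_le_div_iff₀ (by linarith) (by linarith)]
      have h5 := hU0 f
      have h6 := hnb.1
      have h7 : K * U f ≤ K * nb U f := mul_le_mul_of_nonneg_left h6 (by linarith)
      have h8 : 0 ≤ K * U f := by positivity
      nlinarith
    constructor
    · exact (h f (dF O f) u U hn huU hl _ (adj_l f)).trans hconv
    · exact (h f (dF O f) u U hn huU hl _ (adj_d f)).trans hconv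
  · have h1 : dF O f = 0 := dF_eq_zero hf
    rw [h1]
    simp only [Nat.cast_zero, add_zero, div_one]
    unfold pX pY
    rw [hu.off f hf, zero_sub, abs_neg, zero_sub, abs_neg]
    have a1 := huU (f.1 - 1, f.2)
    have a2 := huU (f.1, f.2 - 1)
    have h3 : 0 ≤ nb U f := le_trans (hU0 f) hnb.1
    constructor <;> nlinarith [hnb.2.1, hnb.2.2]

end Vale.Agent.P155.H904
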